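import Claimed.Agent.R252.S6a.Phys.Defs

/-!
# ROW 252, unit S6a1, file 4: CALCULUS OF THE CLASS `sh2_val` IN CONSTANT DIRECTIONS; the three analytic cores of the gradient bound (06 l.138-172).   CONTRACT      (sub-architect helper11; prefix `k6a1_`)

PAPER-FREE.   Black boxes: `R252/Sheet/{Defs,AbsContract,MvContract}` (`sh2_val_line`, `sh2_interval`, `sh2_remez`, `sh2_val_contDiffOn`, `sh2_stable_pos`, ..), `R252/Remez/*`.
Statements are frozen (defects: message to helper11).   Provers replace the `sorry`s IN PLACE, helper lemmas directly above.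
LEAVES: L-252-P1-K1 (s1: algebra of `k6a1Dp`, `k6a1Dn`, `k6a1Dv`), K2 (`k6a1_hasDerivAt`), K3 (`k6a1_dir`), K4 (`k6a1_grad_remez`), K5 (`k6a1_lip`), K6 (`k6a1_narrow`), K7 (`k6a1_bern`), K8 (`k6a1_frz_core`).
-/

set_option autoImplicit false

namespace Claimed.Agent.R252

open MeasureTheory
open scoped ENNReal BigOperators

noncomputable section

/-! ## 1. algebra -/

theorem k6a1_pderiv_deg {n : ℕ} (P : MvPolynomial (Fin n) ℝ) (i : Fin n) : (MvPolynomial.pderiv i P).totalDegree ≤ P.totalDegree := by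
  classical
  show (MvPolynomial.pderiv i P).support.sup (fun s => s.sum fun _ e => e) ≤ _
  refine Finset.sup_le fun m hm => ?_
  have h1 := rmz_pderiv_support P i m hm
  have h2 := MvPolynomial.le_totalDegree h1
  refine le_trans ?_ h2
  rw [Finsupp.sum_add_index' (fun _ => rfl) (fun _ _ _ => rfl)]
  exact Nat.le_add_right _ _

/-- (`MvPolynomial.totalDegree_finset_sum`, `totalDegree_mul`, `totalDegree_C`; `totalDegree (pderiv b P) ≤ totalDegree P`: cf. `sh2_pderiv_totalDegree`, `rmz_pderiv_support`) -/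
theorem k6a1_Dp_deg {n : ℕ} (w : Fin n → ℝ) (P : MvPolynomial (Fin n) ℝ) : (k6a1Dp w P).totalDegree ≤ P.totalDegree := by
  unfold k6a1Dp
  refine MvPolynomial.totalDegree_finsetSum_le fun b _ => ?_
  refine (MvPolynomial.totalDegree_mul _ _).trans ?_
  rw [MvPolynomial.totalDegree_C, zero_add]
  exact k6a1_pderiv_deg P b

theorem k6a1_Dn_deg {n : ℕ} (m : ℕ) (w : Fin n → ℝ) (β Dc : MvPolynomial (Fin n) ℝ) : (k6a1Dn m w β Dc).totalDegree ≤ β.totalDegree + Dc.totalDegree := by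
  unfold k6a1Dn
  refine (MvPolynomial.totalDegree_add _ _).trans (max_le ?_ ?_)
  · refine (MvPolynomial.totalDegree_mul _ _).trans ?_
    have := k6a1_Dp_deg w β
    omega
  · refine (MvPolynomial.totalDegree_mul _ _).trans ?_
    have h1 := k6a1_Dp_deg w Dc
    have h2 := MvPolynomial.totalDegree_mul (MvPolynomial.C (1 / 2 - (m : ℝ))) β
    rw [MvPolynomial.totalDegree_C] at h2
    omega

theorem k6a1_Dp_add {n : ℕ} (w w' : Fin n → ℝ) (P : MvPolynomial (Fin n) ℝ) : k6a1Dp (w + w') P = k6a1Dp w P + k6a1Dp w' P := by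
  unfold k6a1Dp
  rw [← Finset.sum_add_distrib]
  refine Finset.sum_congr rfl fun b _ => ?_
  rw [Pi.add_apply, map_add, add_mul]

theorem k6a1_Dp_smul {n : ℕ} (c : ℝ) (w : Fin n → ℝ) (P : MvPolynomial (Fin n) ℝ) : k6a1Dp (c • w) P = MvPolynomial.C c * k6a1Dp w P := by
  unfold k6a1Dp
  rw [Finset.mul_sum]
  refine Finset.sum_congr rfl fun b _ => ?_
  rw [Pi.smul_apply, smul_eq_mul, map_mul, mul_assoc]

/-- `k6a1Dv` is linear in the direction -/
theorem k6a1_Dv_add {n : ℕ} (m : ℕ) (α β Dc : MvPolynomial (Fin n) ℝ) (w w' u : Fin n → ℝ) :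
    k6a1Dv m α β Dc (w + w') u = k6a1Dv m α β Dc w u + k6a1Dv m α β Dc w' u := by
  unfold k6a1Dv
  rw [← sh2_val_add]
  congr 1
  · exact k6a1_Dp_add w w' α
  · unfold k6a1Dn
    rw [k6a1_Dp_add, k6a1_Dp_add]
    ring

theorem k6a1_Dv_smul {n : ℕ} (m : ℕ) (α β Dc : MvPolynomial (Fin n) ℝ) (c : ℝ) (w u : Fin n → ℝ) :
    k6a1Dv m α β Dc (c • w) u = c * k6a1Dv m α β Dc w u := by
  unfold k6a1Dv
  have h := sh2_val_mul (m + 1) (MvPolynomial.C c) (k6a1Dp w α) (k6a1Dn m w β Dc) Dc u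
  rw [MvPolynomial.eval_C] at h
  rw [← h]
  congr 1
  · exact k6a1_Dp_smul c w α
  · unfold k6a1Dn
    rw [k6a1_Dp_smul, k6a1_Dp_smul]
    ring

theorem k6a1_Dv_zero {n : ℕ} (m : ℕ) (α β Dc : MvPolynomial (Fin n) ℝ) (u : Fin n → ℝ) :
    k6a1Dv m α β Dc 0 u = 0 := by
  have h := k6a1_Dv_smul m α β Dc 0 0 u
  rwa [zero_smul, zero_mul] at h

theorem k6a1_Dv_sum {n : ℕ} {ι : Type} (s : Finset ι) (m : ℕ) (α β Dc : MvPolynomial (Fin n) ℝ) (c : ι → ℝ) (w : ι → Fin n → ℝ) (u : Fin n → ℝ) :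
    k6a1Dv m α β Dc (∑ a ∈ s, c a • w a) u = ∑ a ∈ s, c a * k6a1Dv m α β Dc (w a) u := by
  classical
  induction s using Finset.induction_on with
  | empty => simpa using k6a1_Dv_zero m α β Dc u
  | insert a s ha ih =>
    rw [Finset.sum_insert ha, Finset.sum_insert ha, k6a1_Dv_add, k6a1_Dv_smul, ih]

theorem k6a1_Dv_meas {n : ℕ} (m : ℕ) (α β Dc : MvPolynomial (Fin n) ℝ) (w : Fin n → ℝ) : Measurable (k6a1Dv m α β Dc w) := by
  exact sh2_val_measurable (m + 1) _ _ _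

/-! ## 2. the derivative -/

/-- the derivative of a polynomial along a line (`MvPolynomial.induction_on`, or `HasFDerivAt` of `eval` via `pderiv`) -/
theorem k6a1_poly_hasDerivAt {n : ℕ} (P : MvPolynomial (Fin n) ℝ) (x w : Fin n → ℝ) (s : ℝ) :
    HasDerivAt (fun s : ℝ => MvPolynomial.eval (x + s • w) P) (MvPolynomial.eval (x + s • w) (k6a1Dp w P)) s := by
  induction P using MvPolynomial.induction_on with
  | C a =>
    have e : k6a1Dp w (MvPolynomial.C a) = 0 := by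
      unfold k6a1Dp
      simp
    rw [e]
    simpa using hasDerivAt_const s a
  | add p p' hp hp' =>
    have e : k6a1Dp w (p + p') = k6a1Dp w p + k6a1Dp w p' := by
      unfold k6a1Dp
      rw [← Finset.sum_add_distrib]
      refine Finset.sum_congr rfl fun b _ => ?_
      rw [map_add, mul_add]
    rw [e]
    simp only [map_add]
    exact hp.add hp'
  | mul_X p k hp =>
    have hk : HasDerivAt (fun s : ℝ => (x + s • w) k) (w k) s := by
      have h1 : HasDerivAt (fun s : ℝ => x k + s * w k) (1 * w k) s := ((hasDerivAt_id s).mul_const (w k)).const_add (x k)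
      simpa using h1
    have h := hp.mul hk
    have e1 : (fun s : ℝ => MvPolynomial.eval (x + s • w) (p * MvPolynomial.X k)) = fun s => MvPolynomial.eval (x + s • w) p * (x + s • w) k := by
      funext u
      simp
    have e2 : k6a1Dp w (p * MvPolynomial.X k) = k6a1Dp w p * MvPolynomial.X k + MvPolynomial.C (w k) * p := by
      classical
      unfold k6a1Dp
      simp only [Derivation.leibniz, MvPolynomial.pderiv_X, smul_eq_mul, mul_add, Finset.sum_add_distrib]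
      rw [add_comm, Finset.sum_mul]
      congr 1
      · refine Finset.sum_congr rfl fun b _ => ?_
        ring
      · rw [Finset.sum_eq_single k]
        · simp
        · intro b _ hb
          simp [hb.symm]
        · simp
    rw [e1, e2]
    refine h.congr_deriv ?_
    simp only [map_add, map_mul, MvPolynomial.eval_X, MvPolynomial.eval_C]
    ring

theorem k6a1_deriv_alg (m : ℕ) (A' B B' D' r : ℝ) (hr : 0 < r) :
    A' + ((B' * r + B * (D' / (2 * r))) * (r ^ 2) ^ m - B * r * ((m : ℝ) * (r ^ 2) ^ (m - 1) * D')) / ((r ^ 2) ^ m) ^ 2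
      = A' + (r ^ 2 * B' + (1 / 2 - (m : ℝ)) * B * D') * r / (r ^ 2) ^ (m + 1) := by
  have hr' := hr.ne'
  cases m with
  | zero =>
    simp
    field_simp
  | succ k =>
    simp only [Nat.add_sub_cancel]
    push_cast
    field_simp
    ring

/-- **`k6a1Dv` is the derivative along lines**, where `Dc > 0`:   `(α + β D^(1/2-m))' = α' + [D β' + (1/2-m) β D'] D^(1/2-(m+1))`   (`HasDerivAt.sqrt`, `HasDerivAt.div`, `HasDerivAt.pow`; `√D / D^m`, `D = √D √D`) -/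
theorem k6a1_hasDerivAt {n : ℕ} (m : ℕ) (α β Dc : MvPolynomial (Fin n) ℝ) (x w : Fin n → ℝ) (s : ℝ) (hs : 0 < MvPolynomial.eval (x + s • w) Dc) :
    HasDerivAt (fun s : ℝ => sh2_val m α β Dc (x + s • w)) (k6a1Dv m α β Dc w (x + s • w)) s := by
  have ha := k6a1_poly_hasDerivAt α x w s
  have hb := k6a1_poly_hasDerivAt β x w s
  have hD := k6a1_poly_hasDerivAt Dc x w s
  have h1 := ha.add ((hb.mul (hD.sqrt hs.ne')).div (hD.pow m) (pow_ne_zero m hs.ne'))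
  have e0 : (fun s : ℝ => sh2_val m α β Dc (x + s • w)) = (fun s : ℝ => MvPolynomial.eval (x + s • w) α) +
      ((fun s : ℝ => MvPolynomial.eval (x + s • w) β) * fun s : ℝ => Real.sqrt (MvPolynomial.eval (x + s • w) Dc)) /
        ((fun s : ℝ => MvPolynomial.eval (x + s • w) Dc) ^ m) := by
    funext t
    rfl
  rw [e0]
  refine h1.congr_deriv ?_
  unfold k6a1Dv k6a1Dn sh2_val
  simp only [map_add, map_mul, MvPolynomial.eval_C, Pi.pow_apply, Pi.mul_apply]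
  obtain ⟨r, hr, hrD⟩ : ∃ r : ℝ, 0 < r ∧ Real.sqrt (MvPolynomial.eval (x + s • w) Dc) = r := ⟨_, Real.sqrt_pos.2 hs, rfl⟩
  have hD2 : MvPolynomial.eval (x + s • w) Dc = r ^ 2 := by rw [← hrD, Real.sq_sqrt hs.le]
  rw [hrD, hD2]
  exact k6a1_deriv_alg m _ _ _ _ r hr

/-! ## 3. the three cores -/

/-- one natural constant for finitely many pairs (exponent, constant) -/
theorem k6a1_K_pick (dg : ℕ) (p : ℕ → ℕ) (C₀ : ℕ → ℝ) : ∃ C : ℕ, ∀ m ≤ dg, ∀ X : ℝ, 1 ≤ X → C₀ m * X ^ p m ≤ k6a1K C X := by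
  refine ⟨∑ m ∈ Finset.range (dg + 1), (p m + ⌈C₀ m⌉₊), ?_⟩
  intro m hm X hX
  have hmem : m ∈ Finset.range (dg + 1) := Finset.mem_range.2 (Nat.lt_succ_of_le hm)
  have h1 : p m + ⌈C₀ m⌉₊ ≤ ∑ m ∈ Finset.range (dg + 1), (p m + ⌈C₀ m⌉₊) :=
    Finset.single_le_sum (f := fun m => p m + ⌈C₀ m⌉₊) (fun _ _ => Nat.zero_le _) hmem
  obtain ⟨C, hC⟩ : ∃ C : ℕ, C = ∑ m ∈ Finset.range (dg + 1), (p m + ⌈C₀ m⌉₊) := ⟨_, rfl⟩
  rw [← hC] at h1 ⊢
  have h2 : C₀ m ≤ (C : ℝ) := (Nat.le_ceil _).trans (by exact_mod_cast (Nat.le_add_left _ _).trans h1)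
  have h3 : X ^ p m ≤ X ^ C := pow_le_pow_right₀ hX ((Nat.le_add_right _ _).trans h1)
  have h4 : 0 ≤ X ^ p m := by positivity
  unfold k6a1K
  calc C₀ m * X ^ p m ≤ (C : ℝ) * X ^ p m := mul_le_mul_of_nonneg_right h2 h4
    _ ≤ (C : ℝ) * X ^ C := mul_le_mul_of_nonneg_left h3 (Nat.cast_nonneg _)

/-- **(6.4), core.**   A member of the class follows a quadratic `x0 + x1 τ + x2 τ²` to `M` along a line, on a set `T` of times of measure `≥ θ H` inside an interval of length `H`: the derivatives agree to `C (kap/θ)^C M / H` at the times of `T`.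
PLAN: `τ₁ = sInf T`, `τ₂ = sSup T`, `t0 = (τ₁+τ₂)/2`, `r = (τ₂-τ₁)/2`, `θ H / 2 ≤ r ≤ H / 2`; the chord `x + τ w`, `τ ∈ [τ₁, τ₂]`, stays in the closed convex box, so `Dl` of `sh2_val_line` is stable there;
`sh2_interval (max dg 2) 1 m` (take the max of the constants over `m ≤ dg`) for `A - (x0 + x1 X + x2 X²)`, `B`, `Dl`, `E = T`, with its `θ` (`θ (2 r) ≤ θ H ≤ vol T`), order `1`;
`iteratedDeriv_one`, `k6a1_hasDerivAt` (`.deriv`), derivative of the quadratic. -/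
theorem k6a1_dir (dg : ℕ) : ∃ C : ℕ, ∀ (n m : ℕ) (α β Dc : MvPolynomial (Fin n) ℝ) (lo hi x w : Fin n → ℝ) (kap θ M H t₁ x0 x1 x2 : ℝ) (T : Set ℝ),
    m ≤ dg → α.totalDegree ≤ dg → β.totalDegree ≤ dg → Dc.totalDegree ≤ dg → 1 ≤ kap → sh2Stable kap Dc lo hi → 0 < θ → θ ≤ 1 → 0 < H → 0 ≤ M →
    T ⊆ Set.Icc t₁ (t₁ + H) → ENNReal.ofReal (θ * H) ≤ volume T →
    (∀ τ ∈ T, x + τ • w ∈ Set.Icc lo hi ∧ |sh2_val m α β Dc (x + τ • w) - (x0 + x1 * τ + x2 * τ ^ 2)| ≤ M) →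
    ∀ τ ∈ T, |k6a1Dv m α β Dc w (x + τ • w) - (x1 + 2 * x2 * τ)| ≤ k6a1K C (kap / θ) * M / H := by
  choose p C₀ hC₀ h using fun m : ℕ => sh2_interval (max dg 2) 1 m
  obtain ⟨C, hC⟩ := k6a1_K_pick dg (fun m => p m + 1) (fun m => 2 * C₀ m)
  refine ⟨C, ?_⟩
  intro n m α β Dc lo hi x w kap θ M H t₁ x0 x1 x2 T hm hα hβ hD hkap hst hθ hθ1 hH hM hT hvol hfit τ hτ
  have hX : 1 ≤ kap / θ := by
    rw [le_div_iff₀ hθ]; linarith
  have hne : T.Nonempty := ⟨τ, hτ⟩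
  have hbb : BddBelow T := ⟨t₁, fun s hs => (hT hs).1⟩
  have hba : BddAbove T := ⟨t₁ + H, fun s hs => (hT hs).2⟩
  obtain ⟨τ₁, hτ₁⟩ : ∃ τ₁ : ℝ, τ₁ = sInf T := ⟨_, rfl⟩
  obtain ⟨τ₂, hτ₂⟩ : ∃ τ₂ : ℝ, τ₂ = sSup T := ⟨_, rfl⟩
  have hTsub : T ⊆ Set.Icc τ₁ τ₂ := fun s hs => ⟨hτ₁ ▸ csInf_le hbb hs, hτ₂ ▸ le_csSup hba hs⟩
  have h1 : t₁ ≤ τ₁ := hτ₁ ▸ le_csInf hne fun s hs => (hT hs).1
  have h2 : τ₂ ≤ t₁ + H := hτ₂ ▸ csSup_le hne fun s hs => (hT hs).2
  have hθH : 0 < θ * H := mul_pos hθ hH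
  have hlen : θ * H ≤ τ₂ - τ₁ := by
    have h3 : ENNReal.ofReal (θ * H) ≤ ENNReal.ofReal (τ₂ - τ₁) := by
      refine hvol.trans ((measure_mono hTsub).trans ?_)
      rw [Real.volume_Icc]
    rcases (ENNReal.ofReal_le_ofReal_iff').1 h3 with h4 | h4
    · exact h4
    · linarith
  -- the chord stays in the box
  have hcont : Continuous fun s : ℝ => x + s • w := by fun_prop
  have hclosed : IsClosed ((fun s : ℝ => x + s • w) ⁻¹' Set.Icc lo hi) := isClosed_Icc.preimage hcont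
  have hTP : T ⊆ (fun s : ℝ => x + s • w) ⁻¹' Set.Icc lo hi := fun s hs => (hfit s hs).1
  have hcl : closure T ⊆ (fun s : ℝ => x + s • w) ⁻¹' Set.Icc lo hi := closure_minimal hTP hclosed
  have hP1 : x + τ₁ • w ∈ Set.Icc lo hi := hcl (hτ₁ ▸ csInf_mem_closure hne hbb)
  have hP2 : x + τ₂ • w ∈ Set.Icc lo hi := hcl (hτ₂ ▸ csSup_mem_closure hne hba)
  have hchord : ∀ s ∈ Set.Icc τ₁ τ₂, x + s • w ∈ Set.Icc lo hi := by
    intro s hs
    have hpos : 0 < τ₂ - τ₁ := by linarith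
    have h3 := (convex_Icc lo hi).add_smul_sub_mem hP1 hP2 (t := (s - τ₁) / (τ₂ - τ₁))
      ⟨div_nonneg (by linarith [hs.1]) hpos.le, (div_le_one hpos).2 (by linarith [hs.2])⟩
    have e : x + τ₁ • w + ((s - τ₁) / (τ₂ - τ₁)) • (x + τ₂ • w - (x + τ₁ • w)) = x + s • w := by
      funext i
      simp only [Pi.add_apply, Pi.smul_apply, Pi.sub_apply, smul_eq_mul]
      field_simp
      ring
    rwa [e] at h3
  obtain ⟨A, B, Dl, hA, hB, hDl, e1, e2⟩ := sh2_val_line m α β Dc x w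
  obtain ⟨D0, hD0, hst'⟩ := hst
  obtain ⟨r, hr⟩ : ∃ r : ℝ, r = (τ₂ - τ₁) / 2 := ⟨_, rfl⟩
  obtain ⟨t0, ht0⟩ : ∃ t0 : ℝ, t0 = (τ₁ + τ₂) / 2 := ⟨_, rfl⟩
  have hr0 : 0 < r := by rw [hr]; linarith
  have el : t0 - r = τ₁ := by rw [ht0, hr]; ring
  have eu : t0 + r = τ₂ := by rw [ht0, hr]; ring
  obtain ⟨Q, hQ⟩ : ∃ Q : Polynomial ℝ, Q = Polynomial.C x0 + Polynomial.C x1 * Polynomial.X + Polynomial.C x2 * Polynomial.X ^ 2 := ⟨_, rfl⟩
  have hQdeg : Q.natDegree ≤ 2 := by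
    rw [hQ]
    compute_degree
  have hQev : ∀ s : ℝ, Q.eval s = x0 + x1 * s + x2 * s ^ 2 := by
    intro s
    rw [hQ]
    simp
  have hAQ : (A - Q).natDegree ≤ max dg 2 :=
    (Polynomial.natDegree_sub_le _ _).trans (max_le_max (hA.trans hα) hQdeg)
  have hfun : (fun t : ℝ => (A - Q).eval t + B.eval t * Real.sqrt (Dl.eval t) / Dl.eval t ^ m)
      = fun t : ℝ => sh2_val m α β Dc (x + t • w) - (x0 + x1 * t + x2 * t ^ 2) := by
    funext t
    rw [e2, Polynomial.eval_sub, hQev]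
    ring
  have h3 := h m kap (A - Q) B Dl D0 t0 r θ M T hkap hAQ ((hB.trans hβ).trans (le_max_left _ _)) ((hDl.trans hD).trans (le_max_left _ _)) hD0 hr0
    (fun t ht => by
      rw [el, eu] at ht
      rw [← e1 t]
      exact hst' _ (hchord t ht)) hθ (by rw [el, eu]; exact hTsub)
    (by
      refine le_trans (ENNReal.ofReal_le_ofReal ?_) hvol
      have : 2 * r ≤ H := by rw [hr]; linarith
      exact mul_le_mul_of_nonneg_left this hθ.le)
    (fun t ht => by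
      have := congrFun hfun t
      rw [this]
      exact (hfit t ht).2) 1 le_rfl τ (by rw [el, eu]; exact hTsub hτ)
  rw [hfun, iteratedDeriv_one] at h3
  have hpos : 0 < MvPolynomial.eval (x + τ • w) Dc :=
    lt_of_lt_of_le (div_pos hD0 (by linarith)) (hst' _ (hfit τ hτ).1).1
  have hder : HasDerivAt (fun t : ℝ => sh2_val m α β Dc (x + t • w) - (x0 + x1 * t + x2 * t ^ 2))
      (k6a1Dv m α β Dc w (x + τ • w) - (x1 + 2 * x2 * τ)) τ := by
    refine (k6a1_hasDerivAt m α β Dc x w τ hpos).sub ?_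
    have h4 : HasDerivAt (fun t : ℝ => x0 + x1 * t + x2 * t ^ 2) (x1 * 1 + x2 * ((2 : ℕ) * τ ^ (2 - 1) * 1)) τ :=
      (((hasDerivAt_id τ).const_mul x1).const_add x0).add (((hasDerivAt_id τ).pow 2).const_mul x2)
    refine h4.congr_deriv ?_
    norm_num
    ring
  rw [hder.deriv, pow_one] at h3
  refine h3.trans ?_
  have hC' := hC m hm (kap / θ) hX
  have hC0 := hC₀ m
  have hr2 : θ * H / 2 ≤ r := by rw [hr]; linarith
  have hXp : 0 ≤ (kap / θ) ^ p m := by positivity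
  -- `M / r ≤ 2 (kap/θ) M / H`
  have h5 : C₀ m * (kap / θ) ^ p m * M / r ≤ (2 * C₀ m * (kap / θ) ^ (p m + 1)) * M / H := by
    rw [div_le_div_iff₀ hr0 hH, pow_succ]
    have h6 : H ≤ 2 * (kap / θ) * r := by
      have h7 : H = 2 * (1 / θ) * (θ * H / 2) := by field_simp
      have h8 : 1 / θ ≤ kap / θ := div_le_div_of_nonneg_right hkap hθ.le
      calc H = 2 * (1 / θ) * (θ * H / 2) := h7
        _ ≤ 2 * (kap / θ) * r := by
            apply mul_le_mul (by linarith) hr2 (by positivity) (by positivity)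
    have h9 : 0 ≤ C₀ m * (kap / θ) ^ p m * M := by positivity
    calc C₀ m * (kap / θ) ^ p m * M * H ≤ C₀ m * (kap / θ) ^ p m * M * (2 * (kap / θ) * r) := mul_le_mul_of_nonneg_left h6 h9
      _ = 2 * C₀ m * ((kap / θ) ^ p m * (kap / θ)) * M * r := by ring
  refine h5.trans ?_
  exact div_le_div_of_nonneg_right (mul_le_mul_of_nonneg_right hC' hM) hH.le

/-- **Remez for a derivative component** (`sh2_remez n (2 dg) 0 (m+1)`, first clause of `sh2Bd`; `k6a1_Dp_deg`, `k6a1_Dn_deg`; max of the constants over `m ≤ dg`).   `Eu` is ANY subset of the box. -/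
theorem k6a1_grad_remez (n dg : ℕ) : ∃ C : ℕ, ∀ (m : ℕ) (α β Dc : MvPolynomial (Fin n) ℝ) (lo hi w : Fin n → ℝ) (kap θ Λ : ℝ) (Eu : Set (Fin n → ℝ)),
    m ≤ dg → α.totalDegree ≤ dg → β.totalDegree ≤ dg → Dc.totalDegree ≤ dg → 1 ≤ kap → (∀ a, lo a < hi a) → sh2Stable kap Dc lo hi → 0 < θ → θ ≤ 1 →
    Eu ⊆ Set.Icc lo hi → ENNReal.ofReal θ * volume (Set.Icc lo hi) ≤ volume Eu → (∀ u ∈ Eu, |k6a1Dv m α β Dc w u| ≤ Λ) →
    ∀ u ∈ Set.Icc lo hi, |k6a1Dv m α β Dc w u| ≤ k6a1K C (kap / θ) * Λ := by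
  choose p C₀ hC₀ h using fun m : ℕ => sh2_remez n (2 * dg) 0 (m + 1)
  obtain ⟨C, hC⟩ := k6a1_K_pick dg p C₀
  refine ⟨C, ?_⟩
  intro m α β Dc lo hi w kap θ Λ Eu hm hα hβ hD hkap hlo hst hθ hθ1 hEu hvol hΛ u hu
  have hX : 1 ≤ kap / θ := by
    rw [le_div_iff₀ hθ]; linarith
  have h1 := (h m kap (k6a1Dp w α) (k6a1Dn m w β Dc) Dc lo hi θ Λ Eu hkap ((k6a1_Dp_deg w α).trans (by omega))
    ((k6a1_Dn_deg m w β Dc).trans (by omega)) (by omega) hlo hst hθ hθ1 hEu hvol hΛ).1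
  have h2 := h1 u hu
  have hpos : 0 < C₀ m * (kap / θ) ^ p m := by
    have := hC₀ m
    positivity
  have hΛ0 : 0 ≤ Λ := by
    by_contra hcon
    have h3 : C₀ m * (kap / θ) ^ p m * Λ < 0 := mul_neg_of_pos_of_neg hpos (not_le.1 hcon)
    linarith [abs_nonneg (sh2_val (m + 1) (k6a1Dp w α) (k6a1Dn m w β Dc) Dc u)]
  exact h2.trans (mul_le_mul_of_nonneg_right (hC m hm _ hX) hΛ0)

/-- **mean value inequality in the box**: if `u' - u = ∑ c_a w_a` and all the derivatives in the directions `w_a` are `≤ Λ` on the box, then `|F u' - F u| ≤ (∑ |c_a|) Λ`.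
PLAN: `h s = F (u + s (u' - u))` on `[0,1]`, the segment stays in the box (convex), `Dc > 0` there (`sh2_stable_pos`), `k6a1_hasDerivAt`, `k6a1_Dv_sum`, `Convex.norm_image_sub_le_of_norm_hasDerivWithin_le` / `image_norm_le_of_norm_deriv_right_le..`. -/
theorem k6a1_lip {n : ℕ} {ι : Type} [Fintype ι] (m : ℕ) (α β Dc : MvPolynomial (Fin n) ℝ) (lo hi : Fin n → ℝ) (kap Λ : ℝ) (hkap : 1 ≤ kap)
    (hst : sh2Stable kap Dc lo hi) (w : ι → Fin n → ℝ) (hΛ : ∀ a, ∀ u ∈ Set.Icc lo hi, |k6a1Dv m α β Dc (w a) u| ≤ Λ)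
    (u u' : Fin n → ℝ) (hu : u ∈ Set.Icc lo hi) (hu' : u' ∈ Set.Icc lo hi) (c : ι → ℝ) (hc : u' - u = ∑ a, c a • w a) :
    |sh2_val m α β Dc u' - sh2_val m α β Dc u| ≤ (∑ a, |c a|) * Λ := by
  have hseg : ∀ s ∈ Set.Icc (0 : ℝ) 1, u + s • (u' - u) ∈ Set.Icc lo hi := fun s hs =>
    (convex_Icc lo hi).add_smul_sub_mem hu hu' hs
  have hder : ∀ s ∈ Set.Icc (0 : ℝ) 1, HasDerivAt (fun s : ℝ => sh2_val m α β Dc (u + s • (u' - u)))
      (k6a1Dv m α β Dc (u' - u) (u + s • (u' - u))) s := fun s hs =>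
    k6a1_hasDerivAt m α β Dc u (u' - u) s (sh2_stable_pos hkap hst (hseg s hs))
  have hbd : ∀ s ∈ Set.Icc (0 : ℝ) 1, ‖k6a1Dv m α β Dc (u' - u) (u + s • (u' - u))‖ ≤ (∑ a, |c a|) * Λ := by
    intro s hs
    rw [hc, k6a1_Dv_sum, Real.norm_eq_abs, Finset.sum_mul, ← hc]
    refine (Finset.abs_sum_le_sum_abs _ _).trans (Finset.sum_le_sum fun a _ => ?_)
    rw [abs_mul]
    exact mul_le_mul_of_nonneg_left (hΛ a _ (hseg s hs)) (abs_nonneg _)
  have h1 := Convex.norm_image_sub_le_of_norm_hasDerivWithin_le (f := fun s : ℝ => sh2_val m α β Dc (u + s • (u' - u)))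
    (s := Set.Icc (0 : ℝ) 1) (fun s hs => (hder s hs).hasDerivWithinAt) hbd (convex_Icc _ _)
    (Set.left_mem_Icc.2 zero_le_one) (Set.right_mem_Icc.2 zero_le_one)
  simp only [one_smul, zero_smul, add_zero, add_sub_cancel, sub_zero, norm_one, mul_one, Real.norm_eq_abs] at h1
  exact h1

/-- **a large gradient predicts the velocity in a thin strip** (06 l.157-163).   `g = (g0, gy)` frozen gradient, `max (|g0|, |gy|_∞) > Λ`; all velocities `V ∈ S`, `|V|_∞ ≤ K`, satisfy `|g0 + gy · V| ≤ b`; `S` not empty.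
PLAN: `|g0| ≤ b + j K |gy|_∞`, so `|gy|_∞ ≥ (Λ - b)/(j K) > 0`; `ρ = √(gy ⬝ᵥ gy) ≥ |gy|_∞`; `n = gy / ρ`, `c = - g0 / ρ`; `|n · V - c| ≤ b / ρ ≤ b j K / (Λ - b) ≤ w`. -/
theorem k6a1_narrow (j : ℕ) (hj : 1 ≤ j) (g0 : ℝ) (gy : Fin j → ℝ) (K b w Λ : ℝ) (hK : 1 ≤ K) (hb : 0 ≤ b) (hw : 0 < w)
    (hΛ : b * (1 + j * K / w) ≤ Λ) (hg : Λ < |g0| ∨ ∃ a, Λ < |gy a|) (S : Set (Fin j → ℝ)) (hS : S.Nonempty)
    (hV : ∀ V ∈ S, ‖V‖ ≤ K ∧ |g0 + gy ⬝ᵥ V| ≤ b) :
    ∃ (n : Fin j → ℝ) (c : ℝ), n ⬝ᵥ n = 1 ∧ ∀ V ∈ S, |n ⬝ᵥ V - c| ≤ w := by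
  have : Nonempty (Fin j) := ⟨⟨0, hj⟩⟩
  obtain ⟨a₀, -, ha₀⟩ := Finset.exists_max_image (Finset.univ : Finset (Fin j)) (fun a => |gy a|) Finset.univ_nonempty
  have hj1 : (1 : ℝ) ≤ (j : ℝ) := by exact_mod_cast hj
  have hjK : 1 ≤ (j : ℝ) * K := by nlinarith
  have hΛe : b * (1 + j * K / w) = b + b * (j * K) / w := by ring
  have hq0 : 0 ≤ b * (j * K) / w := by positivity
  -- the main inequality
  have hG : b * (j * K) / w < (j * K) * |gy a₀| := by
    rcases hg with h | ⟨a, h⟩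
    · obtain ⟨V, hVS⟩ := hS
      obtain ⟨hV1, hV2⟩ := hV V hVS
      have h1 : |gy ⬝ᵥ V| ≤ (j * K) * |gy a₀| := by
        unfold dotProduct
        calc |∑ i, gy i * V i| ≤ ∑ i, |gy i * V i| := Finset.abs_sum_le_sum_abs _ _
          _ ≤ ∑ _i : Fin j, |gy a₀| * K := by
              refine Finset.sum_le_sum fun i _ => ?_
              rw [abs_mul]
              have h2 : |V i| ≤ K := by
                have := norm_le_pi_norm V i
                rw [Real.norm_eq_abs] at this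
                exact this.trans hV1
              exact mul_le_mul (ha₀ i (Finset.mem_univ i)) h2 (abs_nonneg _) (abs_nonneg _)
          _ = (j * K) * |gy a₀| := by
              rw [Finset.sum_const, Finset.card_univ, Fintype.card_fin, nsmul_eq_mul]; ring
      have h3 : |g0| ≤ b + |gy ⬝ᵥ V| := by
        have h4 : g0 = (g0 + gy ⬝ᵥ V) - gy ⬝ᵥ V := by ring
        calc |g0| = |(g0 + gy ⬝ᵥ V) - gy ⬝ᵥ V| := by rw [← h4]
          _ ≤ |g0 + gy ⬝ᵥ V| + |gy ⬝ᵥ V| := abs_sub _ _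
          _ ≤ b + |gy ⬝ᵥ V| := by linarith
      linarith
    · have h1 : Λ < |gy a₀| := lt_of_lt_of_le h (ha₀ a (Finset.mem_univ a))
      have h2 : 0 ≤ |gy a₀| := abs_nonneg _
      nlinarith
  have hjK0 : 0 < (j : ℝ) * K := by linarith
  have hG1 : b / w < |gy a₀| := by
    have e : b * (j * K) / w = (j * K) * (b / w) := by ring
    rw [e] at hG
    exact lt_of_mul_lt_mul_left hG hjK0.le
  have hG0 : 0 < |gy a₀| := lt_of_le_of_lt (by positivity) hG1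
  obtain ⟨ρ, hρ⟩ : ∃ ρ : ℝ, ρ = Real.sqrt (gy ⬝ᵥ gy) := ⟨_, rfl⟩
  have hdot : gy a₀ ^ 2 ≤ gy ⬝ᵥ gy := by
    unfold dotProduct
    have := Finset.single_le_sum (f := fun i => gy i * gy i) (fun i _ => mul_self_nonneg (gy i)) (Finset.mem_univ a₀)
    simpa [sq] using this
  have hρG : |gy a₀| ≤ ρ := by
    rw [hρ]
    exact Real.abs_le_sqrt hdot
  have hρ0 : 0 < ρ := lt_of_lt_of_le hG0 hρG
  have hρ2 : ρ * ρ = gy ⬝ᵥ gy := by
    rw [hρ]
    exact Real.mul_self_sqrt (le_trans (sq_nonneg _) hdot)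
  refine ⟨ρ⁻¹ • gy, -g0 / ρ, ?_, ?_⟩
  · rw [smul_dotProduct, dotProduct_smul, ← hρ2, smul_eq_mul, smul_eq_mul]
    field_simp
  · intro V hVS
    obtain ⟨-, hV2⟩ := hV V hVS
    rw [smul_dotProduct, smul_eq_mul]
    have e : ρ⁻¹ * (gy ⬝ᵥ V) - -g0 / ρ = (g0 + gy ⬝ᵥ V) / ρ := by
      field_simp
      ring
    rw [e, abs_div, abs_of_pos hρ0, div_le_iff₀ hρ0]
    have h5 : b < w * |gy a₀| := by
      rw [div_lt_iff₀ hw] at hG1
      linarith
    have h6 : w * |gy a₀| ≤ w * ρ := mul_le_mul_of_nonneg_left hρG hw.le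
    linarith

theorem k6a1_bern_single {n : ℕ} (w : Fin n → ℝ) : w = ∑ a, w a • (Pi.single a 1 : Fin n → ℝ) := by
  funext b
  simp [Finset.sum_apply, Pi.single_apply]

/-- **Bernstein in the box**: a member of the class bounded by `M` on the whole box has derivative `≤ C kap^C M ∑ |w_a| / side_a` in the direction `w`, at every point of the closed box.
PLAN: `w = ∑ a, w a • Pi.single a 1`, `k6a1_Dv_sum`: it is enough to bound `|k6a1Dv .. (Pi.single a 1) u| ≤ 2 B / (hi a - lo a)`.   `sh2_remez n dg 1 m` with `E` = the box, `θ = 1` (max of the constants over `m ≤ dg`): `sh2Bd 1 lo hi F B`, `B = C kap^p M`.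
Second clause of `sh2Bd` with `x = Function.update u a ((lo a + hi a)/2)`, `v = ((hi a - lo a)/2) • Pi.single a 1`, `t = (u a - (lo a + hi a)/2) / ((hi a - lo a)/2) ∈ [-1, 1]`, `x + t • v = u`;   `iteratedDeriv_one`, `k6a1_hasDerivAt` (`.deriv`; `Dc > 0`: `sh2_stable_pos`), `k6a1_Dv_smul`. -/
theorem k6a1_bern (n dg : ℕ) : ∃ C : ℕ, ∀ (m : ℕ) (α β Dc : MvPolynomial (Fin n) ℝ) (lo hi w : Fin n → ℝ) (kap M : ℝ),
    m ≤ dg → α.totalDegree ≤ dg → β.totalDegree ≤ dg → Dc.totalDegree ≤ dg → 1 ≤ kap → (∀ a, lo a < hi a) → sh2Stable kap Dc lo hi →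
    (∀ u ∈ Set.Icc lo hi, |sh2_val m α β Dc u| ≤ M) →
    ∀ u ∈ Set.Icc lo hi, |k6a1Dv m α β Dc w u| ≤ k6a1K C kap * M * ∑ a, |w a| / (hi a - lo a) := by
  choose p C₀ hC₀ h using fun m : ℕ => sh2_remez n dg 1 m
  obtain ⟨C, hC⟩ := k6a1_K_pick dg p (fun m => 2 * C₀ m)
  refine ⟨C, ?_⟩
  intro m α β Dc lo hi w kap M hm hα hβ hD hkap hlo hst hM u hu
  have hM0 : 0 ≤ M := (abs_nonneg _).trans (hM u hu)
  have hB := h m kap α β Dc lo hi 1 M (Set.Icc lo hi) hkap hα hβ hD hlo hst one_pos le_rfl subset_rfl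
    (by rw [ENNReal.ofReal_one, one_mul]) hM
  rw [div_one] at hB
  obtain ⟨B, hBdef⟩ : ∃ B : ℝ, B = C₀ m * kap ^ p m * M := ⟨_, rfl⟩
  rw [← hBdef] at hB
  have hax : ∀ a, |k6a1Dv m α β Dc (Pi.single a 1) u| ≤ 2 * B / (hi a - lo a) := by
    intro a
    obtain ⟨r, hrdef⟩ : ∃ r : ℝ, r = (hi a - lo a) / 2 := ⟨_, rfl⟩
    obtain ⟨c, hcdef⟩ : ∃ c : ℝ, c = (lo a + hi a) / 2 := ⟨_, rfl⟩
    have hr : 0 < r := by
      rw [hrdef]
      linarith [hlo a]
    have hc1 : c - r = lo a := by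
      rw [hcdef, hrdef]
      ring
    have hc2 : c + r = hi a := by
      rw [hcdef, hrdef]
      ring
    have hline : ∀ s : ℝ, Function.update u a c + s • (r • (Pi.single a 1 : Fin n → ℝ)) = Function.update u a (c + s * r) := by
      intro s
      funext b
      by_cases hb : b = a
      · subst hb
        simp
      · simp [Function.update_of_ne hb, Pi.single_eq_of_ne hb]
    have hseg : ∀ s ∈ Set.Icc (-1 : ℝ) 1, Function.update u a c + s • (r • (Pi.single a 1 : Fin n → ℝ)) ∈ Set.Icc lo hi := by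
      intro s hs
      rw [hline, Set.mem_Icc, Pi.le_def, Pi.le_def]
      constructor
      · intro b
        by_cases hb : b = a
        · subst hb
          rw [Function.update_self]
          nlinarith [mul_nonneg hr.le (by linarith [hs.1] : (0 : ℝ) ≤ 1 + s)]
        · rw [Function.update_of_ne hb]
          exact hu.1 b
      · intro b
        by_cases hb : b = a
        · subst hb
          rw [Function.update_self]
          nlinarith [mul_nonneg hr.le (by linarith [hs.2] : (0 : ℝ) ≤ 1 - s)]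
        · rw [Function.update_of_ne hb]
          exact hu.2 b
    have ht : (u a - c) / r ∈ Set.Icc (-1 : ℝ) 1 := by
      constructor
      · rw [le_div_iff₀ hr]
        linarith [hu.1 a]
      · rw [div_le_iff₀ hr]
        linarith [hu.2 a]
    have hxt : Function.update u a c + ((u a - c) / r) • (r • (Pi.single a 1 : Fin n → ℝ)) = u := by
      rw [hline, div_mul_cancel₀ _ hr.ne', add_sub_cancel, Function.update_eq_self]
    have h2 := hB.2.1 (Function.update u a c) (r • (Pi.single a 1 : Fin n → ℝ)) hseg 1 le_rfl _ ht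
    have hpos : 0 < MvPolynomial.eval (Function.update u a c + ((u a - c) / r) • (r • (Pi.single a 1 : Fin n → ℝ))) Dc := by
      rw [hxt]
      exact sh2_stable_pos hkap hst hu
    rw [iteratedDeriv_one, (k6a1_hasDerivAt m α β Dc _ _ _ hpos).deriv, hxt, k6a1_Dv_smul, abs_mul, abs_of_pos hr] at h2
    rw [le_div_iff₀ (by linarith [hlo a])]
    have e : hi a - lo a = 2 * r := by
      rw [hrdef]
      ring
    rw [e]
    linarith
  have e := k6a1_Dv_sum Finset.univ m α β Dc w (fun a => (Pi.single a 1 : Fin n → ℝ)) u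
  rw [← k6a1_bern_single w] at e
  have hS0 : 0 ≤ ∑ a, |w a| / (hi a - lo a) :=
    Finset.sum_nonneg fun a _ => div_nonneg (abs_nonneg _) (by linarith [hlo a])
  have h2B : 2 * B ≤ k6a1K C kap * M := by
    rw [hBdef]
    calc 2 * (C₀ m * kap ^ p m * M) = (2 * C₀ m * kap ^ p m) * M := by ring
      _ ≤ k6a1K C kap * M := mul_le_mul_of_nonneg_right (hC m hm kap hkap) hM0
  rw [e]
  calc |∑ a, w a * k6a1Dv m α β Dc (Pi.single a 1) u| ≤ ∑ a, |w a * k6a1Dv m α β Dc (Pi.single a 1) u| := Finset.abs_sum_le_sum_abs _ _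
    _ ≤ ∑ a, 2 * B * (|w a| / (hi a - lo a)) := by
        refine Finset.sum_le_sum fun a _ => ?_
        rw [abs_mul]
        calc |w a| * |k6a1Dv m α β Dc (Pi.single a 1) u| ≤ |w a| * (2 * B / (hi a - lo a)) :=
              mul_le_mul_of_nonneg_left (hax a) (abs_nonneg _)
          _ = 2 * B * (|w a| / (hi a - lo a)) := by ring
    _ = 2 * B * ∑ a, |w a| / (hi a - lo a) := (Finset.mul_sum _ _ _).symm
    _ ≤ k6a1K C kap * M * ∑ a, |w a| / (hi a - lo a) := mul_le_mul_of_nonneg_right h2B hS0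

theorem k6a1_bern_Kmul (C C' : ℕ) {K : ℝ} (hK : 1 ≤ K) : k6a1K C K * k6a1K C' K ≤ k6a1K (C * C' + C + C') K := by
  unfold k6a1K
  have h1 : K ^ C * K ^ C' ≤ K ^ (C * C' + C + C') := by
    rw [← pow_add]
    exact pow_le_pow_right₀ hK (by omega)
  have h2 : ((C : ℝ) * (C' : ℝ)) ≤ ((C * C' + C + C' : ℕ) : ℝ) := by
    push_cast
    have a1 : (0 : ℝ) ≤ (C : ℝ) := Nat.cast_nonneg _
    have a2 : (0 : ℝ) ≤ (C' : ℝ) := Nat.cast_nonneg _
    linarith
  calc (C : ℝ) * K ^ C * ((C' : ℝ) * K ^ C') = ((C : ℝ) * (C' : ℝ)) * (K ^ C * K ^ C') := by ring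
    _ ≤ ((C * C' + C + C' : ℕ) : ℝ) * K ^ (C * C' + C + C') := mul_le_mul h2 h1 (by positivity) (Nat.cast_nonneg _)

/-- **the derivative components are Lipschitz in the box.**
PLAN: `F₁ = k6a1Dv m α β Dc w = sh2_val (m+1) (k6a1Dp w α) (k6a1Dn m w β Dc) Dc` (definition), degrees `≤ 2 dg`, `m + 1 ≤ 2 dg + 1`; `|F₁| ≤ M₁ = k6a1K C₁ kap * M * ∑ |w a| / side_a` on the box (`k6a1_bern n dg`).
`k6a1_bern n (2 dg + 1)` for `F₁` in the directions `w_a = (hi a - lo a) • Pi.single a 1` (`∑_b |w_a b| / side_b = 1`): `≤ Λ = k6a1K C₂ kap * M₁`.   `k6a1_lip` for `F₁` with `ι = Fin n`, `c a = (u' a - u a) / (hi a - lo a)`.   `k6a1_K_mul`. -/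
theorem k6a1_frz_core (n dg : ℕ) : ∃ C : ℕ, ∀ (m : ℕ) (α β Dc : MvPolynomial (Fin n) ℝ) (lo hi w : Fin n → ℝ) (kap M : ℝ),
    m ≤ dg → α.totalDegree ≤ dg → β.totalDegree ≤ dg → Dc.totalDegree ≤ dg → 1 ≤ kap → (∀ a, lo a < hi a) → sh2Stable kap Dc lo hi →
    (∀ u ∈ Set.Icc lo hi, |sh2_val m α β Dc u| ≤ M) →
    ∀ u ∈ Set.Icc lo hi, ∀ u' ∈ Set.Icc lo hi,
      |k6a1Dv m α β Dc w u' - k6a1Dv m α β Dc w u| ≤ k6a1K C kap * M * (∑ a, |w a| / (hi a - lo a)) * ∑ a, |u' a - u a| / (hi a - lo a) := by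
  obtain ⟨C1, h1⟩ := k6a1_bern n dg
  obtain ⟨C2, h2⟩ := k6a1_bern n (2 * dg + 1)
  refine ⟨C2 * C1 + C2 + C1, ?_⟩
  intro m α β Dc lo hi w kap M hm hα hβ hD hkap hlo hst hM u hu u' hu'
  have hM0 : 0 ≤ M := (abs_nonneg _).trans (hM u hu)
  obtain ⟨S, hS⟩ : ∃ S : ℝ, S = ∑ a, |w a| / (hi a - lo a) := ⟨_, rfl⟩
  have hS0 : 0 ≤ S := by
    rw [hS]
    exact Finset.sum_nonneg fun a _ => div_nonneg (abs_nonneg _) (by linarith [hlo a])
  rw [← hS]
  have hF1 : ∀ u ∈ Set.Icc lo hi, |sh2_val (m + 1) (k6a1Dp w α) (k6a1Dn m w β Dc) Dc u| ≤ k6a1K C1 kap * M * S := by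
    intro u hu
    rw [hS]
    exact h1 m α β Dc lo hi w kap M hm hα hβ hD hkap hlo hst hM u hu
  have hΛ : ∀ a, ∀ u ∈ Set.Icc lo hi, |k6a1Dv (m + 1) (k6a1Dp w α) (k6a1Dn m w β Dc) Dc ((hi a - lo a) • (Pi.single a 1 : Fin n → ℝ)) u|
      ≤ k6a1K C2 kap * (k6a1K C1 kap * M * S) := by
    intro a u hu
    have h3 := h2 (m + 1) (k6a1Dp w α) (k6a1Dn m w β Dc) Dc lo hi ((hi a - lo a) • (Pi.single a 1 : Fin n → ℝ)) kap (k6a1K C1 kap * M * S)
      (by omega) ((k6a1_Dp_deg w α).trans (by omega)) ((k6a1_Dn_deg m w β Dc).trans (by omega)) (by omega) hkap hlo hst hF1 u hu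
    have e : ∑ b, |((hi a - lo a) • (Pi.single a 1 : Fin n → ℝ)) b| / (hi b - lo b) = 1 := by
      rw [Finset.sum_eq_single a]
      · have hpos : 0 < hi a - lo a := by linarith [hlo a]
        simp only [Pi.smul_apply, Pi.single_eq_same, smul_eq_mul, mul_one]
        rw [abs_of_pos hpos, div_self hpos.ne']
      · intro b _ hb
        simp [Pi.single_eq_of_ne hb]
      · intro ha
        exact absurd (Finset.mem_univ a) ha
    rw [e, mul_one] at h3
    exact h3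
  have hc : u' - u = ∑ a, ((u' a - u a) / (hi a - lo a)) • ((hi a - lo a) • (Pi.single a 1 : Fin n → ℝ)) := by
    conv_lhs => rw [k6a1_bern_single (u' - u)]
    refine Finset.sum_congr rfl fun a _ => ?_
    have hpos : 0 < hi a - lo a := by linarith [hlo a]
    rw [smul_smul, div_mul_cancel₀ _ hpos.ne']
    rfl
  have h4 := k6a1_lip (m + 1) (k6a1Dp w α) (k6a1Dn m w β Dc) Dc lo hi kap _ hkap hst
    (fun a => (hi a - lo a) • (Pi.single a 1 : Fin n → ℝ)) hΛ u u' hu hu' (fun a => (u' a - u a) / (hi a - lo a)) hc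
  have e2 : ∑ a, |(u' a - u a) / (hi a - lo a)| = ∑ a, |u' a - u a| / (hi a - lo a) := by
    refine Finset.sum_congr rfl fun a _ => ?_
    have hpos : 0 < hi a - lo a := by linarith [hlo a]
    rw [abs_div, abs_of_pos hpos]
  rw [e2] at h4
  have hT0 : 0 ≤ ∑ a, |u' a - u a| / (hi a - lo a) :=
    Finset.sum_nonneg fun a _ => div_nonneg (abs_nonneg _) (by linarith [hlo a])
  refine le_trans h4 ?_
  calc (∑ a, |u' a - u a| / (hi a - lo a)) * (k6a1K C2 kap * (k6a1K C1 kap * M * S))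
      = (k6a1K C2 kap * k6a1K C1 kap) * (M * S * ∑ a, |u' a - u a| / (hi a - lo a)) := by ring
    _ ≤ k6a1K (C2 * C1 + C2 + C1) kap * (M * S * ∑ a, |u' a - u a| / (hi a - lo a)) :=
        mul_le_mul_of_nonneg_right (k6a1_bern_Kmul C2 C1 hkap) (by positivity)
    _ = _ := by ring

end

end Claimed.Agent.R252
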