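import Claimed.Agent.R252.S6a.Phys.Tools

/-!
# ROW 252, unit S6a1, file 3: CAPS: (6.3) mass ceilings, joint ceilings at the master states, rectangular caps (6.7), fixed-time caps (6.8), the long lines `ν°`, coefficient caps (06 l.96-112, 208-253).   CONTRACT
(sub-architect helper11; prefix `k6a1_`)

PAPER-FREE (language of `S6a/Layers.lean`).   Statements are frozen (defects: message to helper11).   Provers replace the `sorry`s IN PLACE, helper lemmas directly above.   `Phys/Tools.lean` = black boxes (usable while sorried).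
LEAVES: L-252-P1-C1 (`k6a1_dom`), C2 (`k6a1_capW`, `k6a1_base_cap`, `k6a1_rect` + the three `_mono`), C3 (`k6a1_joint`), C4 (`k6a1_slice`), C5 (`k6a1_long`, `k6a1_coef`).
-/

set_option autoImplicit false

namespace Claimed.Agent.R252

open MeasureTheory
open scoped ENNReal BigOperators

noncomputable section

variable {j : ℕ}

/-- **appended states** (a03:appended-entry-floor), (a03:appended-joint-cap), summed to arbitrary sets of master states.
PLAN: `μ = prior` restricted to `E0`; keep the entries `(h, s)` with `ref h ≤ K₁ μ {hist = h, ms = s}`, `K₁ = K²/η`;   `E1 = E0 ∩ {entry kept}` minus the null sets of `Ok.opt` (measurable: countably many entries).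
Loss: for every `h` only the `≤ K` entries of the list `F h` have positive mass, each deleted one weighs `< ref h / K₁`: total `≤ K ∑ ref / K₁ ≤ K² / K₁ = η`.
Ceiling: `prior (E1 ∩ {ms ∈ T} ∩ {vb = J}) = ∑_h ∑_{s ∈ T ∩ F h, kept} ..  ≤ ∑ K π(J) ref h ≤ K K₁ π(J) ∑_h ∑_{s ∈ T} μ {hist = h, ms = s} ≤ K K₁ π(J) μ {ms ∈ T}`.   (Same computation as `ks_app_loss`, `ks_app_dom`, `ks_coarsen` of `State/KsState.lean`, for a countable datum.) -/
theorem k6a1_dom (D : K6aDat j) (Hd : K6a1Hist D) (K η : ℝ) (n1 : ℕ) (E0 : Set (D.L × ℝ)) (hK : 1 ≤ K) (hη : 0 < η) (hη1 : η ≤ 1)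
    (hD : D.WF K) (hE0 : MeasurableSet E0) (h : Hd.Ok K n1 E0) :
    ∃ E1 : Set (D.L × ℝ), MeasurableSet E1 ∧ E1 ⊆ E0 ∧ D.prior (E0 \ E1) ≤ ENNReal.ofReal η ∧ K6a1Dom D (K ^ 3 / η) n1 E0 E1 := by
  classical
  have hK0 : 0 < K := by linarith
  choose F hFcard hFnull using h.opt
  set K1 : ℝ := K ^ 2 / η with hK1
  have hK1pos : 0 < K1 := by positivity
  have hK1ne : ENNReal.ofReal K1 ≠ 0 := (ENNReal.ofReal_pos.2 hK1pos).ne'
  set A : Hd.Hs → D.Lb × K6aWc j → Set (D.L × ℝ) := fun hh s => E0 ∩ Hd.hist ⁻¹' {hh} ∩ D.ms n1 ⁻¹' {s} with hA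
  have hAm : ∀ hh s, MeasurableSet (A hh s) :=
    fun hh s => (hE0.inter (h.m_hist hh)).inter (k6a1_meas_ms D hD n1 s)
  set Kp : Hd.Hs → Finset (D.Lb × K6aWc j) :=
    fun hh => (F hh).filter (fun s => Hd.ref hh ≤ ENNReal.ofReal K1 * D.prior (A hh s)) with hKp
  set E1 : Set (D.L × ℝ) := ⋃ hh : Hd.Hs, ⋃ s ∈ Kp hh, A hh s with hE1
  have hE1m : MeasurableSet E1 :=
    MeasurableSet.iUnion (fun hh => Finset.measurableSet_biUnion _ (fun s _ => hAm hh s))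
  have hE1mem : ∀ e, e ∈ E1 ↔ ∃ hh s, s ∈ Kp hh ∧ e ∈ A hh s := by
    intro e
    simp only [hE1, Set.mem_iUnion, exists_prop]
  have hE1sub : E1 ⊆ E0 := by
    intro e he
    obtain ⟨hh, s, _, he⟩ := (hE1mem e).1 he
    exact he.1.1
  refine ⟨E1, hE1m, hE1sub, ?_, ?_⟩
  · have hsub : E0 \ E1 ⊆ ⋃ hh ∈ (Finset.univ : Finset Hd.Hs), ((E0 ∩ Hd.hist ⁻¹' {hh} ∩ {e | D.ms n1 e ∉ F hh}) ∪
        ⋃ s ∈ (F hh).filter (fun s => ¬ Hd.ref hh ≤ ENNReal.ofReal K1 * D.prior (A hh s)), A hh s) := by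
      rintro e ⟨he0, he1⟩
      refine Set.mem_biUnion (Finset.mem_coe.2 (Finset.mem_univ (Hd.hist e))) ?_
      by_cases hF : D.ms n1 e ∈ F (Hd.hist e)
      · right
        refine Set.mem_biUnion (x := D.ms n1 e) ?_ ⟨⟨he0, rfl⟩, rfl⟩
        rw [Finset.mem_coe, Finset.mem_filter]
        refine ⟨hF, fun hk => he1 ?_⟩
        exact (hE1mem e).2 ⟨Hd.hist e, D.ms n1 e, Finset.mem_filter.2 ⟨hF, hk⟩, ⟨he0, rfl⟩, rfl⟩
      · left; exact ⟨⟨he0, rfl⟩, hF⟩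
    refine le_trans (measure_mono hsub) (le_trans (measure_biUnion_finset_le _ _) ?_)
    have hterm : ∀ hh ∈ (Finset.univ : Finset Hd.Hs), D.prior ((E0 ∩ Hd.hist ⁻¹' {hh} ∩ {e | D.ms n1 e ∉ F hh}) ∪
        ⋃ s ∈ (F hh).filter (fun s => ¬ Hd.ref hh ≤ ENNReal.ofReal K1 * D.prior (A hh s)), A hh s)
        ≤ ENNReal.ofReal K * (Hd.ref hh * (ENNReal.ofReal K1)⁻¹) := by
      intro hh _
      refine le_trans (measure_union_le _ _) ?_
      rw [hFnull hh, zero_add]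
      refine le_trans (measure_biUnion_finset_le _ _) ?_
      refine le_trans (Finset.sum_le_card_nsmul _ _ (Hd.ref hh * (ENNReal.ofReal K1)⁻¹) ?_) ?_
      · intro s hs
        have h1 := (Finset.mem_filter.1 hs).2
        rw [not_le] at h1
        rw [← div_eq_mul_inv, ENNReal.le_div_iff_mul_le (Or.inl hK1ne) (Or.inl ENNReal.ofReal_ne_top), mul_comm]
        exact h1.le
      · rw [nsmul_eq_mul]
        refine mul_le_mul_left ?_ _
        calc ((((F hh).filter (fun s => ¬ Hd.ref hh ≤ ENNReal.ofReal K1 * D.prior (A hh s))).card : ℕ) : ℝ≥0∞)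
            ≤ (((F hh).card : ℕ) : ℝ≥0∞) := by exact_mod_cast Finset.card_filter_le _ _
          _ = ENNReal.ofReal ((F hh).card : ℝ) := (ENNReal.ofReal_natCast _).symm
          _ ≤ ENNReal.ofReal K := ENNReal.ofReal_le_ofReal (hFcard hh)
    refine le_trans (Finset.sum_le_sum hterm) ?_
    rw [← Finset.mul_sum, ← Finset.sum_mul]
    calc ENNReal.ofReal K * ((∑ hh, Hd.ref hh) * (ENNReal.ofReal K1)⁻¹)
        ≤ ENNReal.ofReal K * (ENNReal.ofReal K * (ENNReal.ofReal K1)⁻¹) :=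
          mul_le_mul_right (mul_le_mul_left h.ref_sum _) _
      _ = ENNReal.ofReal η := by
          rw [← ENNReal.ofReal_inv_of_pos hK1pos, ← ENNReal.ofReal_mul hK0.le, ← ENNReal.ofReal_mul hK0.le]
          congr 1
          rw [hK1]
          field_simp
  · intro i hi T J
    set S : Hd.Hs → Finset (D.Lb × K6aWc j) := fun hh => (Kp hh).filter (fun s => s ∈ T) with hS
    have hsub : E1 ∩ D.ms n1 ⁻¹' T ∩ {e | D.vb i e.1 = J}
        ⊆ ⋃ hh ∈ (Finset.univ : Finset Hd.Hs), ⋃ s ∈ S hh, (A hh s ∩ {e | D.vb i e.1 = J}) := by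
      rintro e ⟨⟨he1, heT⟩, heJ⟩
      obtain ⟨hh, s, hs, he⟩ := (hE1mem e).1 he1
      have hms : D.ms n1 e = s := he.2
      refine Set.mem_biUnion (Finset.mem_coe.2 (Finset.mem_univ hh)) (Set.mem_biUnion (x := s) ?_ ⟨he, heJ⟩)
      rw [Finset.mem_coe, Finset.mem_filter]
      exact ⟨hs, hms ▸ heT⟩
    refine le_trans (measure_mono hsub) (le_trans (measure_biUnion_finset_le _ _) ?_)
    have hpair : ∀ hh, ∀ s ∈ S hh, D.prior (A hh s ∩ {e | D.vb i e.1 = J})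
        ≤ ENNReal.ofReal K * D.pal (k6aCube i J) * (ENNReal.ofReal K1 * D.prior (A hh s)) := by
      intro hh s hs
      have hkept := (Finset.mem_filter.1 (Finset.mem_filter.1 hs).1).2
      calc D.prior (A hh s ∩ {e | D.vb i e.1 = J})
          ≤ D.prior (E0 ∩ Hd.hist ⁻¹' {hh} ∩ {e | D.vb i e.1 = J}) := measure_mono (fun e he => ⟨he.1.1, he.2⟩)
        _ ≤ ENNReal.ofReal K * D.pal (k6aCube i J) * Hd.ref hh := h.dom i hi hh J
        _ ≤ _ := mul_le_mul_right hkept _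
    have hstage1 : ∀ hh, ∑ s ∈ S hh, D.prior (A hh s) ≤ D.prior (E0 ∩ D.ms n1 ⁻¹' T ∩ Hd.hist ⁻¹' {hh}) := by
      intro hh
      rw [← measure_biUnion_finset
        (fun s _ s' _ hss => Set.disjoint_left.2 (fun e he he' => hss (he.2.symm.trans he'.2)))
        (fun s _ => hAm hh s)]
      apply measure_mono
      intro e he
      simp only [Set.mem_iUnion, exists_prop] at he
      obtain ⟨s, hs, he⟩ := he
      have hms : D.ms n1 e = s := he.2
      refine ⟨⟨he.1.1, ?_⟩, he.1.2⟩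
      show D.ms n1 e ∈ T
      rw [hms]; exact (Finset.mem_filter.1 hs).2
    have hstage2 : ∑ hh, D.prior (E0 ∩ D.ms n1 ⁻¹' T ∩ Hd.hist ⁻¹' {hh}) ≤ D.prior (E0 ∩ D.ms n1 ⁻¹' T) := by
      rw [← measure_biUnion_finset
        (fun a _ b _ hab => Set.disjoint_left.2 (fun e he he' => hab (he.2.symm.trans he'.2)))
        (fun a _ => (hE0.inter (k6a1_meas_ms_set D hD n1 T)).inter (h.m_hist a))]
      apply measure_mono
      intro e he
      simp only [Set.mem_iUnion, exists_prop] at he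
      obtain ⟨hh, _, he⟩ := he
      exact he.1
    calc ∑ hh, D.prior (⋃ s ∈ S hh, (A hh s ∩ {e | D.vb i e.1 = J}))
        ≤ ∑ hh, ∑ s ∈ S hh, D.prior (A hh s ∩ {e | D.vb i e.1 = J}) :=
          Finset.sum_le_sum (fun hh _ => measure_biUnion_finset_le _ _)
      _ ≤ ∑ hh, ∑ s ∈ S hh, ENNReal.ofReal K * D.pal (k6aCube i J) * (ENNReal.ofReal K1 * D.prior (A hh s)) :=
          Finset.sum_le_sum (fun hh _ => Finset.sum_le_sum (hpair hh))
      _ = ENNReal.ofReal K * D.pal (k6aCube i J) * (ENNReal.ofReal K1 * ∑ hh, ∑ s ∈ S hh, D.prior (A hh s)) := by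
          simp_rw [← Finset.mul_sum]
      _ ≤ ENNReal.ofReal K * D.pal (k6aCube i J) * (ENNReal.ofReal K1 * D.prior (E0 ∩ D.ms n1 ⁻¹' T)) :=
          mul_le_mul_right (mul_le_mul_right (le_trans (Finset.sum_le_sum (fun hh _ => hstage1 hh)) hstage2) _) _
      _ = ENNReal.ofReal (K ^ 3 / η) * D.pal (k6aCube i J) * D.prior (E0 ∩ D.ms n1 ⁻¹' T) := by
          have e : ENNReal.ofReal (K ^ 3 / η) = ENNReal.ofReal K * ENNReal.ofReal K1 := by
            rw [← ENNReal.ofReal_mul hK0.le]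
            congr 1
            rw [hK1]; ring
          rw [e]; ring

theorem k6a1_dom_mono {D : K6aDat j} {K K' : ℝ} {n1 : ℕ} {E0 E1 E1' : Set (D.L × ℝ)} (h : K6a1Dom D K n1 E0 E1) (hE : E1' ⊆ E1) (hK : K ≤ K') :
    K6a1Dom D K' n1 E0 E1' := by
  intro i hi T J
  calc D.prior (E1' ∩ D.ms n1 ⁻¹' T ∩ {e | D.vb i e.1 = J})
      ≤ D.prior (E1 ∩ D.ms n1 ⁻¹' T ∩ {e | D.vb i e.1 = J}) :=
        measure_mono (Set.inter_subset_inter_left _ (Set.inter_subset_inter_left _ hE))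
    _ ≤ ENNReal.ofReal K * D.pal (k6aCube i J) * D.prior (E0 ∩ D.ms n1 ⁻¹' T) := h i hi T J
    _ ≤ ENNReal.ofReal K' * D.pal (k6aCube i J) * D.prior (E0 ∩ D.ms n1 ⁻¹' T) := by
        gcongr

theorem k6a1_cap_mono {D : K6aDat j} {d K K' : ℝ} {n1 n1' : ℕ} {E0 E0' : Set (D.L × ℝ)} (h : K6a1Cap D d K n1 E0) (hE : E0' ⊆ E0) (hK : K ≤ K')
    (hn : n1' ≤ n1) : K6a1Cap D d K' n1' E0' := by
  intro i hi U f hU hf
  have hW : 0 ≤ k6aW i ^ d := Real.rpow_nonneg (k6a1_W_pos i).le d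
  calc D.prior (E0' ∩ {e | D.base e ∈ U ∧ |D.X e.1 e.2 - f (D.base e)| ≤ k6aW i})
      ≤ D.prior (E0 ∩ {e | D.base e ∈ U ∧ |D.X e.1 e.2 - f (D.base e)| ≤ k6aW i}) :=
        measure_mono (Set.inter_subset_inter_left _ hE)
    _ ≤ ENNReal.ofReal (K * k6aW i ^ d) * volume U := h i (le_trans hi hn) U f hU hf
    _ ≤ ENNReal.ofReal (K' * k6aW i ^ d) * volume U := by
        gcongr

theorem k6a1_rect_mono {D : K6aDat j} {d K K' : ℝ} {n1 n1' : ℕ} {E E' : Set (D.L × ℝ)} (h : K6a1Rect D d K n1 E) (hE : E' ⊆ E) (hK : K ≤ K')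
    (hn : n1' ≤ n1) : K6a1Rect D d K' n1' E' := by
  intro it hit iy hiy ix hix i hi a b c J
  have h1 : 0 ≤ k6aW ix ^ d := Real.rpow_nonneg (k6a1_W_pos ix).le d
  have h2 := (k6a1_W_pos it).le
  have h3 : 0 ≤ k6aW iy ^ j := pow_nonneg (k6a1_W_pos iy).le j
  refine le_trans (measure_mono (Set.inter_subset_inter_left _ (Set.inter_subset_inter_left _ hE)))
    (le_trans (h it (le_trans hit hn) iy (le_trans hiy hn) ix (le_trans hix hn) i (le_trans hi hn) a b c J) ?_)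
  gcongr

/-- (6.3), second bound (`U` = the base cell, `k6a1_zcell_vol`; `f` = the centre of the `X`-bin; `W^d W^(j+1) = W^(j+1+d)`) -/
theorem k6a1_capW (D : K6aDat j) (d K : ℝ) (n1 : ℕ) (E0 : Set (D.L × ℝ)) (hK : 1 ≤ K) (h : K6a1Cap D d K n1 E0) (i : ℕ) (hi : i ≤ n1) (c : K6aWc j) :
    D.prior (E0 ∩ D.wc i ⁻¹' {c}) ≤ ENNReal.ofReal (K * k6aW i ^ ((j : ℝ) + 1 + d)) := by
  obtain ⟨hUm, hUv⟩ := k6a1_zcell_vol (j := j) i i c.1.1 c.1.2
  have hW := k6a1_W_pos i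
  have h1 := h i hi _ (fun _ => (c.2 : ℝ) * k6aW i) hUm measurable_const
  rw [hUv, ← ENNReal.ofReal_mul (by positivity)] at h1
  have e : K * k6aW i ^ d * (k6aW i * k6aW i ^ j) = K * k6aW i ^ ((j : ℝ) + 1 + d) := by
    rw [Real.rpow_add hW, Real.rpow_add hW, Real.rpow_one, Real.rpow_natCast]
    ring
  rw [e] at h1
  refine le_trans (measure_mono ?_) h1
  rintro x ⟨hx0, hx⟩
  have hx' : D.wc i x = c := hx
  have e1 : k6aBin i x.2 = c.1.1 := by rw [← hx']; rfl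
  have e2 : k6aVBin i (D.y x.1 x.2) = c.1.2 := by rw [← hx']; rfl
  have e3 : k6aBin i (D.X x.1 x.2) = c.2 := by rw [← hx']; rfl
  refine ⟨hx0, ⟨e1, e2⟩, ?_⟩
  obtain ⟨b1, b2⟩ := (k6a1_bin_iff i _ _).1 e3
  rw [abs_le]
  constructor <;> nlinarith

/-- (6.3), third bound: `|X| ≤ 3 K`, cover by `≤ 3 K + 2 ≤ 5 K` intervals `|X - c| ≤ 1` and use the cap of the level `0` -/
theorem k6a1_base_cap (D : K6aDat j) (d K : ℝ) (n1 : ℕ) (E0 : Set (D.L × ℝ)) (hK : 1 ≤ K) (hD : D.WF K) (hE : E0 ⊆ Set.univ ×ˢ Set.Icc (0 : ℝ) 1)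
    (h : K6a1Cap D d K n1 E0) (U : Set (ℝ × (Fin j → ℝ))) (hU : MeasurableSet U) :
    D.prior (E0 ∩ D.base ⁻¹' U) ≤ ENNReal.ofReal (5 * K ^ 2) * volume U := by
  classical
  have hW0 : k6aW 0 = 1 := by unfold k6aW; simp
  set I : Finset ℤ := Finset.Icc ⌊(-(3 * K) + 1) / 2⌋ ⌊(3 * K + 1) / 2⌋ with hI
  have hcard : (I.card : ℝ) ≤ 5 * K := by
    rw [hI, Int.card_Icc]
    have h1 : (⌊(3 * K + 1) / 2⌋ : ℝ) ≤ (3 * K + 1) / 2 := Int.floor_le _
    have h2 : (-(3 * K) + 1) / 2 < ⌊(-(3 * K) + 1) / 2⌋ + 1 := Int.lt_floor_add_one _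
    have h3 : (0 : ℤ) ≤ ⌊(3 * K + 1) / 2⌋ + 1 - ⌊(-(3 * K) + 1) / 2⌋ := by
      have : ⌊(-(3 * K) + 1) / 2⌋ ≤ ⌊(3 * K + 1) / 2⌋ := Int.floor_le_floor (by linarith)
      omega
    have h4 : (((⌊(3 * K + 1) / 2⌋ + 1 - ⌊(-(3 * K) + 1) / 2⌋).toNat : ℕ) : ℝ)
        = ((⌊(3 * K + 1) / 2⌋ + 1 - ⌊(-(3 * K) + 1) / 2⌋ : ℤ) : ℝ) := by
      rw [← Int.cast_natCast, Int.toNat_of_nonneg h3]
    rw [h4]; push_cast; linarith
  have hsub : E0 ∩ D.base ⁻¹' U ⊆ ⋃ m ∈ I, (E0 ∩ {e | D.base e ∈ U ∧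
      |D.X e.1 e.2 - (fun _ : ℝ × (Fin j → ℝ) => 2 * (m : ℝ)) (D.base e)| ≤ k6aW 0}) := by
    rintro x ⟨hx0, hxU⟩
    have hX := k6a1_X_bd D hD x.1 x.2 (hE hx0).2
    rw [abs_le] at hX
    refine Set.mem_biUnion (x := ⌊(D.X x.1 x.2 + 1) / 2⌋) ?_ ⟨hx0, hxU, ?_⟩
    · rw [Finset.mem_coe, hI, Finset.mem_Icc]
      exact ⟨Int.floor_le_floor (by linarith [hX.1]), Int.floor_le_floor (by linarith [hX.2])⟩
    · have b1 := Int.floor_le ((D.X x.1 x.2 + 1) / 2)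
      have b2 := Int.lt_floor_add_one ((D.X x.1 x.2 + 1) / 2)
      rw [hW0, abs_le]
      constructor <;> linarith
  refine le_trans (measure_mono hsub) (le_trans (measure_biUnion_finset_le I _) ?_)
  have hterm : ∀ m ∈ I, D.prior (E0 ∩ {e | D.base e ∈ U ∧
      |D.X e.1 e.2 - (fun _ : ℝ × (Fin j → ℝ) => 2 * (m : ℝ)) (D.base e)| ≤ k6aW 0}) ≤ ENNReal.ofReal K * volume U := by
    intro m _
    have h1 := h 0 (Nat.zero_le _) U (fun _ => 2 * (m : ℝ)) hU measurable_const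
    rwa [hW0, Real.one_rpow, mul_one] at h1
  refine le_trans (Finset.sum_le_card_nsmul _ _ _ hterm) ?_
  rw [nsmul_eq_mul, ← mul_assoc]
  refine mul_le_mul_left ?_ _
  rw [← ENNReal.ofReal_natCast, ← ENNReal.ofReal_mul (Nat.cast_nonneg _)]
  apply ENNReal.ofReal_le_ofReal
  nlinarith

/-- auxiliary: a set of incidences which is saturated for the master states is an event of the master states -/
theorem k6a1_ms_sat (D : K6aDat j) (n1 : ℕ) (R : Set (D.L × ℝ)) (hR : ∀ e e', D.ms n1 e = D.ms n1 e' → e' ∈ R → e ∈ R) :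
    R = D.ms n1 ⁻¹' (D.ms n1 '' R) := by
  ext e
  constructor
  · intro he; exact ⟨e, he, rfl⟩
  · rintro ⟨e', he', h⟩; exact hR e e' h.symm he'

/-- **(6.7)**.   PLAN: the rectangle is `ms n1 ⁻¹' T` for a set `T` of master states (`k6a1_bin_coarse`: the three bins are functions of `wc n1`); `K6a1Dom`; then `K6a1Cap` at the level `ix` with `U` = time bin × `y`-cell
(`k6a1_zcell_vol`), `f` = the centre of the `X`-bin. -/
theorem k6a1_rect (D : K6aDat j) (d K : ℝ) (n1 : ℕ) (E0 E1 : Set (D.L × ℝ)) (hK : 1 ≤ K) (hcap : K6a1Cap D d K n1 E0) (hdom : K6a1Dom D K n1 E0 E1) :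
    K6a1Rect D d (K ^ 2) n1 E1 := by
  intro it hit iy hiy ix hix i hi a b c J
  have hK0 : 0 ≤ K := by linarith
  set R : Set (D.L × ℝ) := {e | k6aBin it e.2 = a ∧ k6aVBin iy (D.y e.1 e.2) = b ∧ k6aBin ix (D.X e.1 e.2) = c} with hR
  have hsat : R = D.ms n1 ⁻¹' (D.ms n1 '' R) := by
    apply k6a1_ms_sat
    rintro e e' hee ⟨h1, h2, h3⟩
    have hw : D.wc n1 e = D.wc n1 e' := congrArg Prod.snd hee
    have w1 : k6aBin n1 e.2 = k6aBin n1 e'.2 := congrArg (fun w : K6aWc j => w.1.1) hw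
    have w2 : k6aVBin n1 (D.y e.1 e.2) = k6aVBin n1 (D.y e'.1 e'.2) := congrArg (fun w : K6aWc j => w.1.2) hw
    have w3 : k6aBin n1 (D.X e.1 e.2) = k6aBin n1 (D.X e'.1 e'.2) := congrArg (fun w : K6aWc j => w.2) hw
    exact ⟨(k6a1_bin_coarse hit w1).trans h1, (k6a1_vbin_coarse hiy w2).trans h2, (k6a1_bin_coarse hix w3).trans h3⟩
  have h1 := hdom i hi (D.ms n1 '' R) J
  rw [← hsat] at h1
  obtain ⟨hUm, hUv⟩ := k6a1_zcell_vol (j := j) it iy a b
  have hWx := k6a1_W_pos ix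
  have h2 := hcap ix hix _ (fun _ => (c : ℝ) * k6aW ix) hUm measurable_const
  rw [hUv] at h2
  have h3 : D.prior (E0 ∩ R) ≤ ENNReal.ofReal (K * k6aW ix ^ d) * ENNReal.ofReal (k6aW it * k6aW iy ^ j) := by
    refine le_trans (measure_mono ?_) h2
    rintro x ⟨hx0, e1, e2, e3⟩
    refine ⟨hx0, ⟨e1, e2⟩, ?_⟩
    obtain ⟨b1, b2⟩ := (k6a1_bin_iff ix _ _).1 e3
    rw [abs_le]
    constructor <;> nlinarith
  have hWt := k6a1_W_pos it
  have hWy := k6a1_W_pos iy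
  calc D.prior (E1 ∩ R ∩ {e | D.vb i e.1 = J}) ≤ ENNReal.ofReal K * D.pal (k6aCube i J) * D.prior (E0 ∩ R) := h1
    _ ≤ ENNReal.ofReal K * D.pal (k6aCube i J) * (ENNReal.ofReal (K * k6aW ix ^ d) * ENNReal.ofReal (k6aW it * k6aW iy ^ j)) :=
        mul_le_mul_right h3 _
    _ = (ENNReal.ofReal K * (ENNReal.ofReal (K * k6aW ix ^ d) * ENNReal.ofReal (k6aW it * k6aW iy ^ j))) * D.pal (k6aCube i J) := by ring
    _ = ENNReal.ofReal (K ^ 2 * k6aW it * k6aW iy ^ j * k6aW ix ^ d) * D.pal (k6aCube i J) := by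
        rw [← ENNReal.ofReal_mul (by positivity), ← ENNReal.ofReal_mul hK0]
        congr 2
        ring

/-- the clauses `m0_sum`, `joint` of `K6aPhys` (`ms n0` is a function of `ms n1`; the events `{ms n0 = s}` are disjoint, `k6a1_prior_le_one`) -/
theorem k6a1_joint (D : K6aDat j) (K : ℝ) (n0 n1 : ℕ) (E0 E1 : Set (D.L × ℝ)) (hK : 1 ≤ K) (hD : D.WF K) (hn : n0 ≤ n1) (hdom : K6a1Dom D K n1 E0 E1) :
    (∀ F : Finset (D.Lb × K6aWc j), ∑ s ∈ F, D.prior (E0 ∩ D.ms n0 ⁻¹' {s}) ≤ ENNReal.ofReal K) ∧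
    ∀ i ≤ n0, ∀ (s : D.Lb × K6aWc j) (J : Fin j → ℤ),
      D.prior (E1 ∩ D.ms n0 ⁻¹' {s} ∩ {e | D.vb i e.1 = J}) ≤ ENNReal.ofReal K * D.pal (k6aCube i J) * D.prior (E0 ∩ D.ms n0 ⁻¹' {s}) := by
  constructor
  · intro F
    have h1 : ∀ s, D.prior (E0 ∩ D.ms n0 ⁻¹' {s}) = (D.prior.restrict E0) (D.ms n0 ⁻¹' {s}) := by
      intro s
      rw [Measure.restrict_apply (k6a1_meas_ms D hD n0 s), Set.inter_comm]
    rw [Finset.sum_congr rfl (fun s _ => h1 s), ← measure_biUnion_finset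
      (fun s _ s' _ hss => Set.disjoint_left.2 (fun e he he' => hss (he.symm.trans he')))
      (fun s _ => k6a1_meas_ms D hD n0 s)]
    calc (D.prior.restrict E0) (⋃ s ∈ F, D.ms n0 ⁻¹' {s}) ≤ (D.prior.restrict E0) Set.univ := measure_mono (Set.subset_univ _)
      _ = D.prior E0 := by rw [Measure.restrict_apply MeasurableSet.univ, Set.univ_inter]
      _ ≤ 1 := k6a1_prior_le_one D hD E0
      _ ≤ ENNReal.ofReal K := by
          rw [← ENNReal.ofReal_one]; exact ENNReal.ofReal_le_ofReal hK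
  · intro i hi s J
    have hsat : D.ms n0 ⁻¹' {s} = D.ms n1 ⁻¹' (D.ms n1 '' (D.ms n0 ⁻¹' {s})) := by
      apply k6a1_ms_sat
      intro e e' hee he'
      have hl : D.lab e = D.lab e' := congrArg Prod.fst hee
      have hw : D.wc n1 e = D.wc n1 e' := congrArg Prod.snd hee
      have hw0 := k6a1_wc_coarse D hn hw
      show D.ms n0 e = s
      have he'' : D.ms n0 e' = s := he'
      rw [← he'']
      exact Prod.ext hl hw0
    have h1 := hdom i (le_trans hi hn) (D.ms n1 '' (D.ms n0 ⁻¹' {s})) J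
    rw [← hsat] at h1
    exact h1

/-- auxiliary: close points lie in neighbouring bins -/
theorem k6a1_bin_near (i : ℕ) {u u' : ℝ} (h : |u - u'| ≤ k6aW i) : k6aBin i u ∈ Finset.Icc (k6aBin i u' - 1) (k6aBin i u' + 1) := by
  have hW := k6a1_W_pos i
  obtain ⟨a1, a2⟩ := k6a1_bin_mem i u
  obtain ⟨b1, b2⟩ := k6a1_bin_mem i u'
  rw [abs_le] at h
  rw [Finset.mem_Icc]
  constructor
  · have h1 : ((k6aBin i u' : ℝ) - 1) * k6aW i < ((k6aBin i u : ℝ) + 1) * k6aW i := by nlinarith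
    have h2 : (k6aBin i u' : ℝ) - 1 < (k6aBin i u : ℝ) + 1 := lt_of_mul_lt_mul_right h1 hW.le
    have h3 : k6aBin i u' - 1 < k6aBin i u + 1 := by exact_mod_cast h2
    omega
  · have h1 : (k6aBin i u : ℝ) * k6aW i < ((k6aBin i u' : ℝ) + 2) * k6aW i := by nlinarith
    have h2 : (k6aBin i u : ℝ) < (k6aBin i u' : ℝ) + 2 := lt_of_mul_lt_mul_right h1 hW.le
    have h3 : k6aBin i u < k6aBin i u' + 2 := by exact_mod_cast h2
    omega

/-- **(6.8) fixed-time caps** (`a03:time-slice`).   PLAN: `E' = k6a1Dur D (fun x => k6aBin n1 x.2) E (η W_{n1} / 2)`; a line carries `≤ 2^n1 + 1` time bins (`k6a1_bin_unit`), loss `≤ (2^n1 + 1) η W_{n1} / 2 ≤ η`.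
(`K₀` = bound of the coefficients, `K` = slack of the caps.)   Fix `t`, `I` = its bin of the level `n1`, `S` = the set of lines of the statement.   For `l ∈ S`, `τ ∈ I ∩ [0,1]`: `|y(τ) - y(t)| ≤ K₀ W_{n1}`, `|X(τ) - X(t)| ≤ 3 K₀ W_{n1}` (`t ∈ [0,1]` as `(l, t) ∈ E'`), both `≤ W_{n0} ≤ W_{i'}`: every coordinate of `sc i' l τ` differs from `c` by `≤ 1`.
`(η W_{n1} / 2) ν(S) ≤ ∫_S vol {τ ∈ I : (l, τ) ∈ E} ≤ ∑_{c' near c} prior (E ∩ rectangle (n1, i', i'; c') ∩ {vb i = J}) ≤ 3^(j+1) K W_{n1} W_{i'}^(j+d) π(J)`. -/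
theorem k6a1_slice (j : ℕ) (d : ℝ) (hd : 0 ≤ d) : ∃ C : ℕ, ∀ (D : K6aDat j) (K₀ K η : ℝ) (n0 n1 : ℕ) (E : Set (D.L × ℝ)), 1 ≤ K₀ → K₀ ≤ K → 0 < η → η ≤ 1 → D.WF K₀ →
    MeasurableSet E → E ⊆ Set.univ ×ˢ Set.Icc (0 : ℝ) 1 → n0 ≤ n1 → 4 * K₀ * k6aW n1 ≤ k6aW n0 → K6a1Rect D d K n1 E →
    ∃ E' : Set (D.L × ℝ), MeasurableSet E' ∧ E' ⊆ E ∧ D.prior (E \ E') ≤ ENNReal.ofReal η ∧ K6a1Slice D d (k6a1K C (K / η)) n0 E' := by
  classical
  refine ⟨2 * 3 ^ (j + 1) + 1, ?_⟩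
  intro D K₀ K η n0 n1 E hK₀ hKK hη hη1 hD hE hEsub hn hW41 hrect
  have hW1 := k6a1_W_pos n1
  have hK1 : 1 ≤ K := le_trans hK₀ hKK
  have hKη : 1 ≤ K / η := by
    rw [le_div_iff₀ hη]; linarith
  set s : D.L × ℝ → ℤ := fun x => k6aBin n1 x.2 with hs
  have hsm : ∀ a, MeasurableSet (s ⁻¹' {a}) := fun a => measurable_snd (k6a1_bin_meas n1 a)
  have hcnt : ∀ l : D.L, k6a1Cnt {x : D.L × ℝ | x ∈ E ∧ x.1 = l} s (2 ^ n1 + 1) := by
    intro l
    obtain ⟨F, hF1, hF2⟩ := k6a1_bin_unit n1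
    exact ⟨F, hF1, fun x hx => hF2 x.2 (hEsub hx.1).2⟩
  obtain ⟨hm', hloss⟩ := k6a1_prune_dur D hD s hsm E hE (η * k6aW n1 / 2) (2 ^ n1 + 1) (by positivity) hcnt
  set E' := k6a1Dur D s E (η * k6aW n1 / 2) with hE'
  have hE'sub : E' ⊆ E := fun x hx => hx.1
  refine ⟨E', hm', hE'sub, le_trans hloss (ENNReal.ofReal_le_ofReal ?_), ?_⟩
  · have h1 := k6a1_W_mul n1
    have h2 := k6a1_W_le_one n1
    have h3 : (2 ^ n1 + 1) * (η * k6aW n1 / 2) = η * (k6aW n1 * 2 ^ n1 + k6aW n1) / 2 := by ring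
    rw [h3, h1]
    nlinarith
  · intro i hi i' hi' t c J
    set S : Set D.L := {l | (l, t) ∈ E' ∧ D.sc i' l t = c ∧ D.vb i l = J} with hS
    have hmy : Measurable fun l : D.L => D.y l t := (k6a1_meas_y D hD).comp measurable_prodMk_right
    have hmX : Measurable fun l : D.L => D.X l t := (k6a1_meas_X D hD).comp measurable_prodMk_right
    have hSm : MeasurableSet S := by
      have m1 : MeasurableSet {l : D.L | (l, t) ∈ E'} := measurable_prodMk_right hm'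
      have m2 : MeasurableSet {l : D.L | k6aVBin i' (D.y l t) = c.1} := hmy (k6a1_cube_meas i' c.1)
      have m3 : MeasurableSet {l : D.L | k6aBin i' (D.X l t) = c.2} := hmX (k6a1_bin_meas i' c.2)
      have m4 := k6a1_meas_vb D hD i J
      have e : S = {l : D.L | (l, t) ∈ E'} ∩ (({l : D.L | k6aVBin i' (D.y l t) = c.1} ∩ {l : D.L | k6aBin i' (D.X l t) = c.2})
          ∩ {l : D.L | D.vb i l = J}) := by
        ext l
        constructor
        · rintro ⟨a1, a2, a3⟩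
          exact ⟨a1, ⟨congrArg Prod.fst a2, congrArg Prod.snd a2⟩, a3⟩
        · rintro ⟨a1, ⟨a2, a3⟩, a4⟩
          exact ⟨a1, Prod.ext a2 a3, a4⟩
      rw [e]
      exact m1.inter ((m2.inter m3).inter m4)
    set a := k6aBin n1 t with ha
    set G : Set (D.L × ℝ) := E ∩ S ×ˢ {τ : ℝ | k6aBin n1 τ = a} with hG
    have hGm : MeasurableSet G := hE.inter (hSm.prod (k6a1_bin_meas n1 a))
    have hGsub : G ⊆ Set.univ ×ˢ Set.Icc (0 : ℝ) 1 := fun x hx => hEsub hx.1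
    -- lower bound
    have hlow : ENNReal.ofReal (η * k6aW n1 / 2) * D.ν S ≤ D.prior G := by
      rw [k6a1_prior_eq D hD G hGm hGsub, ← lintegral_indicator_const hSm]
      apply lintegral_mono
      intro l
      beta_reduce
      by_cases hl : l ∈ S
      · rw [Set.indicator_of_mem hl]
        refine le_trans hl.1.2 (measure_mono ?_)
        rintro τ ⟨h1, h2⟩
        exact ⟨h1, hl, h2⟩
      · rw [Set.indicator_of_notMem hl]; exact zero_le
    -- upper bound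
    set Nb : Finset ((Fin j → ℤ) × ℤ) :=
      Fintype.piFinset (fun b => Finset.Icc (c.1 b - 1) (c.1 b + 1)) ×ˢ Finset.Icc (c.2 - 1) (c.2 + 1) with hNb
    have hIcc : ∀ z : ℤ, (Finset.Icc (z - 1) (z + 1)).card = 3 := by
      intro z
      rw [Int.card_Icc]
      have : z + 1 + 1 - (z - 1) = 3 := by ring
      rw [this]; rfl
    have hNbcard : Nb.card = 3 ^ (j + 1) := by
      rw [hNb, Finset.card_product, Fintype.card_piFinset, hIcc]
      simp only [hIcc, Finset.prod_const, Finset.card_univ, Fintype.card_fin]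
      ring
    have hWi' : k6aW n0 ≤ k6aW i' := k6a1_W_anti hi'
    have hsubG : G ⊆ ⋃ c' ∈ Nb, (E ∩ {e | k6aBin n1 e.2 = a ∧ k6aVBin i' (D.y e.1 e.2) = c'.1 ∧ k6aBin i' (D.X e.1 e.2) = c'.2}
        ∩ {e | D.vb i e.1 = J}) := by
      rintro x ⟨hxE, hxS, hxa⟩
      have hxa' : k6aBin n1 x.2 = k6aBin n1 t := hxa
      have hτ : x.2 ∈ Set.Icc (0 : ℝ) 1 := (hEsub hxE).2
      have ht : t ∈ Set.Icc (0 : ℝ) 1 := (hEsub (hE'sub hxS.1)).2
      have hdt : |x.2 - t| ≤ k6aW n1 := k6a1_bin_diam n1 hxa'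
      have hy : ‖D.y x.1 x.2 - D.y x.1 t‖ ≤ k6aW i' := by
        have h1 := k6a1_y_lip D hD x.1 x.2 t
        have h2 : K₀ * |x.2 - t| ≤ K₀ * k6aW n1 := mul_le_mul_of_nonneg_left hdt (by linarith)
        nlinarith
      have hX : |D.X x.1 x.2 - D.X x.1 t| ≤ k6aW i' := by
        have h1 := k6a1_X_lip D hD x.1 x.2 t hτ ht
        have h2 : 3 * K₀ * |x.2 - t| ≤ 3 * K₀ * k6aW n1 := mul_le_mul_of_nonneg_left hdt (by linarith)
        nlinarith
      have hc1 : k6aVBin i' (D.y x.1 t) = c.1 := congrArg Prod.fst hxS.2.1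
      have hc2 : k6aBin i' (D.X x.1 t) = c.2 := congrArg Prod.snd hxS.2.1
      refine Set.mem_biUnion (x := (k6aVBin i' (D.y x.1 x.2), k6aBin i' (D.X x.1 x.2))) ?_ ⟨⟨hxE, hxa, rfl, rfl⟩, hxS.2.2⟩
      rw [Finset.mem_coe, hNb, Finset.mem_product, Fintype.mem_piFinset]
      constructor
      · intro b
        have h1 : |D.y x.1 x.2 b - D.y x.1 t b| ≤ k6aW i' :=
          le_trans (norm_le_pi_norm (D.y x.1 x.2 - D.y x.1 t) b) hy
        have h2 := k6a1_bin_near i' h1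
        rw [← hc1]
        exact h2
      · rw [← hc2]
        exact k6a1_bin_near i' hX
    have hup : D.prior G ≤ (Nb.card : ℝ≥0∞) * (ENNReal.ofReal (K * k6aW n1 * k6aW i' ^ j * k6aW i' ^ d) * D.pal (k6aCube i J)) := by
      refine le_trans (measure_mono hsubG) (le_trans (measure_biUnion_finset_le _ _) ?_)
      refine le_trans (Finset.sum_le_card_nsmul _ _ _ (fun c' _ =>
        hrect n1 le_rfl i' (le_trans hi' hn) i' (le_trans hi' hn) i (le_trans hi hn) a c'.1 c'.2 J)) ?_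
      rw [nsmul_eq_mul]
    have hα : 0 < η * k6aW n1 / 2 := by positivity
    have hWp := k6a1_W_pos i'
    have hfin : ENNReal.ofReal (η * k6aW n1 / 2) * D.ν S
        ≤ ENNReal.ofReal (η * k6aW n1 / 2) * (ENNReal.ofReal (k6a1K (2 * 3 ^ (j + 1) + 1) (K / η) * k6aW i' ^ ((j : ℝ) + d)) * D.pal (k6aCube i J)) := by
      refine le_trans hlow (le_trans hup ?_)
      rw [hNbcard, ← mul_assoc, ← mul_assoc]
      refine mul_le_mul_left ?_ _
      rw [← ENNReal.ofReal_natCast, ← ENNReal.ofReal_mul (Nat.cast_nonneg _), ← ENNReal.ofReal_mul hα.le]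
      apply ENNReal.ofReal_le_ofReal
      have hKK' := k6a1_K_of_pow (2 * 3 ^ (j + 1)) 1 hKη
      rw [pow_one] at hKK'
      have e1 : k6aW i' ^ ((j : ℝ) + d) = k6aW i' ^ j * k6aW i' ^ d := by
        rw [Real.rpow_add hWp, Real.rpow_natCast]
      rw [e1]
      have hpos : 0 ≤ η * k6aW n1 / 2 * (k6aW i' ^ j * k6aW i' ^ d) := by positivity
      calc ((3 ^ (j + 1) : ℕ) : ℝ) * (K * k6aW n1 * k6aW i' ^ j * k6aW i' ^ d)
          = ((2 * 3 ^ (j + 1) : ℕ) : ℝ) * (K / η) * (η * k6aW n1 / 2 * (k6aW i' ^ j * k6aW i' ^ d)) := by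
            push_cast
            field_simp
        _ ≤ k6a1K (2 * 3 ^ (j + 1) + 1) (K / η) * (η * k6aW n1 / 2 * (k6aW i' ^ j * k6aW i' ^ d)) :=
            mul_le_mul_of_nonneg_right hKK' hpos
        _ = η * k6aW n1 / 2 * (k6a1K (2 * 3 ^ (j + 1) + 1) (K / η) * (k6aW i' ^ j * k6aW i' ^ d)) := by ring
    exact (ENNReal.mul_le_mul_iff_right (ENNReal.ofReal_pos.2 hα).ne' ENNReal.ofReal_ne_top).1 hfin

/-- **the long lines**: `Lc = {l | η ≤ vol (fib E l)}` (`k6a1_prune_dur` with the constant label, `n = 1`) -/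
theorem k6a1_long (D : K6aDat j) (K η : ℝ) (E : Set (D.L × ℝ)) (hη : 0 < η) (hD : D.WF K) (hE : MeasurableSet E) :
    ∃ Lc : Set D.L, MeasurableSet Lc ∧ D.prior (E \ Lc ×ˢ Set.univ) ≤ ENNReal.ofReal η ∧ ∀ l ∈ Lc, ENNReal.ofReal η ≤ volume (D.fib E l) := by
  have := hD.prob
  have hm : Measurable fun l => volume (D.fib E l) := measurable_measure_prodMk_left hE
  obtain ⟨Lc, hLcd⟩ : ∃ Lc : Set D.L, Lc = {l | ENNReal.ofReal η ≤ volume (D.fib E l)} := ⟨_, rfl⟩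
  have hLc : MeasurableSet Lc := by
    rw [hLcd]
    exact measurableSet_le measurable_const hm
  refine ⟨Lc, hLc, ?_, fun l hl => by rw [hLcd] at hl; exact hl⟩
  rw [K6aDat.prior, Measure.prod_apply (hE.diff (hLc.prod MeasurableSet.univ))]
  calc ∫⁻ l, (volume.restrict (Set.Icc (0 : ℝ) 1)) (Prod.mk l ⁻¹' (E \ Lc ×ˢ Set.univ)) ∂D.ν
      ≤ ∫⁻ _ : D.L, ENNReal.ofReal η ∂D.ν := by
        refine lintegral_mono fun l => ?_
        refine (Measure.restrict_le_self _).trans ?_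
        by_cases hl : l ∈ Lc
        · have h0 : Prod.mk l ⁻¹' (E \ Lc ×ˢ Set.univ) = ∅ := by
            rw [Set.eq_empty_iff_forall_notMem]
            rintro t ⟨_, ht⟩
            exact ht ⟨hl, Set.mem_univ _⟩
          rw [h0, measure_empty]
          exact zero_le
        · rw [hLcd] at hl
          refine (measure_mono ?_).trans (not_le.1 hl).le
          intro t ht
          exact ht.1
    _ = ENNReal.ofReal η := by rw [lintegral_const, measure_univ, mul_one]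

/-- position of `y(t)` for a line of an affine bin, in a time bin -/
theorem k6a1_coef_y (D : K6aDat j) {K : ℝ} (hD : D.WF K) (i : ℕ) (l : D.L) (t : ℝ) (ht : t ∈ Set.Icc (0 : ℝ) 1) (a : ℤ)
    (b0 bV : Fin j → ℤ) (ha : k6aBin i t = a) (h0 : k6aVBin i (D.y0 l) = b0) (hV : D.vb i l = bV) :
    ‖D.y l t - (fun k => (b0 k : ℝ) * k6aW i + (a : ℝ) * k6aW i * ((bV k : ℝ) * k6aW i))‖ ≤ (K + 2) * k6aW i := by
  have hW := k6a1_W_pos i
  have hW1 := k6a1_W_le_one i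
  have hK0 : 0 ≤ K := (norm_nonneg _).trans (hD.bd l).1
  rw [pi_norm_le_iff_of_nonneg (by positivity)]
  intro k
  rw [Real.norm_eq_abs]
  obtain ⟨t1, t2⟩ := (k6a1_bin_iff i t a).1 ha
  have h0k : k6aBin i (D.y0 l k) = b0 k := congrFun h0 k
  have hVk : k6aBin i (D.V l k) = bV k := congrFun hV k
  obtain ⟨y1, y2⟩ := (k6a1_bin_iff i _ _).1 h0k
  obtain ⟨v1, v2⟩ := (k6a1_bin_iff i _ _).1 hVk
  have hVK : |D.V l k| ≤ K := (norm_le_pi_norm (D.V l) k).trans (hD.bd l).2.1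
  simp only [K6aDat.y, Pi.sub_apply, Pi.add_apply, Pi.smul_apply, smul_eq_mul]
  have e : D.y0 l k + t * D.V l k - ((b0 k : ℝ) * k6aW i + (a : ℝ) * k6aW i * ((bV k : ℝ) * k6aW i))
      = (D.y0 l k - (b0 k : ℝ) * k6aW i) + (t - (a : ℝ) * k6aW i) * D.V l k
        + (a : ℝ) * k6aW i * (D.V l k - (bV k : ℝ) * k6aW i) := by ring
  rw [e]
  have b1 : |D.y0 l k - (b0 k : ℝ) * k6aW i| ≤ k6aW i := by
    rw [abs_le]; constructor <;> linarith
  have b2 : |(t - (a : ℝ) * k6aW i) * D.V l k| ≤ k6aW i * K := by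
    rw [abs_mul]
    exact mul_le_mul (by rw [abs_le]; constructor <;> linarith) hVK (abs_nonneg _) hW.le
  have b3 : |(a : ℝ) * k6aW i * (D.V l k - (bV k : ℝ) * k6aW i)| ≤ 1 * k6aW i := by
    rw [abs_mul]
    exact mul_le_mul (by rw [abs_le]; constructor <;> linarith [ht.1, ht.2]) (by rw [abs_le]; constructor <;> linarith)
      (abs_nonneg _) zero_le_one
  refine (abs_add_three _ _ _).trans ?_
  linarith

/-- position of `X(t)` for a line whose scalar coefficients lie in a cell of the level `i' ≤ i`, in a time bin of the level `i` -/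
theorem k6a1_coef_X (D : K6aDat j) {K : ℝ} (hD : D.WF K) (i i' : ℕ) (hi : i' ≤ i) (l : D.L) (t : ℝ) (ht : t ∈ Set.Icc (0 : ℝ) 1)
    (a : ℤ) (x : Fin 3 → ℤ) (ha : k6aBin i t = a) (hx : k6aVBin i' (D.xc l) = x) :
    |D.X l t - ((x 0 : ℝ) * k6aW i' + (x 1 : ℝ) * k6aW i' * ((a : ℝ) * k6aW i)
      + (x 2 : ℝ) * k6aW i' * ((a : ℝ) * k6aW i) ^ 2)| ≤ (3 * K + 3) * k6aW i' := by
  have hW := k6a1_W_pos i
  have hW1 := k6a1_W_le_one i
  have hW' := k6a1_W_pos i'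
  have hWW : k6aW i ≤ k6aW i' := k6a1_W_anti hi
  have hK0 : 0 ≤ K := (norm_nonneg _).trans (hD.bd l).1
  obtain ⟨t1, t2⟩ := (k6a1_bin_iff i t a).1 ha
  have hxm : ∀ m, |D.xc l m - (x m : ℝ) * k6aW i'| ≤ k6aW i' := by
    intro m
    have h1 : k6aBin i' (D.xc l m) = x m := congrFun hx m
    obtain ⟨y1, y2⟩ := (k6a1_bin_iff i' _ _).1 h1
    rw [abs_le]; constructor <;> linarith
  have hxK : ∀ m, |D.xc l m| ≤ K := fun m => (norm_le_pi_norm (D.xc l) m).trans (hD.bd l).2.2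
  obtain ⟨t₀, ht₀⟩ : ∃ t₀ : ℝ, t₀ = (a : ℝ) * k6aW i := ⟨_, rfl⟩
  have t2' : t < t₀ + k6aW i := by rw [ht₀]; linarith
  rw [← ht₀] at t1 ⊢
  have hu : |t - t₀| ≤ k6aW i' := by
    rw [abs_le]; constructor <;> linarith
  have ht0 : |t₀| ≤ 1 := by
    rw [abs_le]; constructor <;> linarith [ht.1, ht.2]
  have hs : |t + t₀| ≤ 2 := by
    obtain ⟨h1, h2⟩ := abs_le.1 ht0
    rw [abs_le]; constructor <;> linarith [ht.1, ht.2]
  simp only [K6aDat.X]
  have e : D.xc l 0 + D.xc l 1 * t + D.xc l 2 * t ^ 2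
      - ((x 0 : ℝ) * k6aW i' + (x 1 : ℝ) * k6aW i' * t₀ + (x 2 : ℝ) * k6aW i' * t₀ ^ 2)
      = (D.xc l 0 - (x 0 : ℝ) * k6aW i') + D.xc l 1 * (t - t₀) + (D.xc l 1 - (x 1 : ℝ) * k6aW i') * t₀
        + D.xc l 2 * ((t - t₀) * (t + t₀)) + (D.xc l 2 - (x 2 : ℝ) * k6aW i') * (t₀ * t₀) := by ring
  rw [e]
  have b1 : |D.xc l 1 * (t - t₀)| ≤ K * k6aW i' := by
    rw [abs_mul]; exact mul_le_mul (hxK 1) hu (abs_nonneg _) hK0
  have b2 : |(D.xc l 1 - (x 1 : ℝ) * k6aW i') * t₀| ≤ k6aW i' * 1 := by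
    rw [abs_mul]; exact mul_le_mul (hxm 1) ht0 (abs_nonneg _) hW'.le
  have b3 : |D.xc l 2 * ((t - t₀) * (t + t₀))| ≤ K * (k6aW i' * 2) := by
    rw [abs_mul, abs_mul]
    exact mul_le_mul (hxK 2) (mul_le_mul hu hs (abs_nonneg _) hW'.le) (by positivity) hK0
  have b4 : |(D.xc l 2 - (x 2 : ℝ) * k6aW i') * (t₀ * t₀)| ≤ k6aW i' * (1 * 1) := by
    rw [abs_mul, abs_mul]
    exact mul_le_mul (hxm 2) (mul_le_mul ht0 ht0 (abs_nonneg _) zero_le_one) (by positivity) hW'.le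
  have b0 := hxm 0
  have s1 := abs_add_le ((D.xc l 0 - (x 0 : ℝ) * k6aW i') + D.xc l 1 * (t - t₀) + (D.xc l 1 - (x 1 : ℝ) * k6aW i') * t₀
        + D.xc l 2 * ((t - t₀) * (t + t₀))) ((D.xc l 2 - (x 2 : ℝ) * k6aW i') * (t₀ * t₀))
  have s2 := abs_add_le ((D.xc l 0 - (x 0 : ℝ) * k6aW i') + D.xc l 1 * (t - t₀) + (D.xc l 1 - (x 1 : ℝ) * k6aW i') * t₀)
        (D.xc l 2 * ((t - t₀) * (t + t₀)))
  have s3 := abs_add_three (D.xc l 0 - (x 0 : ℝ) * k6aW i') (D.xc l 1 * (t - t₀)) ((D.xc l 1 - (x 1 : ℝ) * k6aW i') * t₀)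
  linarith

theorem k6a1_coef_card (n : ℕ) (x : ℝ) (h : (n : ℝ) ≤ x) : (n : ℝ≥0∞) ≤ ENNReal.ofReal x := by
  rw [← ENNReal.ofReal_natCast]
  exact ENNReal.ofReal_le_ofReal h

/-- **coefficient caps of `ν°`** (06 l.244-253).   PLAN: `S` = the set of lines of `K6a1Coef`.   `η ν(S) ≤ ∫_S vol (fib E l) = prior (E ∩ S × ℝ)` (`k6a1_prior_eq`); split into the `≤ 2^i + 1` time bins `a` of the level `i`.
In one time bin `y(t)` stays within `(K + 2) W_i` of a fixed point and `X(t)` within `(3 K + 3) W_{i'}` (`W_i ≤ W_{i'}`): `≤ (2 K + 6)^j (6 K + 8)` rectangles `(i, i, i')`, each `≤ K W_i W_i^j W_{i'}^d π(bV)`. -/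
theorem k6a1_coef (j : ℕ) (d : ℝ) (hd : 0 ≤ d) : ∃ C : ℕ, ∀ (D : K6aDat j) (K η : ℝ) (n0 n1 : ℕ) (E : Set (D.L × ℝ)) (Lc : Set D.L), 1 ≤ K → 0 < η → η ≤ 1 →
    D.WF K → MeasurableSet E → E ⊆ Set.univ ×ˢ Set.Icc (0 : ℝ) 1 → MeasurableSet Lc → n0 ≤ n1 → K6a1Rect D d K n1 E →
    (∀ l ∈ Lc, ENNReal.ofReal η ≤ volume (D.fib E l)) → K6a1Coef D d (k6a1K C (K / η)) n0 Lc := by
  classical
  refine ⟨28 * 8 ^ j + (j + 2), ?_⟩
  intro D K η n0 n1 E Lc hK hη hη1 hD hE hEsub hLc hn hrect hlong i hi i' hi' b0 bV x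
  have := hD.prob
  have hK0 : 0 < K := by linarith
  have hW := k6a1_W_pos i
  have hW1 := k6a1_W_le_one i
  have hW' := k6a1_W_pos i'
  obtain ⟨S, hS⟩ : ∃ S : Set D.L,
      S = Lc ∩ {l | k6aVBin i (D.y0 l) = b0 ∧ D.vb i l = bV ∧ k6aVBin i' (D.xc l) = x} := ⟨_, rfl⟩
  rw [← hS]
  have hSm : MeasurableSet S := by
    rw [hS]
    refine hLc.inter ?_
    have h1 : MeasurableSet {l | k6aVBin i (D.y0 l) = b0} := hD.m_y0 (k6a1_cube_meas i b0)
    have h2 := k6a1_meas_vb D hD i bV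
    have h3 : MeasurableSet {l | k6aVBin i' (D.xc l) = x} := hD.m_xc (k6a1_cube_meas i' x)
    exact h1.inter (h2.inter h3)
  have hTm : MeasurableSet (E ∩ S ×ˢ Set.univ) := hE.inter (hSm.prod MeasurableSet.univ)
  -- lower bound
  have hT1 : ENNReal.ofReal η * D.ν S ≤ D.prior (E ∩ S ×ˢ Set.univ) := by
    rw [k6a1_prior_eq D hD _ hTm (fun e he => hEsub he.1), ← lintegral_indicator_const hSm]
    refine lintegral_mono fun l => ?_
    by_cases hl : l ∈ S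
    · rw [Set.indicator_of_mem hl]
      have h1 : l ∈ Lc := by rw [hS] at hl; exact hl.1
      refine (hlong l h1).trans (measure_mono ?_)
      intro t ht
      exact ⟨ht, hl, Set.mem_univ _⟩
    · rw [Set.indicator_of_notMem hl]
      exact zero_le
  -- the lists
  obtain ⟨Fa, hFa, hFa2⟩ := k6a1_bin_unit i
  have hFb : ∀ a : ℤ, ∃ F : Finset (Fin j → ℤ), (F.card : ℝ) ≤ (2 * K + 6) ^ j ∧ ∀ y : Fin j → ℝ,
      ‖y - (fun k => (b0 k : ℝ) * k6aW i + (a : ℝ) * k6aW i * ((bV k : ℝ) * k6aW i))‖ ≤ (K + 2) * k6aW i →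
        k6aVBin i y ∈ F := by
    intro a
    obtain ⟨F, hF, hF2⟩ := k6a1_vbin_range i (fun k => (b0 k : ℝ) * k6aW i + (a : ℝ) * k6aW i * ((bV k : ℝ) * k6aW i))
      ((K + 2) * k6aW i) (by positivity)
    refine ⟨F, hF.trans (le_of_eq ?_), fun y hy => hF2 y hy⟩
    congr 1
    linear_combination (2 * (K + 2)) * k6a1_W_mul i
  choose Fb hFb1 hFb2 using hFb
  have hFc : ∀ a : ℤ, ∃ F : Finset ℤ, (F.card : ℝ) ≤ 6 * K + 8 ∧ ∀ y : ℝ,
      |y - ((x 0 : ℝ) * k6aW i' + (x 1 : ℝ) * k6aW i' * ((a : ℝ) * k6aW i)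
        + (x 2 : ℝ) * k6aW i' * ((a : ℝ) * k6aW i) ^ 2)| ≤ (3 * K + 3) * k6aW i' → k6aBin i' y ∈ F := by
    intro a
    obtain ⟨F, hF, hF2⟩ := k6a1_bin_range i' ((x 0 : ℝ) * k6aW i' + (x 1 : ℝ) * k6aW i' * ((a : ℝ) * k6aW i)
        + (x 2 : ℝ) * k6aW i' * ((a : ℝ) * k6aW i) ^ 2) ((3 * K + 3) * k6aW i') (by positivity)
    refine ⟨F, hF.trans (le_of_eq ?_), fun y hy => hF2 y hy⟩
    linear_combination (2 * (3 * K + 3)) * k6a1_W_mul i'
  choose Fc hFc1 hFc2 using hFc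
  obtain ⟨R, hR⟩ : ∃ R : ℝ≥0∞,
      R = ENNReal.ofReal (K * k6aW i * k6aW i ^ j * k6aW i' ^ d) * D.pal (k6aCube i bV) := ⟨_, rfl⟩
  have hin1 : i ≤ n1 := hi.trans hn
  have hsub : E ∩ S ×ˢ Set.univ ⊆ ⋃ a ∈ Fa, ⋃ b ∈ Fb a, ⋃ c ∈ Fc a,
      (E ∩ {e | k6aBin i e.2 = a ∧ k6aVBin i (D.y e.1 e.2) = b ∧ k6aBin i' (D.X e.1 e.2) = c} ∩ {e | D.vb i e.1 = bV}) := by
    rintro e ⟨heE, heS, _⟩
    rw [hS] at heS
    obtain ⟨_, h0, hV, hx⟩ := heS
    have ht : e.2 ∈ Set.Icc (0 : ℝ) 1 := (hEsub heE).2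
    simp only [Set.mem_iUnion]
    exact ⟨k6aBin i e.2, hFa2 _ ht, k6aVBin i (D.y e.1 e.2), hFb2 _ _ (k6a1_coef_y D hD i e.1 e.2 ht _ b0 bV rfl h0 hV),
      k6aBin i' (D.X e.1 e.2), hFc2 _ _ (k6a1_coef_X D hD i i' hi' e.1 e.2 ht _ x rfl hx), ⟨heE, rfl, rfl, rfl⟩, hV⟩
  have hT2 : D.prior (E ∩ S ×ˢ Set.univ)
      ≤ ENNReal.ofReal (2 ^ i + 1) * (ENNReal.ofReal ((2 * K + 6) ^ j) * (ENNReal.ofReal (6 * K + 8) * R)) := by
    calc D.prior (E ∩ S ×ˢ Set.univ) ≤ ∑ a ∈ Fa, ∑ b ∈ Fb a, ∑ _c ∈ Fc a, R := by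
          refine (measure_mono hsub).trans ((measure_biUnion_finset_le _ _).trans (Finset.sum_le_sum fun a _ => ?_))
          refine (measure_biUnion_finset_le _ _).trans (Finset.sum_le_sum fun b _ => ?_)
          refine (measure_biUnion_finset_le _ _).trans (Finset.sum_le_sum fun c _ => ?_)
          rw [hR]
          exact hrect i hin1 i hin1 i' (hi'.trans hin1) i hin1 a b c bV
      _ ≤ ∑ _a ∈ Fa, (ENNReal.ofReal ((2 * K + 6) ^ j) * (ENNReal.ofReal (6 * K + 8) * R)) := by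
          refine Finset.sum_le_sum fun a _ => ?_
          calc ∑ b ∈ Fb a, ∑ _c ∈ Fc a, R ≤ ∑ _b ∈ Fb a, (ENNReal.ofReal (6 * K + 8) * R) := by
                refine Finset.sum_le_sum fun b _ => ?_
                rw [Finset.sum_const, nsmul_eq_mul]
                exact mul_le_mul_left (k6a1_coef_card _ _ (hFc1 a)) _
            _ ≤ _ := by
                rw [Finset.sum_const, nsmul_eq_mul]
                exact mul_le_mul_left (k6a1_coef_card _ _ (hFb1 a)) _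
      _ ≤ _ := by
          rw [Finset.sum_const, nsmul_eq_mul]
          exact mul_le_mul_left (k6a1_coef_card _ _ hFa) _
  -- arithmetic
  have hWd : 0 < k6aW i' ^ d := Real.rpow_pos_of_pos hW' _
  have e1 : ENNReal.ofReal (1 / η) * ENNReal.ofReal η = 1 := by
    rw [← ENNReal.ofReal_mul (by positivity), one_div, inv_mul_cancel₀ hη.ne', ENNReal.ofReal_one]
  calc D.ν S = ENNReal.ofReal (1 / η) * (ENNReal.ofReal η * D.ν S) := by rw [← mul_assoc, e1, one_mul]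
    _ ≤ ENNReal.ofReal (1 / η) *
          (ENNReal.ofReal (2 ^ i + 1) * (ENNReal.ofReal ((2 * K + 6) ^ j) * (ENNReal.ofReal (6 * K + 8) * R))) :=
        mul_le_mul_right (hT1.trans hT2) _
    _ = ENNReal.ofReal (1 / η * ((2 ^ i + 1) * ((2 * K + 6) ^ j * ((6 * K + 8) * (K * k6aW i * k6aW i ^ j * k6aW i' ^ d)))))
          * D.pal (k6aCube i bV) := by
        rw [hR, ENNReal.ofReal_mul (p := 1 / η) (by positivity), ENNReal.ofReal_mul (p := 2 ^ i + 1) (by positivity),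
          ENNReal.ofReal_mul (p := (2 * K + 6) ^ j) (by positivity), ENNReal.ofReal_mul (p := 6 * K + 8) (by positivity)]
        simp only [mul_assoc]
    _ ≤ _ := by
        refine mul_le_mul_left (ENNReal.ofReal_le_ofReal ?_) _
        have h1 : (2 ^ i + 1) * k6aW i ≤ 2 := by
          have := k6a1_W_mul i
          nlinarith
        have h2 : (2 * K + 6) ^ j ≤ 8 ^ j * K ^ j := by
          rw [← mul_pow]
          exact pow_le_pow_left₀ (by positivity) (by linarith) _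
        have h3 : 6 * K + 8 ≤ 14 * K := by linarith
        have hKη : 1 ≤ K / η := by
          rw [le_div_iff₀ hη]; linarith
        have h4 : K ^ (j + 2) / η ≤ (K / η) ^ (j + 2) := by
          rw [div_pow]
          refine div_le_div_of_nonneg_left (by positivity) (by positivity) ?_
          exact pow_le_of_le_one hη.le hη1 (by omega)
        have h5 := k6a1_K_of_pow (28 * 8 ^ j) (j + 2) hKη
        push_cast at h5
        have h6 : 1 / η * ((2 ^ i + 1) * ((2 * K + 6) ^ j * ((6 * K + 8) * (K * k6aW i * k6aW i ^ j * k6aW i' ^ d))))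
            = (((2 ^ i + 1) * k6aW i) * (2 * K + 6) ^ j * (6 * K + 8) * K / η) * (k6aW i ^ j * k6aW i' ^ d) := by
          field_simp
        rw [h6, mul_assoc (k6a1K _ _)]
        refine mul_le_mul_of_nonneg_right ?_ (by positivity)
        refine le_trans ?_ h5
        calc ((2 ^ i + 1) * k6aW i) * (2 * K + 6) ^ j * (6 * K + 8) * K / η
            ≤ 2 * (8 ^ j * K ^ j) * (14 * K) * K / η := by
              refine div_le_div_of_nonneg_right ?_ hη.le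
              refine mul_le_mul_of_nonneg_right ?_ hK0.le
              exact mul_le_mul (mul_le_mul h1 h2 (by positivity) (by norm_num)) h3 (by positivity) (by positivity)
          _ = 28 * 8 ^ j * (K ^ (j + 2) / η) := by ring
          _ ≤ _ := mul_le_mul_of_nonneg_left h4 (by positivity)

end

end Claimed.Agent.R252
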