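import Claimed.Agent.R252.S6a.Phys.Tools
import Claimed.Agent.R252.S6a.Phys.Calc

/-!
# ROW 252, unit S6a1, file 5: ONE NODE: the gradient bound for the packet graphs (06 l.113-172).   CONTRACT      (sub-architect helper11; prefix `k6a1_`)

Language of `S6a/Layers.lean` + `Phys/Defs.lean`.   `D` one parent, `Pk` one node, `G : K6a1En D Pk` its graph entries, `E0` the prepared family.   Black boxes: `Phys/Tools.lean`, `Phys/Calc.lean` (usable while sorried).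
CHAIN   `E0 ⊇ Ea` (portions of duration `≥ η H / (2 K)`; (6.4))   `⊇ Eb` (gradient `≤ Λ`; loss `≤ εb` by breadth)   `⊇ Ec` (light entries removed; Remez extends the gradient bound to the whole box)   ⟹ `K6a1Graphs`.
Statements are frozen (defects: message to helper11).   Provers replace the `sorry`s IN PLACE, helper lemmas directly above.
LEAVES: L-252-P1-N1 (s1), N2 (`k6a1_node_dir`), N3 (`k6a1_node_big`), N4 (`k6a1_node_ext`), N5 (`k6a1_node_graphs`), N6 (`k6a1_node`, `k6a1_pk_ok`), N7 (`k6a1_frz`).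
-/

set_option autoImplicit false

namespace Claimed.Agent.R252

open MeasureTheory
open scoped ENNReal BigOperators

noncomputable section

variable {j : ℕ}

/-! ## 1. entries: elementary facts -/

section basic

variable {D : K6aDat j} {Pk : K6aPk D} (G : K6a1En D Pk)

theorem k6a1_dir_add (e : G.En) (z z' : ℝ × (Fin j → ℝ)) : G.dir e (z + z') = G.dir e z + G.dir e z' := by
  unfold K6a1En.dir
  simp only [Prod.fst_add, Prod.snd_add, Pi.add_apply, add_smul, Finset.sum_add_distrib]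
  abel

theorem k6a1_dir_smul (e : G.En) (c : ℝ) (z : ℝ × (Fin j → ℝ)) : G.dir e (c • z) = c • G.dir e z := by
  unfold K6a1En.dir
  simp only [Prod.smul_fst, Prod.smul_snd, Pi.smul_apply, smul_eq_mul, mul_smul, smul_add, Finset.smul_sum]

theorem k6a1_dir_t (e : G.En) : G.dir e (1, 0) = G.ct e := by
  unfold K6a1En.dir
  simp

theorem k6a1_dir_y (e : G.En) (a : Fin j) : G.dir e (0, Pi.single a 1) = G.cy e a := by
  classical
  unfold K6a1En.dir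
  simp only [zero_smul, zero_add]
  rw [Finset.sum_eq_single a]
  · rw [Pi.single_eq_same, one_smul]
  · intro b _ hb
    rw [Pi.single_eq_of_ne hb, zero_smul]
  · intro h
    exact absurd (Finset.mem_univ a) h

theorem k6a1_dir_eq (e : G.En) (z : ℝ × (Fin j → ℝ)) : G.dir e z = z.1 • G.dir e (1, 0) + ∑ a, z.2 a • G.dir e (0, Pi.single a 1) := by
  rw [k6a1_dir_t]
  simp only [k6a1_dir_y]
  rfl

/-- a trajectory is a line in the chart -/
theorem k6a1_u_line (e : G.En) (l : D.L) (t : ℝ) : G.u e (D.base (l, t)) = G.u e (0, D.y0 l) + t • G.dir e (1, D.V l) := by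
  have h : D.base (l, t) = (0, D.y0 l) + t • ((1 : ℝ), D.V l) := by
    unfold K6aDat.base K6aDat.y
    ext <;> simp
  unfold K6a1En.u
  rw [h, k6a1_dir_add, k6a1_dir_smul, add_assoc]

theorem k6a1_u_sub (e : G.En) (z z' : ℝ × (Fin j → ℝ)) : G.u e z' - G.u e z = (z'.1 - z.1) • G.dir e (1, 0) + ∑ a, (z'.2 a - z.2 a) • G.dir e (0, Pi.single a 1) := by
  unfold K6a1En.u
  rw [k6a1_dir_eq G e z', k6a1_dir_eq G e z]
  simp only [sub_smul, Finset.sum_sub_distrib]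
  abel

/-- the derivative in the direction `(1, V)` (`k6a1_Dv_add`, `k6a1_Dv_sum`) -/
theorem k6a1_dv_lin (e : G.En) (V : Fin j → ℝ) (z : ℝ × (Fin j → ℝ)) : G.dv e (1, V) z = G.gt e z + ∑ a, V a * G.gy e a z := by
  unfold K6a1En.gt K6a1En.gy K6a1En.dv
  rw [k6a1_dir_eq G e (1, V), k6a1_Dv_add, k6a1_Dv_sum, one_smul]

theorem k6a1_meas_u (e : G.En) : Measurable (G.u e) := by
  have h : Continuous (G.u e) := by
    unfold K6a1En.u K6a1En.dir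
    fun_prop
  exact h.measurable

theorem k6a1_meas_f (e : G.En) : Measurable (G.f e) :=
  (sh2_val_measurable (G.m e) (G.al e) (G.be e) (G.Dc e)).comp (k6a1_meas_u G e)

theorem k6a1_meas_dv (e : G.En) (z' : ℝ × (Fin j → ℝ)) : Measurable (G.dv e z') :=
  (k6a1_Dv_meas (G.m e) (G.al e) (G.be e) (G.Dc e) (G.dir e z')).comp (k6a1_meas_u G e)

/-- the state of the gradient argument is a label -/
theorem k6a1_meas_st {K : ℝ} {dg nf : ℕ} {E0 : Set (D.L × ℝ)} (hD : D.WF K) (hG : G.Ok dg K nf E0) (s : G.En × K6aZc j) : MeasurableSet (G.st nf ⁻¹' {s}) := by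
  have h : G.st nf ⁻¹' {s} = G.en ⁻¹' {s.1} ∩ D.zc nf ⁻¹' {s.2} := by
    ext x
    simp only [Set.mem_preimage, Set.mem_singleton_iff, Set.mem_inter_iff, K6a1En.st]
    exact Prod.ext_iff
  rw [h]
  exact (hG.m_en s.1).inter (k6a1_meas_zc D hD nf s.2)

/-- measurability of a function of (entry, base) -/
theorem k6a1_meas_en_fun {K : ℝ} {dg nf : ℕ} {E0 : Set (D.L × ℝ)} (hD : D.WF K) (hG : G.Ok dg K nf E0) (φ : G.En → ℝ × (Fin j → ℝ) → ℝ)
    (hφ : ∀ e, Measurable (φ e)) : Measurable fun x : D.L × ℝ => φ (G.en x) (D.base x) := by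
  intro T hT
  have h : (fun x : D.L × ℝ => φ (G.en x) (D.base x)) ⁻¹' T = ⋃ e : G.En, G.en ⁻¹' {e} ∩ (fun x => φ e (D.base x)) ⁻¹' T := by
    ext x
    simp only [Set.mem_preimage, Set.mem_iUnion, Set.mem_inter_iff, Set.mem_singleton_iff]
    constructor
    · intro hx
      exact ⟨G.en x, rfl, hx⟩
    · rintro ⟨e, he, hx⟩
      rw [he]
      exact hx
  rw [h]
  exact MeasurableSet.iUnion fun e => (hG.m_en e).inter (((hφ e).comp (k6a1_meas_base D hD)) hT)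

/-- the budget `∑_Q H ν_Q ≤ 2` over the packets whose block meets `[0,1]` (disjoint assignments in each of the `≤ 2^lev + 1` blocks) -/
theorem k6a1_budget {d k K : ℝ} {E0 : Set (D.L × ℝ)} (hD : D.WF K) (hP : K6a1PkRaw Pk d k K E0) :
    ∑ q ∈ Finset.univ.filter (fun q : Pk.Q => 0 ≤ Pk.iv q ∧ Pk.iv q ≤ 2 ^ Pk.lev), ENNReal.ofReal Pk.H * Pk.νQ q ≤ 2 := by
  classical
  have := hD.prob
  have hH0 : 0 < Pk.H := k6a1_W_pos _
  have hH1 : Pk.H ≤ 1 := k6a1_W_le_one _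
  have hHm : Pk.H * 2 ^ Pk.lev = 1 := k6a1_W_mul _
  rw [← Finset.sum_fiberwise_of_maps_to (t := Finset.Icc (0 : ℤ) (2 ^ Pk.lev)) (g := Pk.iv)
    (fun q hq => Finset.mem_Icc.2 (Finset.mem_filter.1 hq).2)]
  have hfib : ∀ i : ℤ, ∑ q ∈ (Finset.univ.filter (fun q : Pk.Q => 0 ≤ Pk.iv q ∧ Pk.iv q ≤ 2 ^ Pk.lev)).filter (fun q => Pk.iv q = i), ENNReal.ofReal Pk.H * Pk.νQ q
      ≤ ENNReal.ofReal Pk.H := fun i => by
    rw [← Finset.mul_sum]
    have hdisj : Set.PairwiseDisjoint (↑((Finset.univ.filter (fun q : Pk.Q => 0 ≤ Pk.iv q ∧ Pk.iv q ≤ 2 ^ Pk.lev)).filter (fun q => Pk.iv q = i)) : Set Pk.Q) Pk.asg := by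
      intro q hq q' hq' hne
      have h1 : Pk.iv q = i := (Finset.mem_filter.1 hq).2
      have h2 : Pk.iv q' = i := (Finset.mem_filter.1 hq').2
      exact hP.disj q q' hne (h1.trans h2.symm)
    have hsum : ∑ q ∈ (Finset.univ.filter (fun q : Pk.Q => 0 ≤ Pk.iv q ∧ Pk.iv q ≤ 2 ^ Pk.lev)).filter (fun q => Pk.iv q = i), Pk.νQ q ≤ 1 := by
      unfold K6aPk.νQ
      rw [← measure_biUnion_finset hdisj fun q _ => hP.asg_meas q]
      exact prob_le_one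
    calc ENNReal.ofReal Pk.H * _ ≤ ENNReal.ofReal Pk.H * 1 := mul_le_mul_right hsum _
      _ = _ := mul_one _
  have hcard : (Finset.Icc (0 : ℤ) (2 ^ Pk.lev)).card = 2 ^ Pk.lev + 1 := by
    rw [Int.card_Icc]
    have : ((2 : ℤ) ^ Pk.lev + 1 - 0) = ((2 ^ Pk.lev + 1 : ℕ) : ℤ) := by push_cast; ring
    rw [this, Int.toNat_natCast]
  calc ∑ i ∈ Finset.Icc (0 : ℤ) (2 ^ Pk.lev), ∑ q ∈ (Finset.univ.filter (fun q : Pk.Q => 0 ≤ Pk.iv q ∧ Pk.iv q ≤ 2 ^ Pk.lev)).filter (fun q => Pk.iv q = i),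
        ENNReal.ofReal Pk.H * Pk.νQ q
      ≤ ∑ _i ∈ Finset.Icc (0 : ℤ) (2 ^ Pk.lev), ENNReal.ofReal Pk.H := Finset.sum_le_sum fun i _ => hfib i
    _ = ENNReal.ofReal (((2 ^ Pk.lev + 1 : ℕ) : ℝ) * Pk.H) := by
        rw [Finset.sum_const, hcard, nsmul_eq_mul, ENNReal.ofReal_mul (Nat.cast_nonneg _), ENNReal.ofReal_natCast]
    _ ≤ ENNReal.ofReal 2 := by
        refine ENNReal.ofReal_le_ofReal ?_
        push_cast
        nlinarith
    _ = 2 := by norm_num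

/-- a line carries `≤ (2^lev + 1) K` entries (in each block ONE packet, `K6a1PkRaw.disj`; `≤ K` entries per packet) -/
theorem k6a1_line_entries {d k K : ℝ} {dg nf : ℕ} {E0 : Set (D.L × ℝ)} (hK : 1 ≤ K) (hE : E0 ⊆ Set.univ ×ˢ Set.Icc (0 : ℝ) 1) (hP : K6a1PkRaw Pk d k K E0)
    (hG : G.Ok dg K nf E0) (l : D.L) : k6a1Cnt {x : D.L × ℝ | x ∈ E0 ∧ x.1 = l} G.en ((2 ^ Pk.lev + 1) * K) := by
  have h1 : k6a1Cnt {x : D.L × ℝ | x ∈ E0 ∧ x.1 = l} (fun x => k6aBin Pk.lev x.2) (2 ^ Pk.lev + 1) :=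
    k6a1_cnt_mono (k6a1_cnt_pre (k6a1_bin_unit Pk.lev) (Prod.snd : D.L × ℝ → ℝ)) (fun x hx => (hE hx.1).2) le_rfl
  refine k6a1_cnt_fib h1 (by linarith) fun s0 => ?_
  by_cases hne : ({x : D.L × ℝ | x ∈ E0 ∧ x.1 = l} ∩ (fun x => k6aBin Pk.lev x.2) ⁻¹' {s0}).Nonempty
  · obtain ⟨x0, ⟨hx0, hl0⟩, hs0⟩ := hne
    obtain ⟨F, hF, hm⟩ := hG.card (G.pk (G.en x0))
    refine ⟨F, hF, ?_⟩
    rintro x ⟨⟨hx, hl⟩, hs⟩
    refine hm (G.en x) ?_
    show G.pk (G.en x) = G.pk (G.en x0)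
    by_contra hq
    have a1 := (hG.cov x hx).1
    have a0 := (hG.cov x0 hx0).1
    have b1 : k6aBin Pk.lev x.2 = Pk.iv (G.pk (G.en x)) := a1.2
    have b0 : k6aBin Pk.lev x0.2 = Pk.iv (G.pk (G.en x0)) := a0.2
    have c1 : k6aBin Pk.lev x.2 = s0 := hs
    have c0 : k6aBin Pk.lev x0.2 = s0 := hs0
    have hd := hP.disj _ _ hq (by rw [← b1, ← b0, c1, c0])
    have m1 : l ∈ Pk.asg (G.pk (G.en x)) := hl ▸ a1.1
    have m0 : l ∈ Pk.asg (G.pk (G.en x0)) := hl0 ▸ a0.1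
    exact Set.disjoint_left.1 hd m1 m0
  · refine ⟨∅, by simpa using (by linarith : (0 : ℝ) ≤ K), fun x hx => (hne ⟨x, hx⟩).elim⟩

end basic

/-! ## 2. the chain -/

/-- **(6.4)** `|D_v f - X'| ≤ K a / H` on the surviving portions.
PLAN: `Ea = k6a1Dur D G.en E0 (η H / (2 K))`, loss `≤ (2^lev + 1) K η H / (2 K) ≤ η` (`k6a1_prune_dur`, `k6a1_line_entries`, `H 2^lev = 1`).   For `x = (l, t) ∈ Ea`, `e = en x`: `T = {τ | (l, τ) ∈ E0 ∧ en (l, τ) = e}` lies in the block of `pk e`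
(an interval of length `H`, `Ok.cov`), has measure `≥ (η / (2 K)) H`; on `T`: `u (base (l, τ)) = x₀ + τ w` (`k6a1_u_line`) lies in the box and `|F - X_l(τ)| ≤ K a`.   `k6a1_dir dg` with `θ = η / (2 K)`, `kap = K`, `M = K a`. -/
theorem k6a1_node_dir (j dg : ℕ) : ∃ C : ℕ, ∀ (D : K6aDat j) (Pk : K6aPk D) (G : K6a1En D Pk) (d k K η : ℝ) (nf : ℕ) (E0 : Set (D.L × ℝ)), 1 ≤ K → 0 < η → η ≤ 1 →
    D.WF K → MeasurableSet E0 → E0 ⊆ Set.univ ×ˢ Set.Icc (0 : ℝ) 1 → K6a1PkRaw Pk d k K E0 → G.Ok dg K nf E0 →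
    ∃ Ea : Set (D.L × ℝ), MeasurableSet Ea ∧ Ea ⊆ E0 ∧ D.prior (E0 \ Ea) ≤ ENNReal.ofReal η ∧
      ∀ x ∈ Ea, |G.dv (G.en x) (1, D.V x.1) (D.base x) - D.Xd x.1 x.2| ≤ k6a1K C (K / η) * Pk.a / Pk.H := by
  obtain ⟨C0, hC0⟩ := k6a1_dir dg
  refine ⟨(C0 * 2 ^ C0 + 2 * C0) * 1 + (C0 * 2 ^ C0 + 2 * C0) + 1, ?_⟩
  intro D Pk G d k K η nf E0 hK hη hη1 hD hE0 hE01 hP hG
  have hK0 : 0 < K := by linarith
  have hH0 : 0 < Pk.H := k6a1_W_pos _
  have hH1 : Pk.H ≤ 1 := k6a1_W_le_one _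
  have hHm : Pk.H * 2 ^ Pk.lev = 1 := k6a1_W_mul _
  have hX : 1 ≤ K / η := by rw [le_div_iff₀ hη]; linarith
  obtain ⟨hm, hloss⟩ := k6a1_prune_dur D hD G.en hG.m_en E0 hE0 (η * Pk.H / (2 * K)) ((2 ^ Pk.lev + 1) * K) (by positivity)
    (fun l => k6a1_line_entries G hK hE01 hP hG l)
  refine ⟨k6a1Dur D G.en E0 (η * Pk.H / (2 * K)), hm, fun x hx => hx.1, hloss.trans (ENNReal.ofReal_le_ofReal ?_), ?_⟩
  · have e : (2 ^ Pk.lev + 1) * K * (η * Pk.H / (2 * K)) = (Pk.H * 2 ^ Pk.lev + Pk.H) * η / 2 := by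
      field_simp
    rw [e, hHm]
    nlinarith
  · rintro x ⟨hx, hdur⟩
    obtain ⟨e, he⟩ : ∃ e, e = G.en x := ⟨_, rfl⟩
    rw [← he] at hdur ⊢
    obtain ⟨T, hT⟩ : ∃ T : Set ℝ, T = {τ | (x.1, τ) ∈ E0 ∧ G.en (x.1, τ) = e} := ⟨_, rfl⟩
    rw [← hT] at hdur
    have hθ : 0 < η / (2 * K) := by positivity
    have hθ1 : η / (2 * K) ≤ 1 := by rw [div_le_one (by positivity)]; linarith
    have hxT : x.2 ∈ T := by
      rw [hT]
      exact ⟨hx, he.symm⟩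
    have hTsub : T ⊆ Set.Icc ((Pk.iv (G.pk e) : ℝ) * Pk.H) ((Pk.iv (G.pk e) : ℝ) * Pk.H + Pk.H) := by
      intro τ hτ
      rw [hT] at hτ
      have h1 := (hG.cov _ hτ.1).1.2
      rw [hτ.2] at h1
      have h2 : k6aBin Pk.lev τ = Pk.iv (G.pk e) := h1
      obtain ⟨a1, a2⟩ := (k6a1_bin_iff _ _ _).1 h2
      have a1' : (Pk.iv (G.pk e) : ℝ) * Pk.H ≤ τ := a1
      have a2' : τ < ((Pk.iv (G.pk e) : ℝ) + 1) * Pk.H := a2
      exact ⟨a1', by linarith⟩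
    have hvol : ENNReal.ofReal (η / (2 * K) * Pk.H) ≤ volume T := by
      have e1 : η / (2 * K) * Pk.H = η * Pk.H / (2 * K) := by ring
      rw [e1]
      exact hdur
    have hfit : ∀ τ ∈ T, G.u e (0, D.y0 x.1) + τ • G.dir e (1, D.V x.1) ∈ Set.Icc (G.lo e) (G.hi e) ∧
        |sh2_val (G.m e) (G.al e) (G.be e) (G.Dc e) (G.u e (0, D.y0 x.1) + τ • G.dir e (1, D.V x.1)) - (D.xc x.1 0 + D.xc x.1 1 * τ + D.xc x.1 2 * τ ^ 2)| ≤ K * Pk.a := by
      intro τ hτ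
      rw [hT] at hτ
      obtain ⟨-, b2, b3⟩ := hG.cov _ hτ.1
      rw [hτ.2] at b2 b3
      rw [← k6a1_u_line]
      refine ⟨b2, ?_⟩
      rw [abs_sub_comm]
      exact b3
    have hmain := hC0 (j + 1) (G.m e) (G.al e) (G.be e) (G.Dc e) (G.lo e) (G.hi e) (G.u e (0, D.y0 x.1)) (G.dir e (1, D.V x.1)) K (η / (2 * K)) (K * Pk.a) Pk.H
      ((Pk.iv (G.pk e) : ℝ) * Pk.H) (D.xc x.1 0) (D.xc x.1 1) (D.xc x.1 2) T (hG.m_le e) (hG.deg e).1 (hG.deg e).2.1 (hG.deg e).2.2 hK (hG.stab e) hθ hθ1 hH0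
      (by have := hP.a_pos; positivity) hTsub hvol hfit x.2 hxT
    rw [← k6a1_u_line] at hmain
    refine le_trans hmain ?_
    have hKK : k6a1K C0 (K / (η / (2 * K))) * K ≤ k6a1K ((C0 * 2 ^ C0 + 2 * C0) * 1 + (C0 * 2 ^ C0 + 2 * C0) + 1) (K / η) := by
      have h1 : K / (η / (2 * K)) ≤ k6a1K 2 (K / η) := by
        unfold k6a1K
        have e2 : K / (η / (2 * K)) = 2 * (K * (K / η)) := by field_simp
        rw [e2]
        have : K ≤ K / η := by rw [le_div_iff₀ hη]; nlinarith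
        push_cast
        nlinarith
      have h0 : 1 ≤ K / (η / (2 * K)) := by rw [le_div_iff₀ hθ]; linarith
      have h2 : k6a1K C0 (K / (η / (2 * K))) ≤ k6a1K (C0 * 2 ^ C0 + 2 * C0) (K / η) :=
        (k6a1_K_mono le_rfl h0 h1).trans (k6a1_K_comp C0 2 hX)
      have h3 : K ≤ k6a1K 1 (K / η) := by
        refine le_trans ?_ (k6a1_K_ge le_rfl hX)
        rw [le_div_iff₀ hη]
        nlinarith
      exact (mul_le_mul h2 h3 hK0.le (k6a1_K_nonneg _ (by linarith))).trans (k6a1_K_mul _ _ hX)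
    have ha := hP.a_pos
    rw [div_le_div_iff_of_pos_right hH0]
    calc k6a1K C0 (K / (η / (2 * K))) * (K * Pk.a) = k6a1K C0 (K / (η / (2 * K))) * K * Pk.a := by ring
      _ ≤ _ := mul_le_mul_of_nonneg_right hKK ha.le

/-- **the incidences with a large gradient are negligible** (06 l.157-170).
PLAN: `Big = Ea \ Eb` is measurable (`k6a1_meas_en_fun`, `k6a1_meas_dv`).   Every state `s0` of `Big` is narrow IN THE FAMILY `Big` with `κ = 1`: fix `x₀ ∈ Big` with `st x₀ = s0`, `g = (gt, gy)` at `x₀`; for `x ∈ Big`, `st x = s0`: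
`|g0 + gy · V_x| ≤ |dv (1, V_x) (base x)| + 1 + j K ≤ b + 1 + j K` (`k6a1_dv_lin`, `Ok.frz`, `‖V‖ ≤ K`); `k6a1_narrow` with `b + 1 + j K`.   Then `K6aBrd` for `E' = Big` gives `prior Big ≤ εb`. -/
theorem k6a1_node_big (j : ℕ) (hj : 1 ≤ j) (D : K6aDat j) (Pk : K6aPk D) (G : K6a1En D Pk) (K b w εb Λ : ℝ) (dg nf : ℕ) (E0 Ea : Set (D.L × ℝ)) (hK : 1 ≤ K)
    (hb : 0 ≤ b) (hw : 0 < w) (hD : D.WF K) (hG : G.Ok dg K nf E0) (hEa : MeasurableSet Ea) (hsub : Ea ⊆ E0)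
    (hdir : ∀ x ∈ Ea, |G.dv (G.en x) (1, D.V x.1) (D.base x)| ≤ b) (hbr : K6aBrd D E0 (G.st nf) 1 w εb)
    (hΛ : (b + 1 + j * K) * (1 + j * K / w) ≤ Λ) :
    MeasurableSet {x | x ∈ Ea ∧ |G.gt (G.en x) (D.base x)| ≤ Λ ∧ ∀ a, |G.gy (G.en x) a (D.base x)| ≤ Λ} ∧
      D.prior (Ea \ {x | x ∈ Ea ∧ |G.gt (G.en x) (D.base x)| ≤ Λ ∧ ∀ a, |G.gy (G.en x) a (D.base x)| ≤ Λ}) ≤ ENNReal.ofReal εb := by
  have hmt : Measurable fun x : D.L × ℝ => G.gt (G.en x) (D.base x) := k6a1_meas_en_fun G hD hG (fun e => G.gt e) fun e => k6a1_meas_dv G e _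
  have hmy : ∀ a, Measurable fun x : D.L × ℝ => G.gy (G.en x) a (D.base x) := fun a =>
    k6a1_meas_en_fun G hD hG (fun e => G.gy e a) fun e => k6a1_meas_dv G e _
  have hEb : MeasurableSet {x | x ∈ Ea ∧ |G.gt (G.en x) (D.base x)| ≤ Λ ∧ ∀ a, |G.gy (G.en x) a (D.base x)| ≤ Λ} := by
    have e : {x | x ∈ Ea ∧ |G.gt (G.en x) (D.base x)| ≤ Λ ∧ ∀ a, |G.gy (G.en x) a (D.base x)| ≤ Λ}
        = Ea ∩ ({x | |G.gt (G.en x) (D.base x)| ≤ Λ} ∩ ⋂ a, {x | |G.gy (G.en x) a (D.base x)| ≤ Λ}) := by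
      ext x
      simp only [Set.mem_ofPred_eq, Set.mem_inter_iff, Set.mem_iInter]
    rw [e]
    exact hEa.inter ((measurableSet_le hmt.abs measurable_const).inter (MeasurableSet.iInter fun a => measurableSet_le (hmy a).abs measurable_const))
  refine ⟨hEb, ?_⟩
  obtain ⟨Big, hBig⟩ : ∃ Big : Set (D.L × ℝ), Big = Ea \ {x | x ∈ Ea ∧ |G.gt (G.en x) (D.base x)| ≤ Λ ∧ ∀ a, |G.gy (G.en x) a (D.base x)| ≤ Λ} := ⟨_, rfl⟩
  rw [← hBig]
  have hBm : MeasurableSet Big := by rw [hBig]; exact hEa.diff hEb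
  have hBa : Big ⊆ Ea := by rw [hBig]; exact Set.sdiff_subset
  have hB0 : Big ⊆ E0 := hBa.trans hsub
  have hnar : ∀ x₀ ∈ Big, K6aNarrow D Big (G.st nf) 1 w (G.st nf x₀) := by
    intro x₀ hx₀
    have hg : Λ < |G.gt (G.en x₀) (D.base x₀)| ∨ ∃ a, Λ < |G.gy (G.en x₀) a (D.base x₀)| := by
      have h1 := hx₀
      rw [hBig] at h1
      by_contra hcon
      push Not at hcon
      exact h1.2 ⟨h1.1, hcon.1, hcon.2⟩
    have hjK : 0 ≤ (j : ℝ) * K := by positivity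
    obtain ⟨n, c, hn, hnc⟩ := k6a1_narrow j hj (G.gt (G.en x₀) (D.base x₀)) (fun a => G.gy (G.en x₀) a (D.base x₀)) K (b + 1 + j * K) w Λ hK (by linarith) hw hΛ hg
      {V | ∃ x ∈ Big, G.st nf x = G.st nf x₀ ∧ V = D.V x.1} ⟨_, x₀, hx₀, rfl, rfl⟩ (by
        rintro V ⟨x, hx, hst, rfl⟩
        have hVK : ‖D.V x.1‖ ≤ K := (hD.bd x.1).2.1
        refine ⟨hVK, ?_⟩
        have hen : G.en x = G.en x₀ := congrArg Prod.fst hst
        obtain ⟨f1, f2⟩ := hG.frz x₀ (hB0 hx₀) x (hB0 hx) hst.symm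
        have h1 := hdir x (hBa hx)
        rw [k6a1_dv_lin, hen] at h1
        have e : G.gt (G.en x₀) (D.base x₀) + (fun a => G.gy (G.en x₀) a (D.base x₀)) ⬝ᵥ D.V x.1
            = (G.gt (G.en x₀) (D.base x) + ∑ a, D.V x.1 a * G.gy (G.en x₀) a (D.base x)) + (G.gt (G.en x₀) (D.base x₀) - G.gt (G.en x₀) (D.base x))
              + ∑ a, D.V x.1 a * (G.gy (G.en x₀) a (D.base x₀) - G.gy (G.en x₀) a (D.base x)) := by
          unfold dotProduct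
          simp only [mul_sub, Finset.sum_sub_distrib]
          have : ∑ a, G.gy (G.en x₀) a (D.base x₀) * D.V x.1 a = ∑ a, D.V x.1 a * G.gy (G.en x₀) a (D.base x₀) :=
            Finset.sum_congr rfl fun a _ => mul_comm _ _
          rw [this]
          ring
        have h3 : |∑ a, D.V x.1 a * (G.gy (G.en x₀) a (D.base x₀) - G.gy (G.en x₀) a (D.base x))| ≤ j * K := by
          refine (Finset.abs_sum_le_sum_abs _ _).trans ?_
          calc ∑ a, |D.V x.1 a * (G.gy (G.en x₀) a (D.base x₀) - G.gy (G.en x₀) a (D.base x))| ≤ ∑ _a : Fin j, K := by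
                refine Finset.sum_le_sum fun a _ => ?_
                rw [abs_mul]
                have h4 : |D.V x.1 a| ≤ K := (norm_le_pi_norm (D.V x.1) a).trans hVK
                calc |D.V x.1 a| * |G.gy (G.en x₀) a (D.base x₀) - G.gy (G.en x₀) a (D.base x)| ≤ K * 1 :=
                      mul_le_mul h4 (f2 a) (abs_nonneg _) (by linarith)
                  _ = K := mul_one _
            _ = j * K := by rw [Finset.sum_const, Finset.card_univ, Fintype.card_fin, nsmul_eq_mul]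
        rw [e]
        refine (abs_add_le _ _).trans ?_
        have := abs_add_le (G.gt (G.en x₀) (D.base x) + ∑ a, D.V x.1 a * G.gy (G.en x₀) a (D.base x)) (G.gt (G.en x₀) (D.base x₀) - G.gt (G.en x₀) (D.base x))
        linarith)
    refine ⟨n, c, hn, ?_⟩
    rw [ENNReal.ofReal_one, one_mul]
    refine measure_mono fun x hx => ⟨hx, ?_⟩
    exact hnc _ ⟨x, hx.1, hx.2, rfl⟩
  calc D.prior Big ≤ D.prior (Big ∩ {e | K6aNarrow D Big (G.st nf) 1 w (G.st nf e)}) := measure_mono fun x hx => ⟨hx, hnar x hx⟩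
    _ ≤ _ := hbr Big hBm hB0

/-- **the gradient bound extends to the whole box of every surviving entry** (06 l.170-172).
PLAN: `Ec = k6a1Hv prior G.en Eb θ`, `θ e = (η / (2 K)) H ν_Q (pk e)`; loss `≤ ∑_e θ e ≤ K (η / (2 K)) ∑_Q H ν_Q ≤ η` (only packets whose block meets `[0,1]` occur; `k6a1_budget`, `Ok.card`, `k6a1_prune_light`).
For a surviving entry: `Eu` = the set of the `u e (base x)`, `x ∈ Eb`, `en x = e`; `U = toMeasurable volume Eu`; `Ok.ucap`: `(η / (2 K)) H ν_Q ≤ prior (Eb ∩ {en = e}) ≤ K H ν_Q vol Eu`, and `0 < H ν_Q < ∞` (`ν_lo`), so `vol Eu ≥ η / (2 K²)`,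
relative measure `≥ η / (2 K³)` (`Ok.vol`).   `k6a1_grad_remez (j+1) dg` for the `j + 1` directions. -/
theorem k6a1_node_ext (j dg : ℕ) : ∃ C : ℕ, ∀ (D : K6aDat j) (Pk : K6aPk D) (G : K6a1En D Pk) (d k K η Λ : ℝ) (nf : ℕ) (E0 Eb : Set (D.L × ℝ)), 1 ≤ K → 0 < η → η ≤ 1 →
    D.WF K → E0 ⊆ Set.univ ×ˢ Set.Icc (0 : ℝ) 1 → K6a1PkRaw Pk d k K E0 → G.Ok dg K nf E0 → MeasurableSet Eb → Eb ⊆ E0 →
    (∀ x ∈ Eb, |G.gt (G.en x) (D.base x)| ≤ Λ ∧ ∀ a, |G.gy (G.en x) a (D.base x)| ≤ Λ) →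
    ∃ Ec : Set (D.L × ℝ), MeasurableSet Ec ∧ Ec ⊆ Eb ∧ D.prior (Eb \ Ec) ≤ ENNReal.ofReal η ∧
      ∀ x ∈ Ec, ∀ z ∈ G.dom (G.en x), |G.gt (G.en x) z| ≤ k6a1K C (K / η) * Λ ∧ ∀ a, |G.gy (G.en x) a z| ≤ k6a1K C (K / η) * Λ := by
  classical
  obtain ⟨C0, hC0⟩ := k6a1_grad_remez (j + 1) dg
  refine ⟨C0 * 4 ^ C0 + 4 * C0, ?_⟩
  intro D Pk G d k K η Λ nf E0 Eb hK hη hη1 hD hE01 hP hG hEb hsub hgr
  have := hD.prob
  have hK0 : 0 < K := by linarith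
  have hH0 : 0 < Pk.H := k6a1_W_pos _
  have hX : 1 ≤ K / η := by rw [le_div_iff₀ hη]; linarith
  obtain ⟨θ, hθ⟩ : ∃ θ : G.En → ℝ≥0∞, θ = fun e => ENNReal.ofReal (η / (2 * K)) * (ENNReal.ofReal Pk.H * Pk.νQ (G.pk e)) := ⟨_, rfl⟩
  obtain ⟨S, hS⟩ : ∃ S : Finset Pk.Q, S = Finset.univ.filter (fun q : Pk.Q => 0 ≤ Pk.iv q ∧ Pk.iv q ≤ 2 ^ Pk.lev) := ⟨_, rfl⟩
  obtain ⟨F, hF⟩ : ∃ F : Finset G.En, F = Finset.univ.filter (fun e => G.pk e ∈ S) := ⟨_, rfl⟩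
  have hFm : ∀ x ∈ Eb, G.en x ∈ F := by
    intro x hx
    rw [hF, Finset.mem_filter, hS, Finset.mem_filter]
    refine ⟨Finset.mem_univ _, Finset.mem_univ _, ?_⟩
    have h1 : k6aBin Pk.lev x.2 = Pk.iv (G.pk (G.en x)) := (hG.cov x (hsub hx)).1.2
    obtain ⟨t0, t1⟩ := (hE01 (hsub hx)).2
    rw [← h1]
    unfold k6aBin
    constructor
    · exact Int.floor_nonneg.2 (by positivity)
    · rw [Int.floor_le_iff]
      push_cast
      have : x.2 * 2 ^ Pk.lev ≤ 1 * 2 ^ Pk.lev := mul_le_mul_of_nonneg_right t1 (by positivity)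
      linarith
  obtain ⟨hm, hloss⟩ := k6a1_prune_light D.prior G.en hG.m_en Eb hEb θ F hFm
  have hsum : ∑ e ∈ F, θ e ≤ ENNReal.ofReal η := by
    rw [← Finset.sum_fiberwise_of_maps_to (t := S) (g := G.pk) (fun e he => by rw [hF] at he; exact (Finset.mem_filter.1 he).2)]
    have hin : ∀ q, ∑ e ∈ F.filter (fun e => G.pk e = q), θ e ≤ ENNReal.ofReal K * (ENNReal.ofReal (η / (2 * K)) * (ENNReal.ofReal Pk.H * Pk.νQ q)) := fun q => by
      obtain ⟨F', hF', hm'⟩ := hG.card q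
      have hc : ((F.filter (fun e => G.pk e = q)).card : ℝ≥0∞) ≤ ENNReal.ofReal K := by
        rw [← ENNReal.ofReal_natCast]
        refine ENNReal.ofReal_le_ofReal (le_trans ?_ hF')
        exact_mod_cast Finset.card_le_card fun e he => hm' e (Finset.mem_filter.1 he).2
      rw [Finset.sum_congr rfl (fun e he => by rw [hθ]; simp only [(Finset.mem_filter.1 he).2] :
        ∀ e ∈ F.filter (fun e => G.pk e = q), θ e = ENNReal.ofReal (η / (2 * K)) * (ENNReal.ofReal Pk.H * Pk.νQ q)), Finset.sum_const, nsmul_eq_mul]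
      exact mul_le_mul_left hc _
    calc ∑ q ∈ S, ∑ e ∈ F.filter (fun e => G.pk e = q), θ e
        ≤ ∑ q ∈ S, ENNReal.ofReal K * (ENNReal.ofReal (η / (2 * K)) * (ENNReal.ofReal Pk.H * Pk.νQ q)) := Finset.sum_le_sum fun q _ => hin q
      _ = ENNReal.ofReal K * (ENNReal.ofReal (η / (2 * K)) * ∑ q ∈ S, ENNReal.ofReal Pk.H * Pk.νQ q) := by rw [Finset.mul_sum, Finset.mul_sum]
      _ ≤ ENNReal.ofReal K * (ENNReal.ofReal (η / (2 * K)) * 2) := by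
          rw [hS]
          exact mul_le_mul_right (mul_le_mul_right (k6a1_budget hD hP) _) _
      _ = ENNReal.ofReal η := by
          have h2 : (2 : ℝ≥0∞) = ENNReal.ofReal 2 := by norm_num
          rw [h2, ← ENNReal.ofReal_mul (by positivity), ← ENNReal.ofReal_mul hK0.le]
          congr 1
          field_simp
  refine ⟨k6a1Hv D.prior G.en Eb θ, hm, fun x hx => hx.1, hloss.trans hsum, ?_⟩
  rintro x ⟨hx, hhv⟩
  obtain ⟨e, he⟩ : ∃ e, e = G.en x := ⟨_, rfl⟩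
  rw [← he] at hhv ⊢
  have hΛ0 : 0 ≤ Λ := (abs_nonneg _).trans (hgr x hx).1
  obtain ⟨Eu, hEu⟩ : ∃ Eu : Set (Fin (j + 1) → ℝ), Eu = {u | ∃ x' ∈ Eb, G.en x' = e ∧ u = G.u e (D.base x')} := ⟨_, rfl⟩
  have hEusub : Eu ⊆ Set.Icc (G.lo e) (G.hi e) := by
    rw [hEu]
    rintro _ ⟨x', hx', hen, rfl⟩
    have := (hG.cov x' (hsub hx')).2.1
    rw [hen] at this
    exact this
  obtain ⟨A, hA⟩ : ∃ A : ℝ≥0∞, A = ENNReal.ofReal Pk.H * Pk.νQ (G.pk e) := ⟨_, rfl⟩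
  have hν0 : Pk.νQ (G.pk e) ≠ 0 := by
    intro h0
    have h1 := hP.ν_lo (G.pk e) ⟨x, hsub hx, by rw [he]; exact (hG.cov x (hsub hx)).1⟩
    rw [h0, mul_zero, nonpos_iff_eq_zero, ENNReal.ofReal_eq_zero] at h1
    have h2 : 0 < Pk.a ^ d * Pk.H ^ j := by
      have := hP.a_pos
      positivity
    linarith
  have hA0 : A ≠ 0 := by
    rw [hA]
    exact mul_ne_zero (by rw [Ne, ENNReal.ofReal_eq_zero, not_le]; exact hH0) hν0
  have hAt : A ≠ ∞ := by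
    rw [hA]
    exact ENNReal.mul_ne_top ENNReal.ofReal_ne_top (measure_ne_top _ _)
  have hvol1 : ENNReal.ofReal (η / (2 * K)) ≤ ENNReal.ofReal K * volume Eu := by
    have h1 : A * ENNReal.ofReal (η / (2 * K)) ≤ A * (ENNReal.ofReal K * volume Eu) := by
      calc A * ENNReal.ofReal (η / (2 * K)) = θ e := by rw [hθ, hA, mul_comm]
        _ ≤ D.prior (Eb ∩ G.en ⁻¹' {e}) := hhv
        _ ≤ D.prior (E0 ∩ G.en ⁻¹' {e} ∩ {x | G.u e (D.base x) ∈ toMeasurable volume Eu}) := measure_mono fun x' hx' => by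
            refine ⟨⟨hsub hx'.1, hx'.2⟩, subset_toMeasurable _ _ ?_⟩
            rw [hEu]
            exact ⟨x', hx'.1, hx'.2, rfl⟩
        _ ≤ ENNReal.ofReal (K * Pk.H) * Pk.νQ (G.pk e) * volume (toMeasurable volume Eu) := hG.ucap e _ (measurableSet_toMeasurable _ _)
        _ = A * (ENNReal.ofReal K * volume Eu) := by
            rw [measure_toMeasurable, hA, ENNReal.ofReal_mul hK0.le]
            ring
    exact (ENNReal.mul_le_mul_iff_right hA0 hAt).1 h1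
  have hKne : ENNReal.ofReal K ≠ 0 := by rw [Ne, ENNReal.ofReal_eq_zero, not_le]; exact hK0
  have hvol2 : ENNReal.ofReal (η / (2 * K ^ 3)) * volume (Set.Icc (G.lo e) (G.hi e)) ≤ volume Eu := by
    have h1 : ENNReal.ofReal K * (ENNReal.ofReal (η / (2 * K ^ 3)) * volume (Set.Icc (G.lo e) (G.hi e))) ≤ ENNReal.ofReal K * volume Eu := by
      calc ENNReal.ofReal K * (ENNReal.ofReal (η / (2 * K ^ 3)) * volume (Set.Icc (G.lo e) (G.hi e)))
          ≤ ENNReal.ofReal K * (ENNReal.ofReal (η / (2 * K ^ 3)) * ENNReal.ofReal K) := mul_le_mul_right (mul_le_mul_right (hG.vol e) _) _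
        _ = ENNReal.ofReal (η / (2 * K)) := by
            rw [← ENNReal.ofReal_mul (by positivity), ← ENNReal.ofReal_mul hK0.le]
            congr 1
            field_simp
        _ ≤ _ := hvol1
    exact (ENNReal.mul_le_mul_iff_right hKne ENNReal.ofReal_ne_top).1 h1
  have hθ' : 0 < η / (2 * K ^ 3) := by positivity
  have hθ'1 : η / (2 * K ^ 3) ≤ 1 := by
    rw [div_le_one (by positivity)]
    have : 1 ≤ K ^ 3 := one_le_pow₀ hK
    linarith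
  have hKK : k6a1K C0 (K / (η / (2 * K ^ 3))) ≤ k6a1K (C0 * 4 ^ C0 + 4 * C0) (K / η) := by
    have h1 : K / (η / (2 * K ^ 3)) ≤ k6a1K 4 (K / η) := by
      unfold k6a1K
      have e2 : K / (η / (2 * K ^ 3)) = 2 * (K ^ 4 / η) := by field_simp
      have e3 : (K / η) ^ 4 = K ^ 4 / η ^ 4 := div_pow _ _ _
      have h4 : η ^ 4 ≤ η := by
        calc η ^ 4 ≤ η ^ 1 := pow_le_pow_of_le_one hη.le hη1 (by norm_num)
          _ = η := pow_one _
      have h5 : K ^ 4 / η ≤ K ^ 4 / η ^ 4 := div_le_div_of_nonneg_left (by positivity) (by positivity) h4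
      have h6 : 0 ≤ K ^ 4 / η ^ 4 := by positivity
      rw [e2, e3]
      push_cast
      linarith
    have h0 : 1 ≤ K / (η / (2 * K ^ 3)) := by rw [le_div_iff₀ hθ']; linarith
    exact (k6a1_K_mono le_rfl h0 h1).trans (k6a1_K_comp C0 4 hX)
  have hrem : ∀ w : ℝ × (Fin j → ℝ), (∀ x' ∈ Eb, G.en x' = e → |G.dv e w (D.base x')| ≤ Λ) → ∀ z ∈ G.dom e, |G.dv e w z| ≤ k6a1K (C0 * 4 ^ C0 + 4 * C0) (K / η) * Λ := by
    intro w hw z hz
    have h1 := hC0 (G.m e) (G.al e) (G.be e) (G.Dc e) (G.lo e) (G.hi e) (G.dir e w) K (η / (2 * K ^ 3)) Λ Eu (hG.m_le e) (hG.deg e).1 (hG.deg e).2.1 (hG.deg e).2.2 hK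
      (hG.lt e) (hG.stab e) hθ' hθ'1 hEusub hvol2 (by
        rw [hEu]
        rintro _ ⟨x', hx', hen, rfl⟩
        exact hw x' hx' hen) (G.u e z) hz
    exact h1.trans (mul_le_mul_of_nonneg_right hKK hΛ0)
  intro z hz
  refine ⟨hrem (1, 0) (fun x' hx' hen => ?_) z hz, fun a => hrem (0, Pi.single a 1) (fun x' hx' hen => ?_) z hz⟩
  · have := (hgr x' hx').1
    rw [hen] at this
    exact this
  · have := (hgr x' hx').2 a
    rw [hen] at this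
    exact this

/-- `k6a1_lip` with the gradient bound on the segment only (the chart need not be onto) -/
theorem k6a1_lip_seg {n : ℕ} {ι : Type} [Fintype ι] (m : ℕ) (α β Dc : MvPolynomial (Fin n) ℝ) (lo hi : Fin n → ℝ) (kap Λ : ℝ) (hkap : 1 ≤ kap)
    (hst : sh2Stable kap Dc lo hi) (w : ι → Fin n → ℝ) (u u' : Fin n → ℝ) (hu : u ∈ Set.Icc lo hi) (hu' : u' ∈ Set.Icc lo hi)
    (hΛ : ∀ a, ∀ s ∈ Set.Icc (0 : ℝ) 1, |k6a1Dv m α β Dc (w a) (u + s • (u' - u))| ≤ Λ) (c : ι → ℝ) (hc : u' - u = ∑ a, c a • w a) :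
    |sh2_val m α β Dc u' - sh2_val m α β Dc u| ≤ (∑ a, |c a|) * Λ := by
  have hseg : ∀ s ∈ Set.Icc (0 : ℝ) 1, u + s • (u' - u) ∈ Set.Icc lo hi := fun s hs =>
    (convex_Icc lo hi).add_smul_sub_mem hu hu' hs
  have hder : ∀ s ∈ Set.Icc (0 : ℝ) 1, HasDerivAt (fun s : ℝ => sh2_val m α β Dc (u + s • (u' - u)))
      (k6a1Dv m α β Dc (u' - u) (u + s • (u' - u))) s := fun s hs =>
    k6a1_hasDerivAt m α β Dc u (u' - u) s (sh2_stable_pos hkap hst (hseg s hs))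
  have hbd : ∀ s ∈ Set.Icc (0 : ℝ) 1, ‖k6a1Dv m α β Dc (u' - u) (u + s • (u' - u))‖ ≤ (∑ a, |c a|) * Λ := by
    intro s hs
    rw [hc, k6a1_Dv_sum, Real.norm_eq_abs, Finset.sum_mul, ← hc]
    refine (Finset.abs_sum_le_sum_abs _ _).trans (Finset.sum_le_sum fun a _ => ?_)
    rw [abs_mul]
    exact mul_le_mul_of_nonneg_left (hΛ a s hs) (abs_nonneg _)
  have h1 := Convex.norm_image_sub_le_of_norm_hasDerivWithin_le (f := fun s : ℝ => sh2_val m α β Dc (u + s • (u' - u)))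
    (s := Set.Icc (0 : ℝ) 1) (fun s hs => (hder s hs).hasDerivWithinAt) hbd (convex_Icc _ _)
    (Set.left_mem_Icc.2 zero_le_one) (Set.right_mem_Icc.2 zero_le_one)
  simp only [one_smul, zero_smul, add_zero, add_sub_cancel, sub_zero, norm_one, mul_one, Real.norm_eq_abs] at h1
  exact h1

/-- the chart is affine -/
theorem k6a1_u_seg {D : K6aDat j} {Pk : K6aPk D} (G : K6a1En D Pk) (e : G.En) (z z' : ℝ × (Fin j → ℝ)) (s : ℝ) :
    G.u e (z + s • (z' - z)) = G.u e z + s • (G.u e z' - G.u e z) := by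
  have h : G.dir e z' = G.dir e z + G.dir e (z' - z) := by
    rw [← k6a1_dir_add]
    congr 1
    abel
  unfold K6a1En.u
  rw [k6a1_dir_add, k6a1_dir_smul, h]
  have e1 : G.c0 e + (G.dir e z + G.dir e (z' - z)) - (G.c0 e + G.dir e z) = G.dir e (z' - z) := by abel
  rw [e1, add_assoc]

/-- one entry with a gradient bound on its domain is Lipschitz there -/
theorem k6a1_entry_lip {D : K6aDat j} {Pk : K6aPk D} (G : K6a1En D Pk) {K Λ : ℝ} {dg nf : ℕ} {E0 : Set (D.L × ℝ)} (hK : 1 ≤ K) (hG : G.Ok dg K nf E0) (hΛ : 0 ≤ Λ) (e : G.En)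
    (hgr : ∀ z ∈ G.dom e, |G.gt e z| ≤ Λ ∧ ∀ a, |G.gy e a z| ≤ Λ) (z z' : ℝ × (Fin j → ℝ)) (hz : z ∈ G.dom e) (hz' : z' ∈ G.dom e) :
    |G.f e z - G.f e z'| ≤ ((j + 1) * Λ) * ‖z - z'‖ := by
  have hseg : ∀ s ∈ Set.Icc (0 : ℝ) 1, z' + s • (z - z') ∈ G.dom e := fun s hs => by
    show G.u e (z' + s • (z - z')) ∈ Set.Icc (G.lo e) (G.hi e)
    rw [k6a1_u_seg]
    exact (convex_Icc _ _).add_smul_sub_mem hz' hz hs
  have h1 := k6a1_lip_seg (ι := Option (Fin j)) (G.m e) (G.al e) (G.be e) (G.Dc e) (G.lo e) (G.hi e) K Λ hK (hG.stab e)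
    (fun o => match o with
      | none => G.dir e (1, 0)
      | some a => G.dir e (0, Pi.single a 1)) (G.u e z') (G.u e z) hz' hz
    (by
      intro o s hs
      rw [← k6a1_u_seg]
      cases o with
      | none => exact (hgr _ (hseg s hs)).1
      | some a => exact (hgr _ (hseg s hs)).2 a)
    (fun o => match o with
      | none => z.1 - z'.1
      | some a => z.2 a - z'.2 a)
    (by
      rw [Fintype.sum_option]
      exact k6a1_u_sub G e z' z)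
  refine le_trans h1 ?_
  rw [Fintype.sum_option]
  have h2 : |z.1 - z'.1| ≤ ‖z - z'‖ := norm_fst_le (z - z')
  have h3 : ∀ a, |z.2 a - z'.2 a| ≤ ‖z - z'‖ := fun a => (norm_le_pi_norm (z - z').2 a).trans (norm_snd_le (z - z'))
  have h4 : ∑ a, |z.2 a - z'.2 a| ≤ j * ‖z - z'‖ := by
    calc ∑ a, |z.2 a - z'.2 a| ≤ ∑ _a : Fin j, ‖z - z'‖ := Finset.sum_le_sum fun a _ => h3 a
      _ = j * ‖z - z'‖ := by rw [Finset.sum_const, Finset.card_univ, Fintype.card_fin, nsmul_eq_mul]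
  calc (|z.1 - z'.1| + ∑ a, |z.2 a - z'.2 a|) * Λ ≤ ((j + 1) * ‖z - z'‖) * Λ := mul_le_mul_of_nonneg_right (by linarith) hΛ
    _ = _ := by ring

/-- **graph lists with physical Lipschitz constant** from the gradient bound on the boxes.
PLAN: for a packet `q` list (by `Finset.equivFin`) the entries `e` with `pk e = q` which occur on `Ec` (`≤ K`, `Ok.card`); `f i = G.f e`, `Dm i = G.dom e`.   Lipschitz: `k6a1_lip` with `ι = Option (Fin j)` (or `Fin (j+1)`), `k6a1_u_sub`,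
`∑ |c_a| ≤ (j + 1) ‖z' - z‖`.   Cover: `Ok.cov` (the packet of an incidence of `inc q` is `q`: `disj`, same block). -/
theorem k6a1_node_graphs (j : ℕ) (D : K6aDat j) (Pk : K6aPk D) (G : K6a1En D Pk) (d k K Λ : ℝ) (dg nf : ℕ) (E0 Ec : Set (D.L × ℝ)) (hK : 1 ≤ K) (hP : K6a1PkRaw Pk d k K E0)
    (hG : G.Ok dg K nf E0) (hsub : Ec ⊆ E0) (hΛ : 0 ≤ Λ)
    (hgr : ∀ x ∈ Ec, ∀ z ∈ G.dom (G.en x), |G.gt (G.en x) z| ≤ Λ ∧ ∀ a, |G.gy (G.en x) a z| ≤ Λ) :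
    K6a1Graphs Pk (max K ((j + 1) * Λ)) Ec := by
  classical
  intro q
  obtain ⟨Fq, hFq⟩ : ∃ Fq : Finset G.En, ∀ e, e ∈ Fq ↔ (G.pk e = q ∧ ∃ x ∈ Ec, G.en x = e) :=
    ⟨Finset.univ.filter (fun e => G.pk e = q ∧ ∃ x ∈ Ec, G.en x = e), fun e => by simp⟩
  have hcard : (Fq.card : ℝ) ≤ K := by
    obtain ⟨F', hF', hm'⟩ := hG.card q
    refine le_trans ?_ hF'
    have : Fq ⊆ F' := fun e he => hm' e ((hFq e).1 he).1
    exact_mod_cast Finset.card_le_card this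
  refine ⟨Fq.card, fun i => G.f (Fq.equivFin.symm i).1, fun i => G.dom (Fq.equivFin.symm i).1, hcard.trans (le_max_left _ _), fun i z hz z' hz' => ?_, ?_⟩
  · obtain ⟨-, x, hx, hen⟩ := (hFq _).1 (Fq.equivFin.symm i).2
    have h1 := k6a1_entry_lip G hK hG hΛ (Fq.equivFin.symm i).1 (by
      have := hgr x hx
      rw [hen] at this
      exact this) z z' hz hz'
    exact h1.trans (mul_le_mul_of_nonneg_right (le_max_right _ _) (norm_nonneg _))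
  · rintro x ⟨hx, hxq⟩
    obtain ⟨c1, c2, c3⟩ := hG.cov x (hsub hx)
    have hpk : G.pk (G.en x) = q := by
      by_contra hne
      have b1 : k6aBin Pk.lev x.2 = Pk.iv (G.pk (G.en x)) := c1.2
      have b0 : k6aBin Pk.lev x.2 = Pk.iv q := hxq.2
      exact Set.disjoint_left.1 (hP.disj _ _ hne (by rw [← b1, ← b0])) c1.1 hxq.1
    have hmem : G.en x ∈ Fq := (hFq _).2 ⟨hpk, x, hx, rfl⟩
    refine ⟨Fq.equivFin ⟨G.en x, hmem⟩, ?_, ?_⟩
    · simp only [Equiv.symm_apply_apply]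
      exact c2
    · simp only [Equiv.symm_apply_apply]
      exact c3.trans (mul_le_mul_of_nonneg_right (le_max_left _ _) hP.a_pos.le)

/-- **ONE NODE** (assembly of `k6a1_node_dir`, `_big`, `_ext`, `_graphs`).   `a / H ≤ K a^(1-k) ≤ K` (`H_lo`, `a ≤ 1`, `k ≤ 1`), `|X'| ≤ 3 K`, so `b = C (K/η)^C`;   `Λ = (b + 1 + j K)(1 + j K / w)`; budgets `η/2, εb, η/2`. -/
theorem k6a1_node (j dg : ℕ) (hj : 1 ≤ j) (k : ℝ) (hk : k ≤ 1) : ∃ C : ℕ, ∀ (D : K6aDat j) (Pk : K6aPk D) (G : K6a1En D Pk) (d K η w εb : ℝ) (nf : ℕ) (E0 : Set (D.L × ℝ)),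
    1 ≤ K → 0 < η → η ≤ 1 → 0 < w → w ≤ 1 → 0 ≤ εb → D.WF K → MeasurableSet E0 → E0 ⊆ Set.univ ×ˢ Set.Icc (0 : ℝ) 1 → Pk.a ≤ 1 →
    K6a1PkRaw Pk d k K E0 → G.Ok dg K nf E0 → K6aBrd D E0 (G.st nf) 1 w εb →
    ∃ E : Set (D.L × ℝ), MeasurableSet E ∧ E ⊆ E0 ∧ D.prior (E0 \ E) ≤ ENNReal.ofReal (η + εb) ∧ K6a1Graphs Pk (k6a1K C (K / (η * w))) E := by
  obtain ⟨C1, hC1⟩ := k6a1_node_dir j dg
  obtain ⟨C2, hC2⟩ := k6a1_node_ext j dg
  refine ⟨(1 + (j + 1) * (C2 * 2 ^ C2) * (C1 * 2 ^ C1 + 4 + j) * (1 + j)) + (C1 + C2 + 2), ?_⟩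
  intro D Pk G d K η w εb nf E0 hK hη hη1 hw hw1 hεb hD hE0 hE01 ha1 hP hG hbr
  have hK0 : 0 < K := by linarith
  have hH0 : 0 < Pk.H := k6a1_W_pos _
  have ha := hP.a_pos
  have hη2 : 0 < η / 2 := by positivity
  have hη21 : η / 2 ≤ 1 := by linarith
  have hj0 : (0 : ℝ) ≤ j := Nat.cast_nonneg j
  obtain ⟨X, hXdef⟩ : ∃ X, X = K / (η * w) := ⟨_, rfl⟩
  have hηw : 0 < η * w := by positivity
  have hηw1 : η * w ≤ 1 := by nlinarith
  have hX : 1 ≤ X := by rw [hXdef, le_div_iff₀ hηw]; linarith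
  have hX0 : 0 ≤ X := by linarith
  have hKX : K ≤ X := by rw [hXdef, le_div_iff₀ hηw]; nlinarith
  have hKη : K / (η / 2) ≤ 2 * X := by
    rw [hXdef, div_le_iff₀ hη2]
    have e : 2 * (K / (η * w)) * (η / 2) = K / w := by field_simp
    rw [e, le_div_iff₀ hw]
    nlinarith
  have hKη1 : 1 ≤ K / (η / 2) := by rw [le_div_iff₀ hη2]; linarith
  have hKw : K / w ≤ X := by
    rw [hXdef, div_le_div_iff₀ hw hηw]
    have : η * (K * w) ≤ 1 * (K * w) := mul_le_mul_of_nonneg_right hη1 (by positivity)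
    linarith
  have hslack : ∀ C : ℕ, k6a1K C (K / (η / 2)) ≤ ((C * 2 ^ C : ℕ) : ℝ) * X ^ C := fun C => by
    unfold k6a1K
    push_cast
    calc (C : ℝ) * (K / (η / 2)) ^ C ≤ (C : ℝ) * (2 * X) ^ C := mul_le_mul_of_nonneg_left (pow_le_pow_left₀ (by linarith) hKη C) (Nat.cast_nonneg _)
      _ = (C : ℝ) * 2 ^ C * X ^ C := by rw [mul_pow]; ring
  -- step 1
  obtain ⟨Ea, hEam, hEa0, hEal, hEad⟩ := hC1 D Pk G d k K (η / 2) nf E0 hK hη2 hη21 hD hE0 hE01 hP hG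
  have haH : Pk.a / Pk.H ≤ K := by
    rw [div_le_iff₀ hH0]
    have h1 : Pk.a ^ (1 : ℝ) ≤ Pk.a ^ k := Real.rpow_le_rpow_of_exponent_ge ha ha1 hk
    rw [Real.rpow_one] at h1
    exact h1.trans hP.H_lo
  obtain ⟨b, hb⟩ : ∃ b, b = k6a1K C1 (K / (η / 2)) * K + 3 * K := ⟨_, rfl⟩
  have hκ1 : 0 ≤ k6a1K C1 (K / (η / 2)) := k6a1_K_nonneg _ (by linarith)
  have hb0 : 0 ≤ b := by rw [hb]; positivity
  have hdir : ∀ x ∈ Ea, |G.dv (G.en x) (1, D.V x.1) (D.base x)| ≤ b := by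
    intro x hx
    have h1 := hEad x hx
    have h2 := k6a1_Xd_bd D hD x.1 x.2 (hE01 (hEa0 hx)).2
    have h3 : k6a1K C1 (K / (η / 2)) * Pk.a / Pk.H ≤ k6a1K C1 (K / (η / 2)) * K := by
      rw [mul_div_assoc]
      exact mul_le_mul_of_nonneg_left haH hκ1
    have h4 : G.dv (G.en x) (1, D.V x.1) (D.base x) = (G.dv (G.en x) (1, D.V x.1) (D.base x) - D.Xd x.1 x.2) + D.Xd x.1 x.2 := by ring
    rw [h4, hb]
    refine (abs_add_le _ _).trans ?_
    linarith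
  -- step 2
  obtain ⟨Λ, hΛ⟩ : ∃ Λ, Λ = (b + 1 + j * K) * (1 + j * K / w) := ⟨_, rfl⟩
  obtain ⟨hEbm, hEbl⟩ := k6a1_node_big j hj D Pk G K b w εb Λ dg nf E0 Ea hK hb0 hw hD hG hEam hEa0 hdir hbr hΛ.ge
  obtain ⟨Eb, hEb⟩ : ∃ Eb : Set (D.L × ℝ), Eb = {x | x ∈ Ea ∧ |G.gt (G.en x) (D.base x)| ≤ Λ ∧ ∀ a, |G.gy (G.en x) a (D.base x)| ≤ Λ} := ⟨_, rfl⟩
  rw [← hEb] at hEbm hEbl
  have hEba : Eb ⊆ Ea := by rw [hEb]; exact fun x hx => hx.1
  -- step 3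
  obtain ⟨Ec, hEcm, hEcb, hEcl, hEcg⟩ := hC2 D Pk G d k K (η / 2) Λ nf E0 Eb hK hη2 hη21 hD hE01 hP hG hEbm (hEba.trans hEa0)
    (fun x hx => by rw [hEb] at hx; exact hx.2)
  have hΛ0 : 0 ≤ Λ := by rw [hΛ]; positivity
  have hκ2 : 0 ≤ k6a1K C2 (K / (η / 2)) := k6a1_K_nonneg _ (by linarith)
  -- step 4
  have hgph := k6a1_node_graphs j D Pk G d k K (k6a1K C2 (K / (η / 2)) * Λ) dg nf E0 Ec hK hP hG ((hEcb.trans hEba).trans hEa0) (by positivity) hEcg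
  -- the constants
  have hconst : max K (((j : ℝ) + 1) * (k6a1K C2 (K / (η / 2)) * Λ))
      ≤ k6a1K ((1 + (j + 1) * (C2 * 2 ^ C2) * (C1 * 2 ^ C1 + 4 + j) * (1 + j)) + (C1 + C2 + 2)) X := by
    refine le_trans ?_ (k6a1_K_of_pow _ _ hX)
    have hs1 := hslack C1
    have hs2 := hslack C2
    generalize C1 * 2 ^ C1 = c1 at hs1 ⊢
    generalize C2 * 2 ^ C2 = c2 at hs2 ⊢
    have p1 : X ≤ X ^ (C1 + 1) := by
      calc X = X ^ 1 := (pow_one X).symm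
        _ ≤ X ^ (C1 + 1) := pow_le_pow_right₀ hX (by omega)
    have p0 : 1 ≤ X ^ (C1 + 1) := one_le_pow₀ hX
    have s2 : b + 1 + j * K ≤ ((c1 : ℝ) + 4 + j) * X ^ (C1 + 1) := by
      have h1 : k6a1K C1 (K / (η / 2)) * K ≤ (c1 : ℝ) * X ^ C1 * X := mul_le_mul hs1 hKX hK0.le (by positivity)
      have h2 : (c1 : ℝ) * X ^ C1 * X = (c1 : ℝ) * X ^ (C1 + 1) := by rw [pow_succ]; ring
      have h3 : (j : ℝ) * K ≤ j * X ^ (C1 + 1) := mul_le_mul_of_nonneg_left (hKX.trans p1) hj0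
      have h4 : 3 * K ≤ 3 * X ^ (C1 + 1) := by linarith [hKX.trans p1]
      have h5 : ((c1 : ℝ) + 4 + j) * X ^ (C1 + 1) = (c1 : ℝ) * X ^ (C1 + 1) + 3 * X ^ (C1 + 1) + X ^ (C1 + 1) + j * X ^ (C1 + 1) := by ring
      rw [hb, h5]
      linarith
    have s4 : 1 + j * K / w ≤ (1 + (j : ℝ)) * X := by
      have h1 : (j : ℝ) * K / w ≤ j * X := by
        rw [mul_div_assoc]
        exact mul_le_mul_of_nonneg_left hKw hj0
      have h2 : (1 + (j : ℝ)) * X = X + j * X := by ring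
      rw [h2]
      linarith
    have s5 : Λ ≤ ((c1 : ℝ) + 4 + j) * X ^ (C1 + 1) * ((1 + (j : ℝ)) * X) := by
      rw [hΛ]
      exact mul_le_mul s2 s4 (by positivity) (by positivity)
    have s7 : k6a1K C2 (K / (η / 2)) * Λ ≤ (c2 : ℝ) * X ^ C2 * (((c1 : ℝ) + 4 + j) * X ^ (C1 + 1) * ((1 + (j : ℝ)) * X)) :=
      mul_le_mul hs2 s5 hΛ0 (by positivity)
    have s8 : ((j : ℝ) + 1) * (k6a1K C2 (K / (η / 2)) * Λ) ≤ (((j : ℝ) + 1) * c2 * ((c1 : ℝ) + 4 + j) * (1 + j)) * X ^ (C1 + C2 + 2) := by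
      have h1 := mul_le_mul_of_nonneg_left s7 (by positivity : (0 : ℝ) ≤ (j : ℝ) + 1)
      refine h1.trans (le_of_eq ?_)
      ring
    have s9 : K ≤ X ^ (C1 + C2 + 2) := by
      calc K ≤ X := hKX
        _ = X ^ 1 := (pow_one X).symm
        _ ≤ X ^ (C1 + C2 + 2) := pow_le_pow_right₀ hX (by omega)
    have hp : 0 ≤ X ^ (C1 + C2 + 2) := by positivity
    have hq : 0 ≤ (((j : ℝ) + 1) * c2 * ((c1 : ℝ) + 4 + j) * (1 + j)) * X ^ (C1 + C2 + 2) := by positivity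
    have hcast : (((1 + (j + 1) * c2 * (c1 + 4 + j) * (1 + j) : ℕ) : ℝ)) * X ^ (C1 + C2 + 2)
        = X ^ (C1 + C2 + 2) + (((j : ℝ) + 1) * c2 * ((c1 : ℝ) + 4 + j) * (1 + j)) * X ^ (C1 + C2 + 2) := by
      push_cast
      ring
    rw [hcast]
    exact max_le (by linarith) (by linarith)
  rw [← hXdef]
  refine ⟨Ec, hEcm, (hEcb.trans hEba).trans hEa0, ?_, ?_⟩
  · have hsub : E0 \ Ec ⊆ (E0 \ Ea) ∪ (Ea \ Eb) ∪ (Eb \ Ec) := by
      intro x hx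
      by_cases h1 : x ∈ Ea
      · by_cases h2 : x ∈ Eb
        · exact Or.inr ⟨h2, hx.2⟩
        · exact Or.inl (Or.inr ⟨h1, h2⟩)
      · exact Or.inl (Or.inl ⟨hx.1, h1⟩)
    calc D.prior (E0 \ Ec) ≤ D.prior ((E0 \ Ea) ∪ (Ea \ Eb) ∪ (Eb \ Ec)) := measure_mono hsub
      _ ≤ D.prior (E0 \ Ea) + D.prior (Ea \ Eb) + D.prior (Eb \ Ec) := (measure_union_le _ _).trans (add_le_add_left (measure_union_le _ _) _)
      _ ≤ ENNReal.ofReal (η / 2) + ENNReal.ofReal εb + ENNReal.ofReal (η / 2) := add_le_add (add_le_add hEal hEbl) hEcl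
      _ = ENNReal.ofReal (η + εb) := by
          rw [← ENNReal.ofReal_add hη2.le hεb, ← ENNReal.ofReal_add (by positivity) hη2.le]
          congr 1
          ring
  · intro q
    obtain ⟨n, f, Dm, hn, hl, hc⟩ := hgph q
    refine ⟨n, f, Dm, hn.trans hconst, fun i z hz z' hz' => (hl i z hz z' hz').trans (mul_le_mul_of_nonneg_right hconst (norm_nonneg _)), fun e he => ?_⟩
    obtain ⟨i, h1, h2⟩ := hc e he
    exact ⟨i, h1, h2.trans (mul_le_mul_of_nonneg_right hconst ha.le)⟩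

/-- heredity and monotonicity -/
theorem k6a1_graphs_mono {D : K6aDat j} {Pk : K6aPk D} {K K' : ℝ} {E E' : Set (D.L × ℝ)} (h : K6a1Graphs Pk K E) (hE : E' ⊆ E) (hK : K ≤ K') (ha : 0 ≤ Pk.a) :
    K6a1Graphs Pk K' E' := by
  intro q
  obtain ⟨n, f, Dm, hn, hl, hc⟩ := h q
  refine ⟨n, f, Dm, hn.trans hK, fun i z hz z' hz' => (hl i z hz z' hz').trans (mul_le_mul_of_nonneg_right hK (norm_nonneg _)), fun e he => ?_⟩
  obtain ⟨i, h1, h2⟩ := hc e ⟨hE he.1, he.2⟩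
  exact ⟨i, h1, h2.trans (mul_le_mul_of_nonneg_right hK ha)⟩

theorem k6a1_pkraw_mono {D : K6aDat j} {Pk : K6aPk D} {d k K K' : ℝ} {E E' : Set (D.L × ℝ)} (h : K6a1PkRaw Pk d k K E) (hE : E' ⊆ E) (hK : K ≤ K') (hK0 : 0 ≤ K) :
    K6a1PkRaw Pk d k K' E' := by
  have hH0 : 0 < Pk.H := k6a1_W_pos _
  have ha := h.a_pos
  have hKK : ENNReal.ofReal K ≤ ENNReal.ofReal K' := ENNReal.ofReal_le_ofReal hK
  exact
    { a_pos := ha
      H_lo := h.H_lo.trans (mul_le_mul_of_nonneg_right hK hH0.le)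
      H_hi := h.H_hi.trans (mul_le_mul_of_nonneg_right hK (Real.rpow_nonneg ha.le _))
      asg_meas := h.asg_meas
      disj := h.disj
      ν_lo := fun q hq => (h.ν_lo q (hq.mono (Set.inter_subset_inter_left _ hE))).trans (mul_le_mul_left hKK _)
      ν_hi := fun q => (h.ν_hi q).trans (ENNReal.ofReal_le_ofReal (by
        have h1 : 0 ≤ Pk.a ^ d := Real.rpow_nonneg ha.le _
        have h2 : 0 ≤ Pk.H ^ j := by positivity
        exact mul_le_mul_of_nonneg_right (mul_le_mul_of_nonneg_right hK h1) h2))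
      cov := fun e he => h.cov e (hE he)
      box := fun q l hl t ht => (h.box q l hl t ht).trans (mul_le_mul_of_nonneg_right hK hH0.le)
      cen := fun q hq => (h.cen q hq).trans hK
      capQ := fun q U hU => by
        calc ENNReal.ofReal (Pk.H ^ j) * D.prior (E' ∩ Pk.inc q ∩ D.base ⁻¹' U)
            ≤ ENNReal.ofReal (Pk.H ^ j) * D.prior (E ∩ Pk.inc q ∩ D.base ⁻¹' U) :=
              mul_le_mul_right (measure_mono (Set.inter_subset_inter_left _ (Set.inter_subset_inter_left _ hE))) _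
          _ ≤ ENNReal.ofReal K * Pk.νQ q * volume U := h.capQ q U hU
          _ ≤ _ := mul_le_mul_left (mul_le_mul_left hKK _) _ }

theorem k6a1_pk_ok {D : K6aDat j} {Pk : K6aPk D} {d k K : ℝ} {E : Set (D.L × ℝ)} (h : K6a1PkRaw Pk d k K E) (hg : K6a1Graphs Pk K E)
    (hcov : ∀ e ∈ E, e ∈ Pk.inc (Pk.ofLab (D.lab e))) : Pk.Ok d k K E :=
  { a_pos := h.a_pos
    H_lo := h.H_lo
    H_hi := h.H_hi
    asg_meas := h.asg_meas
    disj := h.disj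
    ν_lo := h.ν_lo
    ν_hi := h.ν_hi
    cov := hcov
    box := h.box
    cen := h.cen
    capQ := h.capQ
    graphs := hg }

/-- **"the base bin can freeze the gradient to error one"** (06 l.165): a criterion for the clause `frz` of `K6a1En.Ok`.   Sides of the box `≥ 1/K`, prediction bounded by `K` on the box, chart coefficients `≤ K / H`, base mesh `W_nf ≤ H² / (C K^C)`.
PLAN: `gt e z = k6a1Dv .. (ct e) (u e z)` (`dir e (1, 0) = ct e`), `gy e a z = k6a1Dv .. (cy e a) (u e z)`.   `k6a1_frz_core (j+1) dg` with `kap = M = K`: `∑ |w_a| / side_a ≤ (j+1) K² / H`;   `u e z' - u e z = dir e (z' - z)` (`k6a1_u_sub`), every coordinate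
`≤ (j+1) (K / H) W_nf`, so `∑ |Δu_a| / side_a ≤ (j+1)² K² W_nf / H`.   Total `≤ k6a1K C₁ K * K * (j+1)³ K⁴ W_nf / H² ≤ 1`. -/
theorem k6a1_frz (j dg : ℕ) : ∃ C : ℕ, ∀ (D : K6aDat j) (Pk : K6aPk D) (G : K6a1En D Pk) (K : ℝ) (nf : ℕ) (e : G.En), 1 ≤ K → G.m e ≤ dg →
    ((G.al e).totalDegree ≤ dg ∧ (G.be e).totalDegree ≤ dg ∧ (G.Dc e).totalDegree ≤ dg) → (∀ a, G.lo e a < G.hi e a) → (∀ a, 1 ≤ K * (G.hi e a - G.lo e a)) →
    sh2Stable K (G.Dc e) (G.lo e) (G.hi e) → (∀ u ∈ Set.Icc (G.lo e) (G.hi e), |G.F e u| ≤ K) → 0 < Pk.H → (∀ a, |G.ct e a| ≤ K / Pk.H) → (∀ b a, |G.cy e b a| ≤ K / Pk.H) →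
    k6a1K C K * k6aW nf ≤ Pk.H ^ 2 →
    ∀ z ∈ G.dom e, ∀ z' ∈ G.dom e, ‖z - z'‖ ≤ k6aW nf → |G.gt e z - G.gt e z'| ≤ 1 ∧ ∀ a, |G.gy e a z - G.gy e a z'| ≤ 1 := by
  obtain ⟨C1, hC1⟩ := k6a1_frz_core (j + 1) dg
  refine ⟨C1 * ((j + 1) ^ 3 + 5) + C1 + ((j + 1) ^ 3 + 5), ?_⟩
  intro D Pk G K nf e hK hm hdeg hlt hside hst hF hH hct hcy hmesh z hz z' hz' hzz
  have hK0 : 0 < K := by linarith
  have hW0 : 0 < k6aW nf := k6a1_W_pos nf
  have hKH : 0 < K / Pk.H := by positivity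
  have hj0 : (0 : ℝ) ≤ j := Nat.cast_nonneg j
  have hs0 : ∀ a, 0 < G.hi e a - G.lo e a := fun a => sub_pos.2 (hlt a)
  -- a quantity `≤ B` divided by a side is `≤ B K`
  have hdiv : ∀ (a : Fin (j + 1)) (y B : ℝ), |y| ≤ B → |y| / (G.hi e a - G.lo e a) ≤ B * K := fun a y B hy => by
    rw [div_le_iff₀ (hs0 a)]
    have hB : 0 ≤ B := (abs_nonneg _).trans hy
    calc |y| ≤ B * 1 := by linarith
      _ ≤ B * (K * (G.hi e a - G.lo e a)) := mul_le_mul_of_nonneg_left (hside a) hB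
      _ = B * K * (G.hi e a - G.lo e a) := by ring
  have hΔ : ∀ a, |G.u e z a - G.u e z' a| ≤ ((j : ℝ) + 1) * (K / Pk.H) * k6aW nf := fun a => by
    have h1 := congrFun (k6a1_u_sub G e z' z) a
    simp only [k6a1_dir_t, k6a1_dir_y, Pi.sub_apply, Pi.add_apply, Pi.smul_apply, Finset.sum_apply, smul_eq_mul] at h1
    rw [h1]
    have h2 : |z.1 - z'.1| ≤ k6aW nf := (norm_fst_le (z - z')).trans hzz
    have h3 : ∀ b, |z.2 b - z'.2 b| ≤ k6aW nf := fun b => ((norm_le_pi_norm (z - z').2 b).trans (norm_snd_le (z - z'))).trans hzz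
    have h4 : |(z.1 - z'.1) * G.ct e a| ≤ k6aW nf * (K / Pk.H) := by
      rw [abs_mul]
      exact mul_le_mul h2 (hct a) (abs_nonneg _) hW0.le
    have h5 : |∑ b, (z.2 b - z'.2 b) * G.cy e b a| ≤ j * (k6aW nf * (K / Pk.H)) := by
      refine (Finset.abs_sum_le_sum_abs _ _).trans ?_
      calc ∑ b, |(z.2 b - z'.2 b) * G.cy e b a| ≤ ∑ _b : Fin j, k6aW nf * (K / Pk.H) := Finset.sum_le_sum fun b _ => by
            rw [abs_mul]
            exact mul_le_mul (h3 b) (hcy b a) (abs_nonneg _) hW0.le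
        _ = j * (k6aW nf * (K / Pk.H)) := by rw [Finset.sum_const, Finset.card_univ, Fintype.card_fin, nsmul_eq_mul]
    refine (abs_add_le _ _).trans ?_
    have e1 : ((j : ℝ) + 1) * (K / Pk.H) * k6aW nf = k6aW nf * (K / Pk.H) + j * (k6aW nf * (K / Pk.H)) := by ring
    rw [e1]
    linarith
  have hS2 : ∑ a, |G.u e z a - G.u e z' a| / (G.hi e a - G.lo e a) ≤ ((j : ℝ) + 1) * (((j : ℝ) + 1) * (K / Pk.H) * k6aW nf * K) := by
    calc ∑ a, |G.u e z a - G.u e z' a| / (G.hi e a - G.lo e a) ≤ ∑ _a : Fin (j + 1), ((j : ℝ) + 1) * (K / Pk.H) * k6aW nf * K :=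
          Finset.sum_le_sum fun a _ => hdiv a _ _ (hΔ a)
      _ = _ := by
          rw [Finset.sum_const, Finset.card_univ, Fintype.card_fin, nsmul_eq_mul]
          push_cast
          ring
  have hκ : 0 ≤ k6a1K C1 K := k6a1_K_nonneg _ hK0.le
  have hKK : k6a1K C1 K * (((j : ℝ) + 1) ^ 3 * K ^ 5) ≤ k6a1K (C1 * ((j + 1) ^ 3 + 5) + C1 + ((j + 1) ^ 3 + 5)) K := by
    have h1 := k6a1_K_of_pow ((j + 1) ^ 3) 5 hK
    push_cast at h1
    exact (mul_le_mul_of_nonneg_left h1 hκ).trans (k6a1_K_mul _ _ hK)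
  have hcore : ∀ w : Fin (j + 1) → ℝ, (∀ a, |w a| ≤ K / Pk.H) →
      |k6a1Dv (G.m e) (G.al e) (G.be e) (G.Dc e) w (G.u e z) - k6a1Dv (G.m e) (G.al e) (G.be e) (G.Dc e) w (G.u e z')| ≤ 1 := by
    intro w hw
    have h1 := hC1 (G.m e) (G.al e) (G.be e) (G.Dc e) (G.lo e) (G.hi e) w K K hm hdeg.1 hdeg.2.1 hdeg.2.2 hK hlt hst hF (G.u e z') hz' (G.u e z) hz
    have hS1 : ∑ a, |w a| / (G.hi e a - G.lo e a) ≤ ((j : ℝ) + 1) * (K / Pk.H * K) := by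
      calc ∑ a, |w a| / (G.hi e a - G.lo e a) ≤ ∑ _a : Fin (j + 1), K / Pk.H * K := Finset.sum_le_sum fun a _ => hdiv a _ _ (hw a)
        _ = _ := by
            rw [Finset.sum_const, Finset.card_univ, Fintype.card_fin, nsmul_eq_mul]
            push_cast
            ring
    have hS10 : 0 ≤ ∑ a, |w a| / (G.hi e a - G.lo e a) := Finset.sum_nonneg fun a _ => div_nonneg (abs_nonneg _) (hs0 a).le
    have hS20 : 0 ≤ ∑ a, |G.u e z a - G.u e z' a| / (G.hi e a - G.lo e a) := Finset.sum_nonneg fun a _ => div_nonneg (abs_nonneg _) (hs0 a).le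
    refine h1.trans ?_
    calc k6a1K C1 K * K * (∑ a, |w a| / (G.hi e a - G.lo e a)) * ∑ a, |G.u e z a - G.u e z' a| / (G.hi e a - G.lo e a)
        ≤ k6a1K C1 K * K * (((j : ℝ) + 1) * (K / Pk.H * K)) * (((j : ℝ) + 1) * (((j : ℝ) + 1) * (K / Pk.H) * k6aW nf * K)) :=
          mul_le_mul (mul_le_mul_of_nonneg_left hS1 (by positivity)) hS2 hS20 (by positivity)
      _ = k6a1K C1 K * (((j : ℝ) + 1) ^ 3 * K ^ 5) * k6aW nf / Pk.H ^ 2 := by
          field_simp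
      _ ≤ 1 := by
          rw [div_le_one (by positivity)]
          exact (mul_le_mul_of_nonneg_right hKK hW0.le).trans hmesh
  refine ⟨?_, fun a => ?_⟩
  · unfold K6a1En.gt K6a1En.dv
    rw [k6a1_dir_t]
    exact hcore _ hct
  · unfold K6a1En.gy K6a1En.dv
    rw [k6a1_dir_y]
    exact hcore _ (hcy a)

end

end Claimed.Agent.R252
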