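import Claimed.Agent.R252.S6a.Phys.Cap
import Claimed.Agent.R252.S6a.Phys.Node

/-!
# ROW 252, unit S6a1, file 6: PHYSICAL COUNTS (6.2) AND HEREDITARY SUPPORT (6.5) (06 l.176-192).   CONTRACT      (sub-architect helper11; prefix `k6a1_`)

PAPER-FREE (language of `S6a/Layers.lean` + `Phys/Defs.lean`).   Black boxes: `Phys/Tools.lean`, `Phys/Cap.lean` (usable while sorried).
Statements are frozen (defects: message to helper11).   Provers replace the `sorry`s IN PLACE, helper lemmas directly above.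
LEAVES: L-252-P1-S1 (`k6a1_pk_count`), S2 (`k6a1_pk_cells`), S3 (`k6a1_count`), S4 (`k6a1_support`).
-/

set_option autoImplicit false

namespace Claimed.Agent.R252

open MeasureTheory
open scoped ENNReal BigOperators

noncomputable section

variable {j : ℕ}

theorem k6a1_cnt_congr {Ω S : Type} {A : Set Ω} {s s' : Ω → S} {n : ℝ} (h : k6a1Cnt A s n) (he : ∀ e ∈ A, s' e = s e) : k6a1Cnt A s' n := by
  obtain ⟨F, hF, hm⟩ := h
  exact ⟨F, hF, fun e h => by rw [he e h]; exact hm e h⟩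

theorem k6a1_cnt_empty {Ω S : Type} {A : Set Ω} (s : Ω → S) {n : ℝ} (hA : A = ∅) (hn : 0 ≤ n) : k6a1Cnt A s n :=
  ⟨∅, by simpa using hn, fun e he => by rw [hA] at he; exact he.elim⟩

/-- **the number of participating packets** `≤ (2/H) K / (a^d H^j)`.
PLAN: a participating packet has its block index `iv q ∈ [0, 2^lev]` (`E ⊆ univ × [0,1]`, `k6a1_bin_unit`).   For a fixed index the assignments are disjoint (`disj`), measurable, each of mass `≥ a^d H^j / K` (`ν_lo`), `ν` is a probability: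
`≤ K / (a^d H^j)` packets (`k6a1_cnt_pay` for `μ = ν`, or directly `Finset.sum_le..` + `measure_biUnion_finset`).   `k6a1_cnt_fib` over the `≤ 2^lev + 1 ≤ 2 / H` indices. -/
theorem k6a1_pk_count (D : K6aDat j) (Pk : K6aPk D) (d k K : ℝ) (E : Set (D.L × ℝ)) (hK : 1 ≤ K) (hD : D.WF K) (hE : E ⊆ Set.univ ×ˢ Set.Icc (0 : ℝ) 1)
    (hP : K6a1PkRaw Pk d k K E) : k6a1Cnt {q : Pk.Q | (E ∩ Pk.inc q).Nonempty} id (2 * K / (Pk.a ^ d * Pk.H ^ (j + 1))) := by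
  classical
  have := hD.prob
  have ha := hP.a_pos
  have hH : 0 < Pk.H := k6a1_W_pos _
  have hH1 : Pk.H ≤ 1 := k6a1_W_le_one _
  have hK0 : 0 < K := by linarith
  have had : 0 < Pk.a ^ d := Real.rpow_pos_of_pos ha d
  set c : ℝ := Pk.a ^ d * Pk.H ^ j with hc
  have hc0 : 0 < c := by positivity
  have h1 : k6a1Cnt {q : Pk.Q | (E ∩ Pk.inc q).Nonempty} Pk.iv (2 ^ Pk.lev + 1) := by
    obtain ⟨F, hF, hm⟩ := k6a1_bin_unit Pk.lev
    refine ⟨F, hF, ?_⟩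
    rintro q ⟨⟨l, t⟩, he, hq⟩
    have ht : t ∈ Set.Icc (0 : ℝ) 1 := (hE he).2
    have hb : k6aBin Pk.lev t = Pk.iv q := hq.2
    rw [← hb]
    exact hm t ht
  have h2 : ∀ s0, k6a1Cnt ({q : Pk.Q | (E ∩ Pk.inc q).Nonempty} ∩ Pk.iv ⁻¹' {s0}) id (K / c) := by
    intro s0
    refine ⟨Finset.univ.filter (fun q => (E ∩ Pk.inc q).Nonempty ∧ Pk.iv q = s0), ?_, ?_⟩
    · set F' := Finset.univ.filter (fun q => (E ∩ Pk.inc q).Nonempty ∧ Pk.iv q = s0)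
      have hsum : ∑ q ∈ F', D.ν (Pk.asg q) ≤ 1 := by
        rw [← measure_biUnion_finset]
        · exact prob_le_one
        · intro q hq q' hq' hne
          exact hP.disj q q' hne (by rw [(Finset.mem_filter.mp hq).2.2, (Finset.mem_filter.mp hq').2.2])
        · intro q _
          exact hP.asg_meas q
      have hlo : ∀ q ∈ F', ENNReal.ofReal (c / K) ≤ D.ν (Pk.asg q) := by
        intro q hq
        have := hP.ν_lo q (Finset.mem_filter.mp hq).2.1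
        rw [ENNReal.ofReal_div_of_pos hK0]
        apply ENNReal.div_le_of_le_mul'
        exact this
      have h3 : (F'.card : ℝ≥0∞) * ENNReal.ofReal (c / K) ≤ 1 := by
        calc (F'.card : ℝ≥0∞) * ENNReal.ofReal (c / K) = ∑ _q ∈ F', ENNReal.ofReal (c / K) := by
              rw [Finset.sum_const, nsmul_eq_mul]
          _ ≤ ∑ q ∈ F', D.ν (Pk.asg q) := Finset.sum_le_sum hlo
          _ ≤ 1 := hsum
      have h4 : ENNReal.ofReal ((F'.card : ℝ) * (c / K)) ≤ ENNReal.ofReal 1 := by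
        rw [ENNReal.ofReal_mul (Nat.cast_nonneg _), ENNReal.ofReal_natCast, ENNReal.ofReal_one]
        exact h3
      have h5 := (ENNReal.ofReal_le_ofReal_iff zero_le_one).mp h4
      rw [le_div_iff₀ hc0]
      have h6 : (F'.card : ℝ) * (c / K) * K ≤ 1 * K := mul_le_mul_of_nonneg_right h5 hK0.le
      have h7 : (F'.card : ℝ) * (c / K) * K = (F'.card : ℝ) * c := by field_simp
      linarith
    · rintro q ⟨hq, hs⟩
      exact Finset.mem_filter.mpr ⟨Finset.mem_univ _, hq, hs⟩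
  have h3 := k6a1_cnt_fib h1 (by positivity) h2
  refine k6a1_cnt_mono h3 subset_rfl ?_
  have hHm : Pk.H * 2 ^ Pk.lev = 1 := k6a1_W_mul _
  have hinv : (2 : ℝ) ^ Pk.lev = 1 / Pk.H := by
    field_simp
    linarith
  rw [hinv]
  have e : 2 * K / (Pk.a ^ d * Pk.H ^ (j + 1)) = (2 / Pk.H) * (K / c) := by
    rw [hc, pow_succ]
    field_simp
  rw [e]
  apply mul_le_mul_of_nonneg_right _ (by positivity)
  have : 1 ≤ 1 / Pk.H := by
    rw [le_div_iff₀ hH]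
    linarith
  have e2 : 2 / Pk.H = 1 / Pk.H + 1 / Pk.H := by ring
  linarith

/-- **a packet uses `≤ K (1 + H/p)^(j+1)` physical cells** of a width `p = W_i ≥ a`.
PLAN: on `E ∩ inc q`: the time lies in the block (an interval of length `H`): `≤ H 2^i + 2` time bins (`k6a1_bin_range`, radius `H / 2`);   `‖y - (yc0 + t₀ yc1)‖ ≤ K H + K H` (`box`, `cen`: the assignment is not empty if `E ∩ inc q` is not; `t₀` = left end of the block):
`≤ (4 K H 2^i + 2)^j` bins of `y` (`k6a1_vbin_range`).   Choose for every incidence an index of `K6a1Graphs` (`≤ K` values).   For a fixed base cell and a fixed index, two incidences have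
`|X - X'| ≤ 2 K a + K ‖z - z'‖ ≤ 3 K W_i` (`k6a1_bin_diam`, `k6a1_vbin_diam`, sup norm of the product): `≤ 6 K + 2` bins of `X`.   `k6a1_cnt_pair`, `k6a1_cnt_fib`, `k6a1_cnt_comp`. -/
theorem k6a1_pk_cells (j : ℕ) : ∃ C : ℕ, ∀ (D : K6aDat j) (Pk : K6aPk D) (d k K : ℝ) (E : Set (D.L × ℝ)) (i : ℕ) (q : Pk.Q), 1 ≤ K → D.WF K →
    K6a1PkRaw Pk d k K E → K6a1Graphs Pk K E → Pk.a ≤ k6aW i → k6a1Cnt (E ∩ Pk.inc q) (D.wc i) (k6a1K C K * (Pk.H * 2 ^ i + 1) ^ (j + 1)) := by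
  refine ⟨16 * 4 ^ j + (j + 2), ?_⟩
  intro D Pk d k K E i q hK hD hP hG hai
  classical
  have hK0 : 0 < K := by linarith
  have hH : 0 < Pk.H := k6a1_W_pos _
  have hHdef : Pk.H = k6aW Pk.lev := rfl
  have hW : 0 < k6aW i := k6a1_W_pos i
  have hp : (0 : ℝ) < 2 ^ i := by positivity
  have hWm : k6aW i * 2 ^ i = 1 := k6a1_W_mul i
  set A := E ∩ Pk.inc q with hA
  set u : ℝ := Pk.H * 2 ^ i + 1 with hu
  have hHp : 0 ≤ Pk.H * 2 ^ i := by positivity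
  have hu1 : 1 ≤ u := by linarith
  have hS0 : 0 ≤ k6a1K (16 * 4 ^ j + (j + 2)) K := k6a1_K_nonneg _ hK0.le
  by_cases hne : A.Nonempty
  swap
  · exact k6a1_cnt_empty _ (Set.not_nonempty_iff_eq_empty.mp hne) (by positivity)
  obtain ⟨e₁, he₁⟩ := hne
  have hasg : (Pk.asg q).Nonempty := ⟨e₁.1, he₁.2.1⟩
  have hcen := hP.cen q hasg
  -- time bins
  have hT : k6a1Cnt A (fun e => k6aBin i e.2) (2 * u) := by
    have h1 := k6a1_bin_range i (((Pk.iv q : ℝ) + 1 / 2) * Pk.H) (Pk.H / 2) (by positivity)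
    have h2 := k6a1_cnt_pre h1 (fun e : D.L × ℝ => e.2)
    refine k6a1_cnt_mono h2 ?_ ?_
    · intro e he
      have hb : k6aBin Pk.lev e.2 = Pk.iv q := he.2.2
      obtain ⟨b1, b2⟩ := (k6a1_bin_iff _ _ _).mp hb
      rw [← hHdef] at b1 b2
      show |e.2 - ((Pk.iv q : ℝ) + 1 / 2) * Pk.H| ≤ Pk.H / 2
      rw [abs_le]
      constructor <;> nlinarith
    · rw [hu]
      nlinarith
  -- bins of y
  have hY : k6a1Cnt A (fun e => k6aVBin i (D.y e.1 e.2)) ((4 * K * u) ^ j) := by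
    have h1 := k6a1_vbin_range i (Pk.yc0 q + ((Pk.iv q : ℝ) * Pk.H) • Pk.yc1 q) (2 * K * Pk.H) (by positivity)
    have h2 := k6a1_cnt_pre h1 (fun e : D.L × ℝ => D.y e.1 e.2)
    refine k6a1_cnt_mono h2 ?_ ?_
    · intro e he
      show ‖D.y e.1 e.2 - (Pk.yc0 q + ((Pk.iv q : ℝ) * Pk.H) • Pk.yc1 q)‖ ≤ 2 * K * Pk.H
      have hb : k6aBin Pk.lev e.2 = Pk.iv q := he.2.2
      obtain ⟨b1, b2⟩ := (k6a1_bin_iff _ _ _).mp hb
      rw [← hHdef] at b1 b2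
      have hbox := hP.box q e.1 he.2.1 e.2 he.2.2
      have e1 : D.y e.1 e.2 - (Pk.yc0 q + ((Pk.iv q : ℝ) * Pk.H) • Pk.yc1 q)
          = (D.y e.1 e.2 - (Pk.yc0 q + e.2 • Pk.yc1 q)) + (e.2 - (Pk.iv q : ℝ) * Pk.H) • Pk.yc1 q := by
        rw [sub_smul]
        abel
      rw [e1]
      refine (norm_add_le _ _).trans ?_
      rw [norm_smul, Real.norm_eq_abs]
      have h3 : |e.2 - (Pk.iv q : ℝ) * Pk.H| ≤ Pk.H := by
        rw [abs_le]
        constructor <;> nlinarith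
      have h4 : |e.2 - (Pk.iv q : ℝ) * Pk.H| * ‖Pk.yc1 q‖ ≤ Pk.H * K := mul_le_mul h3 hcen (norm_nonneg _) hH.le
      linarith
    · apply pow_le_pow_left₀ (by positivity)
      rw [hu]
      nlinarith
  -- the index of the graph
  obtain ⟨n, f, Dm, hn, hlip, hcov⟩ := hG q
  let idx : D.L × ℝ → ℕ := fun e => if h : e ∈ A then ((hcov e h).choose : ℕ) else 0
  have hidx_eq : ∀ e (h : e ∈ A), idx e = ((hcov e h).choose : ℕ) := by
    intro e h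
    simp only [idx, dif_pos h]
  have hidx : k6a1Cnt A idx K := by
    refine ⟨Finset.range n, by simpa using hn, fun e he => ?_⟩
    rw [hidx_eq e he, Finset.mem_range]
    exact (hcov e he).choose.2
  -- bins of X in a base cell, for a fixed index
  have hX : ∀ s0 : (K6aZc j × ℕ), k6a1Cnt (A ∩ (fun e => (D.zc i e, idx e)) ⁻¹' {s0}) (D.wc i) (8 * K) := by
    rintro ⟨c, m⟩
    by_cases hne : (A ∩ (fun e => (D.zc i e, idx e)) ⁻¹' {(c, m)}).Nonempty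
    swap
    · exact k6a1_cnt_empty _ (Set.not_nonempty_iff_eq_empty.mp hne) (by positivity)
    obtain ⟨e₀, he₀, hs₀⟩ := hne
    have hb := k6a1_bin_range i (D.X e₀.1 e₀.2) (3 * K * k6aW i) (by positivity)
    have h2 := k6a1_cnt_pre hb (fun e : D.L × ℝ => D.X e.1 e.2)
    have h3 := k6a1_cnt_comp h2 (fun b : ℤ => ((c, b) : K6aWc j))
    have h4 : k6a1Cnt (A ∩ (fun e => (D.zc i e, idx e)) ⁻¹' {(c, m)}) (fun e => ((c, k6aBin i (D.X e.1 e.2)) : K6aWc j)) (8 * K) := by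
      refine k6a1_cnt_mono h3 ?_ ?_
      · rintro e ⟨he, hs⟩
        show |D.X e.1 e.2 - D.X e₀.1 e₀.2| ≤ 3 * K * k6aW i
        have hz : D.zc i e = D.zc i e₀ := (congrArg Prod.fst hs).trans (congrArg Prod.fst hs₀).symm
        have hi : idx e = idx e₀ := (congrArg Prod.snd hs).trans (congrArg Prod.snd hs₀).symm
        rw [hidx_eq e he, hidx_eq e₀ he₀] at hi
        have hι : (hcov e he).choose = (hcov e₀ he₀).choose := Fin.ext hi
        obtain ⟨d1, d2⟩ := (hcov e he).choose_spec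
        obtain ⟨d1', d2'⟩ := (hcov e₀ he₀).choose_spec
        rw [← hι] at d1' d2'
        have hl := hlip _ _ d1 _ d1'
        have hzt : k6aBin i e.2 = k6aBin i e₀.2 := congrArg Prod.fst hz
        have hzy : k6aVBin i (D.y e.1 e.2) = k6aVBin i (D.y e₀.1 e₀.2) := congrArg Prod.snd hz
        have hnorm : ‖D.base e - D.base e₀‖ ≤ k6aW i := by
          rw [Prod.norm_def]
          apply max_le
          · show ‖e.2 - e₀.2‖ ≤ _
            rw [Real.norm_eq_abs]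
            exact k6a1_bin_diam i hzt
          · exact k6a1_vbin_diam i hzy
        have hl2 : K * ‖D.base e - D.base e₀‖ ≤ K * k6aW i := mul_le_mul_of_nonneg_left hnorm hK0.le
        have hKa : K * Pk.a ≤ K * k6aW i := mul_le_mul_of_nonneg_left hai hK0.le
        rw [abs_le] at d2 d2' hl ⊢
        constructor <;> linarith [d2.1, d2.2, d2'.1, d2'.2, hl.1, hl.2]
      · nlinarith
    refine k6a1_cnt_congr h4 ?_
    rintro e ⟨he, hs⟩
    have hz : D.zc i e = c := congrArg Prod.fst hs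
    show (D.zc i e, k6aBin i (D.X e.1 e.2)) = (c, _)
    rw [hz]
  have hZ : k6a1Cnt A (fun e => (D.zc i e, idx e)) (2 * u * (4 * K * u) ^ j * K) :=
    k6a1_cnt_pair (k6a1_cnt_pair hT hY (by positivity)) hidx hK0.le
  have hfin := k6a1_cnt_fib hZ (by positivity) hX
  refine k6a1_cnt_mono hfin subset_rfl ?_
  have e : 2 * u * (4 * K * u) ^ j * K * (8 * K) = (((16 * 4 ^ j : ℕ) : ℝ) * K ^ (j + 2)) * u ^ (j + 1) := by
    push_cast
    rw [mul_pow, mul_pow]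
    ring
  rw [e]
  exact mul_le_mul_of_nonneg_right (k6a1_K_of_pow _ _ hK) (by positivity)

/-- **(6.2) physical counts**: a node of thickness `a ≤ W_i ≤ K a` shows that the family meets `≤ K W_i^(-(j+1+d))` physical cells of the level `i`.
PLAN: `k6a1_cnt_fib` with the label `e ↦` a packet of `e` (`cov`, choice), `k6a1_pk_count`, `k6a1_pk_cells`.   Arithmetic: `1 / H ≤ K / a^k ≤ K / a ≤ K² 2^i` (`H_lo`, `a ≤ 1`, `k ≤ 1`), so `(H 2^i + 1)^(j+1) / H^(j+1) = (2^i + 1/H)^(j+1) ≤ (2 K²)^(j+1) (2^i)^(j+1)`;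
`1 / a^d ≤ (K 2^i)^d ≤ K (2^i)^d` (`0 ≤ d ≤ 1`);   `(2^i)^(j+1) (2^i)^d = (2^i)^(j+1+d)` (`Real.rpow_add`, `Real.rpow_natCast`). -/
theorem k6a1_count (j : ℕ) (d k : ℝ) (hd : 0 ≤ d) (hd1 : d ≤ 1) (hk : k ≤ 1) : ∃ C : ℕ, ∀ (D : K6aDat j) (Pk : K6aPk D) (K : ℝ) (E : Set (D.L × ℝ)) (i : ℕ), 1 ≤ K → D.WF K →
    E ⊆ Set.univ ×ˢ Set.Icc (0 : ℝ) 1 → K6a1PkRaw Pk d k K E → K6a1Graphs Pk K E → Pk.a ≤ 1 → Pk.a ≤ k6aW i → k6aW i ≤ K * Pk.a →
    k6a1Cnt E (D.wc i) (k6a1K C K * ((2 : ℝ) ^ i) ^ ((j : ℝ) + 1 + d)) := by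
  obtain ⟨C₂, hC₂⟩ := k6a1_pk_cells j
  refine ⟨(2 ^ (j + 2) + (2 * j + 4)) * C₂ + (2 ^ (j + 2) + (2 * j + 4)) + C₂, ?_⟩
  intro D Pk K E i hK hD hE hP hG ha1 hai hia
  classical
  have hK0 : 0 < K := by linarith
  have ha := hP.a_pos
  have hH : 0 < Pk.H := k6a1_W_pos _
  have hp : (0 : ℝ) < 2 ^ i := by positivity
  have hWm : k6aW i * 2 ^ i = 1 := k6a1_W_mul i
  have had : 0 < Pk.a ^ d := Real.rpow_pos_of_pos ha d
  have hS0 : 0 ≤ k6a1K C₂ K := k6a1_K_nonneg _ hK0.le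
  have hpd : 0 < ((2 : ℝ) ^ i) ^ d := Real.rpow_pos_of_pos hp d
  by_cases hne : E.Nonempty
  swap
  · refine k6a1_cnt_empty _ (Set.not_nonempty_iff_eq_empty.mp hne) ?_
    exact mul_nonneg (k6a1_K_nonneg _ hK0.le) (Real.rpow_nonneg hp.le _)
  obtain ⟨e₁, he₁⟩ := hne
  obtain ⟨q₁, _⟩ := hP.cov e₁ he₁
  let pkt : D.L × ℝ → Pk.Q := fun e => if h : e ∈ E then (hP.cov e h).choose else q₁
  have hpkt : ∀ e ∈ E, e ∈ Pk.inc (pkt e) := by
    intro e he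
    simp only [pkt, dif_pos he]
    exact (hP.cov e he).choose_spec
  have h1 : k6a1Cnt E pkt (2 * K / (Pk.a ^ d * Pk.H ^ (j + 1))) := by
    obtain ⟨F, hF, hm⟩ := k6a1_pk_count D Pk d k K E hK hD hE hP
    exact ⟨F, hF, fun e he => hm (pkt e) ⟨e, he, hpkt e he⟩⟩
  have h2 : ∀ q, k6a1Cnt (E ∩ pkt ⁻¹' {q}) (D.wc i) (k6a1K C₂ K * (Pk.H * 2 ^ i + 1) ^ (j + 1)) := by
    intro q
    refine k6a1_cnt_mono (hC₂ D Pk d k K E i q hK hD hP hG hai) ?_ le_rfl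
    rintro e ⟨he, hq⟩
    exact ⟨he, by rw [← (show pkt e = q from hq)]; exact hpkt e he⟩
  have h3 := k6a1_cnt_fib h1 (by positivity) h2
  refine k6a1_cnt_mono h3 subset_rfl ?_
  -- arithmetic
  have hak : Pk.a ≤ Pk.a ^ k := by
    have := Real.rpow_le_rpow_of_exponent_ge ha ha1 hk
    rwa [Real.rpow_one] at this
  have haH : Pk.a ≤ K * Pk.H := hak.trans hP.H_lo
  have h1aP : 1 ≤ K * Pk.a * 2 ^ i := by
    calc (1 : ℝ) = k6aW i * 2 ^ i := hWm.symm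
      _ ≤ K * Pk.a * 2 ^ i := mul_le_mul_of_nonneg_right hia hp.le
  have hKK : 1 ≤ K ^ 2 := by nlinarith
  have hu : Pk.H * 2 ^ i + 1 ≤ 2 * K ^ 2 * 2 ^ i * Pk.H := by
    have g1 : K * Pk.a * 2 ^ i ≤ K * (K * Pk.H) * 2 ^ i := by gcongr
    have g2 : Pk.H * 2 ^ i ≤ K ^ 2 * (Pk.H * 2 ^ i) := by
      have : 0 ≤ Pk.H * 2 ^ i := by positivity
      nlinarith
    nlinarith
  have hu' : (Pk.H * 2 ^ i + 1) ^ (j + 1) ≤ (2 * K ^ 2 * 2 ^ i * Pk.H) ^ (j + 1) :=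
    pow_le_pow_left₀ (by positivity) hu _
  have hd1' : 1 ≤ Pk.a ^ d * (K * ((2 : ℝ) ^ i) ^ d) := by
    have g1 : (1 : ℝ) ≤ (K * Pk.a * 2 ^ i) ^ d := Real.one_le_rpow h1aP hd
    have g2 : (K * Pk.a * 2 ^ i) ^ d = K ^ d * Pk.a ^ d * ((2 : ℝ) ^ i) ^ d := by
      rw [Real.mul_rpow (by positivity) hp.le, Real.mul_rpow hK0.le ha.le]
    have g3 : K ^ d ≤ K := by
      have := Real.rpow_le_rpow_of_exponent_le hK hd1
      rwa [Real.rpow_one] at this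
    have g4 : K ^ d * Pk.a ^ d * ((2 : ℝ) ^ i) ^ d ≤ K * Pk.a ^ d * ((2 : ℝ) ^ i) ^ d := by gcongr
    calc (1 : ℝ) ≤ K * Pk.a ^ d * ((2 : ℝ) ^ i) ^ d := by linarith
      _ = Pk.a ^ d * (K * ((2 : ℝ) ^ i) ^ d) := by ring
  have hinv : 1 / Pk.a ^ d ≤ K * ((2 : ℝ) ^ i) ^ d := by
    rw [div_le_iff₀ had]
    linarith
  have hpow : ((2 : ℝ) ^ i) ^ ((j : ℝ) + 1 + d) = ((2 : ℝ) ^ i) ^ (j + 1) * ((2 : ℝ) ^ i) ^ d := by
    rw [Real.rpow_add hp]
    congr 1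
    have e0 : ((j : ℝ) + 1) = ((j + 1 : ℕ) : ℝ) := by
      push_cast
      rfl
    rw [e0, Real.rpow_natCast]
  have hslack : (((2 ^ (j + 2) : ℕ) : ℝ) * K ^ (2 * j + 4)) * k6a1K C₂ K
      ≤ k6a1K ((2 ^ (j + 2) + (2 * j + 4)) * C₂ + (2 ^ (j + 2) + (2 * j + 4)) + C₂) K :=
    (mul_le_mul_of_nonneg_right (k6a1_K_of_pow _ _ hK) hS0).trans (k6a1_K_mul _ _ hK)
  calc 2 * K / (Pk.a ^ d * Pk.H ^ (j + 1)) * (k6a1K C₂ K * (Pk.H * 2 ^ i + 1) ^ (j + 1))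
      ≤ 2 * K / (Pk.a ^ d * Pk.H ^ (j + 1)) * (k6a1K C₂ K * (2 * K ^ 2 * 2 ^ i * Pk.H) ^ (j + 1)) := by gcongr
    _ = 2 * K * k6a1K C₂ K * (2 * K ^ 2 * 2 ^ i) ^ (j + 1) * (1 / Pk.a ^ d) := by
        rw [mul_pow _ Pk.H]
        field_simp
    _ ≤ 2 * K * k6a1K C₂ K * (2 * K ^ 2 * 2 ^ i) ^ (j + 1) * (K * ((2 : ℝ) ^ i) ^ d) := by gcongr
    _ = (((2 ^ (j + 2) : ℕ) : ℝ) * K ^ (2 * j + 4)) * k6a1K C₂ K * (((2 : ℝ) ^ i) ^ (j + 1) * ((2 : ℝ) ^ i) ^ d) := by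
        push_cast
        rw [mul_pow, mul_pow, ← pow_mul]
        ring
    _ ≤ k6a1K ((2 ^ (j + 2) + (2 * j + 4)) * C₂ + (2 ^ (j + 2) + (2 * j + 4)) + C₂) K * ((2 : ℝ) ^ i) ^ ((j : ℝ) + 1 + d) := by
        rw [hpow]
        exact mul_le_mul_of_nonneg_right hslack (by positivity)

/-- the threshold of the level `i` -/
def k6a1SupTh (j : ℕ) (d K η : ℝ) (n0 i : ℕ) : ℝ := η * k6aW i ^ ((j : ℝ) + 1 + d) / (((n0 : ℝ) + 1) * K)

theorem k6a1_sup_eqns_cite : True := by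
  have := @k6a1SupTh.eq_1
  trivial

theorem k6a1_sup_th_pos (j : ℕ) (d K η : ℝ) (n0 i : ℕ) (hK : 1 ≤ K) (hη : 0 < η) : 0 < k6a1SupTh j d K η n0 i := by
  unfold k6a1SupTh
  have := k6a1_W_pos i
  positivity

theorem k6a1_sup_Wpow (i : ℕ) (s : ℝ) : k6aW i ^ s * ((2 : ℝ) ^ i) ^ s = 1 := by
  rw [← Real.mul_rpow (k6a1_W_pos i).le (by positivity), k6a1_W_mul, Real.one_rpow]

/-- the family -/
def k6a1SupE (D : K6aDat j) (d K η : ℝ) (n0 : ℕ) (E : Set (D.L × ℝ)) : Set (D.L × ℝ) :=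
  E ∩ ⋂ i ∈ Finset.range (n0 + 1), k6a1Hv D.prior (D.wc i) E (fun _ => ENNReal.ofReal (k6a1SupTh j d K η n0 i))

theorem k6a1_sup_eqns_cite' : True := by
  have := @k6a1SupE.eq_1
  trivial

theorem k6a1_sup_mem {D : K6aDat j} {d K η : ℝ} {n0 : ℕ} {E : Set (D.L × ℝ)} {e : D.L × ℝ} (he : e ∈ k6a1SupE D d K η n0 E) {i : ℕ} (hi : i ≤ n0) :
    ENNReal.ofReal (k6a1SupTh j d K η n0 i) ≤ D.prior (E ∩ D.wc i ⁻¹' {D.wc i e}) := by
  have h := he.2
  rw [Set.mem_iInter₂] at h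
  exact (h i (Finset.mem_range.2 (Nat.lt_succ_of_le hi))).2

theorem k6a1_sup_loss (D : K6aDat j) (d K η : ℝ) (n0 : ℕ) (E : Set (D.L × ℝ)) (hK : 1 ≤ K) (hη : 0 < η) (hD : D.WF K) (hE : MeasurableSet E)
    (hcnt : ∀ i ≤ n0, k6a1Cnt E (D.wc i) (K * ((2 : ℝ) ^ i) ^ ((j : ℝ) + 1 + d))) :
    MeasurableSet (k6a1SupE D d K η n0 E) ∧ D.prior (E \ k6a1SupE D d K η n0 E) ≤ ENNReal.ofReal η := by
  have hn0 : (0 : ℝ) < (n0 : ℝ) + 1 := by positivity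
  have hstep : ∀ i ∈ Finset.range (n0 + 1),
      MeasurableSet (k6a1Hv D.prior (D.wc i) E (fun _ => ENNReal.ofReal (k6a1SupTh j d K η n0 i))) ∧
      D.prior (E \ k6a1Hv D.prior (D.wc i) E (fun _ => ENNReal.ofReal (k6a1SupTh j d K η n0 i))) ≤ ENNReal.ofReal (η / ((n0 : ℝ) + 1)) := by
    intro i hi
    have hi' : i ≤ n0 := Nat.lt_succ_iff.1 (Finset.mem_range.1 hi)
    obtain ⟨F, hFc, hF⟩ := hcnt i hi'
    obtain ⟨h1, h2⟩ := k6a1_prune_light D.prior (D.wc i) (k6a1_meas_wc D hD i) E hE (fun _ => ENNReal.ofReal (k6a1SupTh j d K η n0 i)) F hF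
    refine ⟨h1, h2.trans ?_⟩
    rw [Finset.sum_const, nsmul_eq_mul, ← ENNReal.ofReal_natCast, ← ENNReal.ofReal_mul (by positivity)]
    refine ENNReal.ofReal_le_ofReal ?_
    have hth := (k6a1_sup_th_pos j d K η n0 i hK hη).le
    refine (mul_le_mul_of_nonneg_right hFc hth).trans (le_of_eq ?_)
    unfold k6a1SupTh
    have hw := k6a1_sup_Wpow i ((j : ℝ) + 1 + d)
    have hK0 : K ≠ 0 := by positivity
    calc K * ((2 : ℝ) ^ i) ^ ((j : ℝ) + 1 + d) * (η * k6aW i ^ ((j : ℝ) + 1 + d) / (((n0 : ℝ) + 1) * K))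
        = (k6aW i ^ ((j : ℝ) + 1 + d) * ((2 : ℝ) ^ i) ^ ((j : ℝ) + 1 + d)) * (η / ((n0 : ℝ) + 1)) := by
          field_simp
      _ = η / ((n0 : ℝ) + 1) := by rw [hw, one_mul]
  constructor
  · exact hE.inter (Finset.measurableSet_biInter _ fun i hi => (hstep i hi).1)
  · have hsub : E \ k6a1SupE D d K η n0 E ⊆ ⋃ i ∈ Finset.range (n0 + 1),
        (E \ k6a1Hv D.prior (D.wc i) E (fun _ => ENNReal.ofReal (k6a1SupTh j d K η n0 i))) := by
      intro x hx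
      have hx2 : x ∉ ⋂ i ∈ Finset.range (n0 + 1), k6a1Hv D.prior (D.wc i) E (fun _ => ENNReal.ofReal (k6a1SupTh j d K η n0 i)) :=
        fun h => hx.2 ⟨hx.1, h⟩
      rw [Set.mem_iInter₂] at hx2
      push Not at hx2
      obtain ⟨i, hi, hxi⟩ := hx2
      exact Set.mem_iUnion₂.2 ⟨i, hi, hx.1, hxi⟩
    refine (measure_mono hsub).trans ((measure_biUnion_finset_le _ _).trans ?_)
    refine (Finset.sum_le_sum fun i hi => (hstep i hi).2).trans ?_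
    rw [Finset.sum_const, Finset.card_range, nsmul_eq_mul, ← ENNReal.ofReal_natCast, ← ENNReal.ofReal_mul (by positivity)]
    refine ENNReal.ofReal_le_ofReal (le_of_eq ?_)
    push_cast
    field_simp

/-- **(6.5) hereditary support.**
PLAN: `θ_i = η W_i^(j+1+d) / ((n0 + 1) K)` (a constant function of the cell), `E' = ⋂_{i ≤ n0} k6a1Hv prior (wc i) E θ_i`.   Loss: `k6a1_prune_light` with the list of the hypothesis: `≤ K (2^i)^(j+1+d) θ_i = η / (n0 + 1)` per level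
(`W_i 2^i = 1`), `E \ ⋂ = ⋃ (E \ ·)`, `measure_biUnion_finset_le` over `Finset.range (n0 + 1)`.
`loc`: `k6a1_cnt_pay` with `A = E' ∩ {wc i = c}`, `B = E ∩ {wc i = c}`, `s = wc i'`: `μ B ≤ K W_i^(j+1+d)` (`k6a1_capW`); for `e ∈ A` the event `E ∩ {wc i' = wc i' e}` lies in `B` (`k6a1_wc_coarse`) and has mass `≥ θ_{i'}`;
count `≤ K W_i^(j+1+d) / θ_{i'} = K² (n0 + 1) / η * (W_i / W_{i'})^(j+1+d)`, `W_i / W_{i'} = 2^(i'-i)` (`k6a1_W_sub`).
`fibre`: the same with `B = E ∩ {zc i = c}`, `μ B ≤ 5 K² W_i^(j+1)` (`k6a1_base_cap`, `k6a1_zcell_vol`), then `k6a1_cnt_comp` (the `X`-bin is a function of `wc i`). -/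
theorem k6a1_support (j : ℕ) (d : ℝ) (hd : 0 ≤ d) : ∃ C : ℕ, ∀ (D : K6aDat j) (K η : ℝ) (n0 n1 : ℕ) (E : Set (D.L × ℝ)), 1 ≤ K → 0 < η → η ≤ 1 → D.WF K →
    MeasurableSet E → E ⊆ Set.univ ×ˢ Set.Icc (0 : ℝ) 1 → n0 ≤ n1 → K6a1Cap D d K n1 E →
    (∀ i ≤ n0, k6a1Cnt E (D.wc i) (K * ((2 : ℝ) ^ i) ^ ((j : ℝ) + 1 + d))) →
    ∃ E' : Set (D.L × ℝ), MeasurableSet E' ∧ E' ⊆ E ∧ D.prior (E \ E') ≤ ENNReal.ofReal η ∧
      K6a1Loc D d (k6a1K C (K * (n0 + 1) / η)) n0 E' ∧ K6a1Fib D d (k6a1K C (K * (n0 + 1) / η)) n0 E' := by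
  refine ⟨8, ?_⟩
  intro D K η n0 n1 E hK hη hη1 hD hE hEt hn hcap hcnt
  obtain ⟨hm, hloss⟩ := k6a1_sup_loss D d K η n0 E hK hη hD hE hcnt
  refine ⟨k6a1SupE D d K η n0 E, hm, Set.inter_subset_left, hloss, ?_, ?_⟩
  all_goals
    have hn0 : (1 : ℝ) ≤ (n0 : ℝ) + 1 := by
      have : (0 : ℝ) ≤ (n0 : ℝ) := Nat.cast_nonneg _
      linarith
    have hK0 : (0 : ℝ) < K := by linarith
    set X : ℝ := K * ((n0 : ℝ) + 1) / η with hX
    have hq : 1 ≤ ((n0 : ℝ) + 1) / η := by rw [le_div_iff₀ hη]; linarith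
    have hXK : K ≤ X := by
      rw [hX, mul_div_assoc]
      exact le_mul_of_one_le_right hK0.le hq
    have hX1 : 1 ≤ X := hK.trans hXK
  · intro i i' hii hi' c
    have hth := k6a1_sup_th_pos j d K η n0 i' hK hη
    have hpay := k6a1_cnt_pay D.prior (k6a1SupE D d K η n0 E ∩ D.wc i ⁻¹' {c}) (E ∩ D.wc i ⁻¹' {c}) (D.wc i') (k6a1_meas_wc D hD i')
      (k6a1SupTh j d K η n0 i') (K * k6aW i ^ ((j : ℝ) + 1 + d)) hth (mul_nonneg hK0.le (Real.rpow_nonneg (k6a1_W_pos i).le _))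
      (k6a1_capW D d K n1 E hK hcap i ((hii.trans hi').trans hn) c)
      (fun e he => by
        refine (k6a1_sup_mem he.1 hi').trans (measure_mono ?_)
        intro x hx
        refine ⟨⟨hx.1, ?_⟩, hx.2⟩
        have h1 : D.wc i x = D.wc i e := k6a1_wc_coarse D hii hx.2
        exact h1.trans he.2)
    obtain ⟨F, hFc, hF⟩ := hpay
    refine ⟨F, hFc.trans ?_, fun e he hc => hF e ⟨he, hc⟩⟩
    have hW' := k6a1_W_pos i'
    have e1 : k6aW i ^ ((j : ℝ) + 1 + d) = k6aW i' ^ ((j : ℝ) + 1 + d) * ((2 : ℝ) ^ (i' - i)) ^ ((j : ℝ) + 1 + d) := by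
      rw [← Real.mul_rpow hW'.le (by positivity), ← k6a1_W_sub hii]
    have hWp : 0 < k6aW i' ^ ((j : ℝ) + 1 + d) := Real.rpow_pos_of_pos hW' _
    have e2 : K * k6aW i ^ ((j : ℝ) + 1 + d) / k6a1SupTh j d K η n0 i' = K * X * ((2 : ℝ) ^ (i' - i)) ^ ((j : ℝ) + 1 + d) := by
      unfold k6a1SupTh
      rw [e1, hX]
      field_simp
    rw [e2]
    refine mul_le_mul_of_nonneg_right ?_ (by positivity)
    calc K * X ≤ X * X := mul_le_mul_of_nonneg_right hXK (by linarith)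
      _ = ((1 : ℕ) : ℝ) * X ^ 2 := by push_cast; ring
      _ ≤ k6a1K (1 + 2) X := k6a1_K_of_pow 1 2 hX1
      _ ≤ k6a1K 8 X := k6a1_K_mono (by norm_num) hX1 le_rfl
  · intro i hi c
    have hth := k6a1_sup_th_pos j d K η n0 i hK hη
    obtain ⟨hUm, hUv⟩ := k6a1_zcell_vol (j := j) i i c.1 c.2
    have hbase := k6a1_base_cap D d K n1 E hK hD hEt hcap _ hUm
    rw [hUv, ← ENNReal.ofReal_mul (by positivity)] at hbase
    have hpre : D.base ⁻¹' {z : ℝ × (Fin j → ℝ) | k6aBin i z.1 = c.1 ∧ k6aVBin i z.2 = c.2} = D.zc i ⁻¹' {c} := by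
      ext e
      simp only [Set.mem_preimage, Set.mem_ofPred_eq, Set.mem_singleton_iff, K6aDat.base, K6aDat.zc, Prod.ext_iff]
    rw [hpre] at hbase
    have hpay := k6a1_cnt_pay D.prior (k6a1SupE D d K η n0 E ∩ D.zc i ⁻¹' {c}) (E ∩ D.zc i ⁻¹' {c}) (D.wc i) (k6a1_meas_wc D hD i)
      (k6a1SupTh j d K η n0 i) (5 * K ^ 2 * (k6aW i * k6aW i ^ j)) hth
      (mul_nonneg (by positivity) (mul_nonneg (k6a1_W_pos i).le (pow_nonneg (k6a1_W_pos i).le _))) hbase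
      (fun e he => by
        refine (k6a1_sup_mem he.1 hi).trans (measure_mono ?_)
        intro x hx
        refine ⟨⟨hx.1, ?_⟩, hx.2⟩
        have h1 : D.zc i x = D.zc i e := k6a1_zc_of_wc D hx.2
        exact h1.trans he.2)
    obtain ⟨F, hFc, hF⟩ := k6a1_cnt_comp hpay (fun w : K6aWc j => w.2)
    refine ⟨F, hFc.trans ?_, fun e he hc => hF e ⟨he, hc⟩⟩
    have hW := k6a1_W_pos i
    have e1 : k6aW i ^ ((j : ℝ) + 1 + d) = (k6aW i * k6aW i ^ j) * k6aW i ^ d := by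
      rw [Real.rpow_add hW, Real.rpow_add hW, Real.rpow_natCast, Real.rpow_one]
      ring
    have hWd := k6a1_sup_Wpow i d
    have hWdp : 0 < k6aW i ^ d := Real.rpow_pos_of_pos hW _
    have e3 : ((2 : ℝ) ^ i) ^ d = 1 / k6aW i ^ d := by
      rw [eq_div_iff hWdp.ne', mul_comm]; exact hWd
    have e2 : 5 * K ^ 2 * (k6aW i * k6aW i ^ j) / k6a1SupTh j d K η n0 i = 5 * K ^ 2 * X * ((2 : ℝ) ^ i) ^ d := by
      unfold k6a1SupTh
      rw [e1, e3, hX]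
      field_simp
    rw [e2]
    refine mul_le_mul_of_nonneg_right ?_ (by positivity)
    calc 5 * K ^ 2 * X ≤ 5 * X ^ 2 * X := by
          refine mul_le_mul_of_nonneg_right ?_ (by linarith)
          have : K ^ 2 ≤ X ^ 2 := pow_le_pow_left₀ hK0.le hXK 2
          linarith
      _ = ((5 : ℕ) : ℝ) * X ^ 3 := by push_cast; ring
      _ ≤ k6a1K (5 + 3) X := k6a1_K_of_pow 5 3 hX1

end

end Claimed.Agent.R252
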