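import Claimed.Agent.R252.S6a.Layers
import Claimed.Agent.R252.Sheet.MvContract

/-!
# ROW 252, unit S6a1 (06-isotropic.tex l.50-296; sub-architect helper11, chief helper234), file 1: DEFINITIONS.      No `sorry`.      Prefix `k6a1` / `K6a1`.

EXIT of the unit (file `Phys/Main.lean`): `k6a1_exit` : RAW per-parent data ⟹ `K6aPhys` + `K6aPk.Ok` (language of `S6a/Layers.lean`: ONE parent `D : K6aDat j`, families = measurable sets, dyadic levels).
The adaptor from the source record (`KsRef.loc A`, `State/KsLoc`) to the RAW data is `Phys/Ref.lean`.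
## Conventions
* ONE slack `K ≥ 1` for all inputs of a step, ONE loss budget `0 < η ≤ 1`; a step reads `∃ C : ℕ, ∀ .., ∃ E' ⊆ E, prior (E \ E') ≤ η ∧ (conclusion with slack C * (K / η) ^ C)`.   `C` depends on `j, d, k, dg, ε₀` only.
* every conclusion is HEREDITARY (survives `E'' ⊆ E'`), so the steps are run one after the other on the whole prepared family `E0` of the parent and intersected at the end.
* levels: `n0` = finest level of `K6aPhys`;  `n1 ≥ n0 + log₂ (4 K)` = level of the raw master states and of the time partition of (6.8);  `nf` = level of the base bins which freeze the gradients.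
## RAW data
* `K6a1Cap`   pure cap in `X` per unit base volume, about a measurable offset (item 2 of `prop:tangent-palette`).
* `K6a1Hist`, `.Ok`   end histories: reference weights, numerator ceiling (a03:palette-joint), `≤ K` master states per history (item 4).
* `K6a1Dom`   the ceiling `λ(T, J) ≤ K π(J) λ_pre(T)` for ALL sets `T` of master states = all joint caps of the paper ((6.7) included).
* `K6a1PkRaw` a node without its graphs;      `K6a1En`, `.Ok`  graph entries: affine chart `u = c0 + t ct + ∑ y_a cy_a`, box, prediction `F = sh2_val m al be Dc` (class of `R252/Sheet`), base cap in the chart, frozen gradient.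
-/

set_option autoImplicit false

namespace Claimed.Agent.R252

open MeasureTheory
open scoped ENNReal BigOperators

noncomputable section

variable {j : ℕ}

/-! ## 0. counting, slack -/

/-- the label `s` takes at most `n` values on `A` -/
def k6a1Cnt {Ω S : Type} (A : Set Ω) (s : Ω → S) (n : ℝ) : Prop := ∃ F : Finset S, (F.card : ℝ) ≤ n ∧ ∀ e ∈ A, s e ∈ F

/-- the slack after a step -/
def k6a1K (C : ℕ) (K : ℝ) : ℝ := (C : ℝ) * K ^ C

/-! ## 1. caps -/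

/-- **pure cap**: `X` within `2^{-i}` of a measurable function of the exact base, per unit base volume; all levels `i ≤ n1` -/
def K6a1Cap (D : K6aDat j) (d K : ℝ) (n1 : ℕ) (E0 : Set (D.L × ℝ)) : Prop :=
  ∀ i ≤ n1, ∀ (U : Set (ℝ × (Fin j → ℝ))) (f : ℝ × (Fin j → ℝ) → ℝ), MeasurableSet U → Measurable f →
    D.prior (E0 ∩ {e | D.base e ∈ U ∧ |D.X e.1 e.2 - f (D.base e)| ≤ k6aW i}) ≤ ENNReal.ofReal (K * k6aW i ^ d) * volume U

/-- end histories (data only) -/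
structure K6a1Hist (D : K6aDat j) where
  Hs : Type
  fHs : Fintype Hs
  hist : D.L × ℝ → Hs
  ref : Hs → ℝ≥0∞

attribute [instance] K6a1Hist.fHs

/-- (a03:palette-joint) + item 4 (point-state ambiguity), for the family `E0` -/
structure K6a1Hist.Ok {D : K6aDat j} (Hd : K6a1Hist D) (K : ℝ) (n1 : ℕ) (E0 : Set (D.L × ℝ)) : Prop where
  m_hist : ∀ h, MeasurableSet (Hd.hist ⁻¹' {h})
  ref_sum : ∑ h, Hd.ref h ≤ ENNReal.ofReal K
  dom : ∀ i ≤ n1, ∀ (h : Hd.Hs) (J : Fin j → ℤ),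
    D.prior (E0 ∩ Hd.hist ⁻¹' {h} ∩ {e | D.vb i e.1 = J}) ≤ ENNReal.ofReal K * D.pal (k6aCube i J) * Hd.ref h
  /-- `≤ K` master states per history, up to a null set -/
  opt : ∀ h, ∃ F : Finset (D.Lb × K6aWc j), (F.card : ℝ) ≤ K ∧ D.prior (E0 ∩ Hd.hist ⁻¹' {h} ∩ {e | D.ms n1 e ∉ F}) = 0

/-- **joint ceiling**: for every set `T` of master states of the level `n1` and every velocity bin of a level `i ≤ n1` -/
def K6a1Dom (D : K6aDat j) (K : ℝ) (n1 : ℕ) (E0 E1 : Set (D.L × ℝ)) : Prop :=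
  ∀ i ≤ n1, ∀ (T : Set (D.Lb × K6aWc j)) (J : Fin j → ℤ),
    D.prior (E1 ∩ D.ms n1 ⁻¹' T ∩ {e | D.vb i e.1 = J}) ≤ ENNReal.ofReal K * D.pal (k6aCube i J) * D.prior (E0 ∩ D.ms n1 ⁻¹' T)

/-- **rectangular caps (6.7)**: time bin of level `it`, `y`-cell of level `iy`, `X`-bin of level `ix`, velocity bin of level `i` -/
def K6a1Rect (D : K6aDat j) (d K : ℝ) (n1 : ℕ) (E : Set (D.L × ℝ)) : Prop :=
  ∀ it ≤ n1, ∀ iy ≤ n1, ∀ ix ≤ n1, ∀ i ≤ n1, ∀ (a : ℤ) (b : Fin j → ℤ) (c : ℤ) (J : Fin j → ℤ),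
    D.prior (E ∩ {e | k6aBin it e.2 = a ∧ k6aVBin iy (D.y e.1 e.2) = b ∧ k6aBin ix (D.X e.1 e.2) = c} ∩ {e | D.vb i e.1 = J})
      ≤ ENNReal.ofReal (K * k6aW it * k6aW iy ^ j * k6aW ix ^ d) * D.pal (k6aCube i J)

/-- **coefficient caps** of the long-line prior `ν° = ν|_{Lc}` (06 l.244-250): affine bin of level `i`, scalar coefficients in a cell of a level `i' ≤ i` -/
def K6a1Coef (D : K6aDat j) (d K : ℝ) (n0 : ℕ) (Lc : Set D.L) : Prop :=
  ∀ i ≤ n0, ∀ i' ≤ i, ∀ (b0 bV : Fin j → ℤ) (x : Fin 3 → ℤ),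
    D.ν (Lc ∩ {l | k6aVBin i (D.y0 l) = b0 ∧ D.vb i l = bV ∧ k6aVBin i' (D.xc l) = x})
      ≤ ENNReal.ofReal (K * k6aW i ^ j * k6aW i' ^ d) * D.pal (k6aCube i bV)

/-- the clause `loc` of `K6aPhys` -/
def K6a1Loc (D : K6aDat j) (d K : ℝ) (n0 : ℕ) (E : Set (D.L × ℝ)) : Prop :=
  ∀ i i', i ≤ i' → i' ≤ n0 → ∀ c : K6aWc j, ∃ F : Finset (K6aWc j),
    (F.card : ℝ) ≤ K * ((2 : ℝ) ^ (i' - i)) ^ ((j : ℝ) + 1 + d) ∧ ∀ e ∈ E, D.wc i e = c → D.wc i' e ∈ F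

/-- the clause `fibre` of `K6aPhys` -/
def K6a1Fib (D : K6aDat j) (d K : ℝ) (n0 : ℕ) (E : Set (D.L × ℝ)) : Prop :=
  ∀ i ≤ n0, ∀ c : K6aZc j, ∃ F : Finset ℤ, (F.card : ℝ) ≤ K * ((2 : ℝ) ^ i) ^ d ∧ ∀ e ∈ E, D.zc i e = c → k6aBin i (D.X e.1 e.2) ∈ F

/-- the clause `slice` of `K6aPhys` -/
def K6a1Slice (D : K6aDat j) (d K : ℝ) (n0 : ℕ) (E : Set (D.L × ℝ)) : Prop :=
  ∀ i ≤ n0, ∀ i' ≤ n0, ∀ (t : ℝ) (c : (Fin j → ℤ) × ℤ) (J : Fin j → ℤ),
    D.ν {l | (l, t) ∈ E ∧ D.sc i' l t = c ∧ D.vb i l = J} ≤ ENNReal.ofReal (K * k6aW i' ^ ((j : ℝ) + d)) * D.pal (k6aCube i J)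

/-- the lines whose coefficient block of the level `i` is LIGHT for `ν° = ν|_{Lc}` (slack `Kf`) -/
def k6a1Low (D : K6aDat j) (d Kf : ℝ) (i : ℕ) (Lc : Set D.L) : Set D.L :=
  {l | ¬ ENNReal.ofReal (k6aW i ^ ((j : ℝ) + d)) * D.pal (k6aCube i (D.vb i l)) ≤ ENNReal.ofReal Kf * D.ν (Lc ∩ D.bc i ⁻¹' {D.bc i l})}

/-- the clause `blk_lo` of `K6aPhys` -/
def K6a1Lo (D : K6aDat j) (d K : ℝ) (n0 : ℕ) (E : Set (D.L × ℝ)) (Lc : Set D.L) : Prop :=
  ∀ i ≤ n0, ∀ e ∈ E, ENNReal.ofReal (k6aW i ^ ((j : ℝ) + d)) * D.pal (k6aCube i (D.vb i e.1)) ≤ ENNReal.ofReal K * D.ν (Lc ∩ D.bc i ⁻¹' {D.bc i e.1})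

/-- the clause `blk_list` of `K6aPhys` -/
def K6a1List (D : K6aDat j) (K : ℝ) (n0 : ℕ) (E : Set (D.L × ℝ)) : Prop :=
  ∀ i ≤ n0, ∀ (c : K6aWc j) (J : Fin j → ℤ), ∃ F : Finset (K6aBc j), (F.card : ℝ) ≤ K ∧ ∀ e ∈ E, D.wc i e = c → D.vb i e.1 = J → D.bc i e.1 ∈ F

/-! ## 2. nodes -/

/-- a node without its graph lists and without `ofLab`: item (1) of the tangent data -/
structure K6a1PkRaw {D : K6aDat j} (Pk : K6aPk D) (d k K : ℝ) (E : Set (D.L × ℝ)) : Prop where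
  a_pos : 0 < Pk.a
  H_lo : Pk.a ^ k ≤ K * Pk.H
  H_hi : Pk.H ≤ K * Pk.a ^ k
  asg_meas : ∀ q, MeasurableSet (Pk.asg q)
  disj : ∀ q q', q ≠ q' → Pk.iv q = Pk.iv q' → Disjoint (Pk.asg q) (Pk.asg q')
  ν_lo : ∀ q, (E ∩ Pk.inc q).Nonempty → ENNReal.ofReal (Pk.a ^ d * Pk.H ^ j) ≤ ENNReal.ofReal K * Pk.νQ q
  ν_hi : ∀ q, Pk.νQ q ≤ ENNReal.ofReal (K * Pk.a ^ d * Pk.H ^ j)
  /-- WEAK cover (the auxiliary nodes are not recorded in the path label `D.lab`) -/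
  cov : ∀ e ∈ E, ∃ q, e ∈ Pk.inc q
  box : ∀ q, ∀ l ∈ Pk.asg q, ∀ t ∈ Pk.blk q, ‖D.y l t - (Pk.yc0 q + t • Pk.yc1 q)‖ ≤ K * Pk.H
  cen : ∀ q, (Pk.asg q).Nonempty → ‖Pk.yc1 q‖ ≤ K
  capQ : ∀ q (U : Set (ℝ × (Fin j → ℝ))), MeasurableSet U →
    ENNReal.ofReal (Pk.H ^ j) * D.prior (E ∩ Pk.inc q ∩ D.base ⁻¹' U) ≤ ENNReal.ofReal K * Pk.νQ q * volume U

/-- the clause `graphs` of `K6aPk.Ok` -/
def K6a1Graphs {D : K6aDat j} (Pk : K6aPk D) (K : ℝ) (E : Set (D.L × ℝ)) : Prop :=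
  ∀ q, ∃ (n : ℕ) (f : Fin n → ℝ × (Fin j → ℝ) → ℝ) (Dm : Fin n → Set (ℝ × (Fin j → ℝ))), (n : ℝ) ≤ K ∧
    (∀ i, ∀ z ∈ Dm i, ∀ z' ∈ Dm i, |f i z - f i z'| ≤ K * ‖z - z'‖) ∧
    ∀ e ∈ E ∩ Pk.inc q, ∃ i, D.base e ∈ Dm i ∧ |D.X e.1 e.2 - f i (D.base e)| ≤ K * Pk.a

/-! ## 3. calculus of the class `sh2_val` in a constant direction -/

/-- the derivative of a polynomial in the constant direction `w` -/
def k6a1Dp {n : ℕ} (w : Fin n → ℝ) (P : MvPolynomial (Fin n) ℝ) : MvPolynomial (Fin n) ℝ :=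
  ∑ b, MvPolynomial.C (w b) * MvPolynomial.pderiv b P

/-- the numerator of the derivative of `β D^(1/2-m)` in the direction `w` -/
def k6a1Dn {n : ℕ} (m : ℕ) (w : Fin n → ℝ) (β Dc : MvPolynomial (Fin n) ℝ) : MvPolynomial (Fin n) ℝ :=
  Dc * k6a1Dp w β + MvPolynomial.C (1 / 2 - (m : ℝ)) * β * k6a1Dp w Dc

/-- **the derivative of `sh2_val m α β Dc` in the direction `w`** (a member of the class with `m + 1`); a DEFINITION, measurable, no calculus -/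
def k6a1Dv {n : ℕ} (m : ℕ) (α β Dc : MvPolynomial (Fin n) ℝ) (w u : Fin n → ℝ) : ℝ :=
  sh2_val (m + 1) (k6a1Dp w α) (k6a1Dn m w β Dc) Dc u

/-! ## 4. graph entries -/

/-- **graph entries of the packets of one node** (data only) -/
structure K6a1En (D : K6aDat j) (Pk : K6aPk D) where
  En : Type
  fEn : Fintype En
  pk : En → Pk.Q
  /-- THE entry of an incidence -/
  en : D.L × ℝ → En
  /-- the affine chart `u = c0 + t ct + ∑ y_a cy_a` -/
  c0 : En → Fin (j + 1) → ℝ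
  ct : En → Fin (j + 1) → ℝ
  cy : En → Fin j → Fin (j + 1) → ℝ
  /-- the comparison box, in the chart -/
  lo : En → Fin (j + 1) → ℝ
  hi : En → Fin (j + 1) → ℝ
  /-- the prediction of `X`, in the chart -/
  m : En → ℕ
  al : En → MvPolynomial (Fin (j + 1)) ℝ
  be : En → MvPolynomial (Fin (j + 1)) ℝ
  Dc : En → MvPolynomial (Fin (j + 1)) ℝ

attribute [instance] K6a1En.fEn

namespace K6a1En

variable {D : K6aDat j} {Pk : K6aPk D} (G : K6a1En D Pk)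

/-- the image of a physical direction `(τ, η)` in the chart -/
def dir (e : G.En) (z : ℝ × (Fin j → ℝ)) : Fin (j + 1) → ℝ := z.1 • G.ct e + ∑ a, z.2 a • G.cy e a
/-- the chart -/
def u (e : G.En) (z : ℝ × (Fin j → ℝ)) : Fin (j + 1) → ℝ := G.c0 e + G.dir e z
/-- the prediction in the chart -/
def F (e : G.En) (x : Fin (j + 1) → ℝ) : ℝ := sh2_val (G.m e) (G.al e) (G.be e) (G.Dc e) x
/-- the prediction in physical coordinates -/
def f (e : G.En) (z : ℝ × (Fin j → ℝ)) : ℝ := G.F e (G.u e z)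
/-- the domain of an entry, in physical coordinates (convex) -/
def dom (e : G.En) : Set (ℝ × (Fin j → ℝ)) := {z | G.u e z ∈ Set.Icc (G.lo e) (G.hi e)}
/-- the derivative of the prediction in the PHYSICAL direction `z'`, at the physical point `z` -/
def dv (e : G.En) (z' z : ℝ × (Fin j → ℝ)) : ℝ := k6a1Dv (G.m e) (G.al e) (G.be e) (G.Dc e) (G.dir e z') (G.u e z)
/-- the components of the physical gradient: `∂_t f` -/
def gt (e : G.En) (z : ℝ × (Fin j → ℝ)) : ℝ := G.dv e (1, 0) z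
/-- `∂_{y_a} f` -/
def gy (e : G.En) (a : Fin j) (z : ℝ × (Fin j → ℝ)) : ℝ := G.dv e (0, Pi.single a 1) z
/-- the state of the gradient argument: entry and base bin of the level `nf` -/
def st (nf : ℕ) (x : D.L × ℝ) : G.En × K6aZc j := (G.en x, D.zc nf x)

/-- the properties of the entries, for the family `E0`; `dg` bounds all degrees -/
structure Ok (dg : ℕ) (K : ℝ) (nf : ℕ) (E0 : Set (D.L × ℝ)) : Prop where
  m_en : ∀ e, MeasurableSet (G.en ⁻¹' {e})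
  /-- `≤ K` entries per packet -/
  card : ∀ q, k6a1Cnt {e : G.En | G.pk e = q} id K
  m_le : ∀ e, G.m e ≤ dg
  deg : ∀ e, (G.al e).totalDegree ≤ dg ∧ (G.be e).totalDegree ≤ dg ∧ (G.Dc e).totalDegree ≤ dg
  lt : ∀ e a, G.lo e a < G.hi e a
  /-- the box has volume `≤ K` in the chart -/
  vol : ∀ e, volume (Set.Icc (G.lo e) (G.hi e)) ≤ ENNReal.ofReal K
  stab : ∀ e, sh2Stable K (G.Dc e) (G.lo e) (G.hi e)
  /-- every incidence lies in the packet and in the box of its entry, whose graph predicts `X` to `K a` -/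
  cov : ∀ x ∈ E0, x ∈ Pk.inc (G.pk (G.en x)) ∧ D.base x ∈ G.dom (G.en x) ∧ |D.X x.1 x.2 - G.f (G.en x) (D.base x)| ≤ K * Pk.a
  /-- (a03:packet-base-cap) in the chart -/
  ucap : ∀ e (U : Set (Fin (j + 1) → ℝ)), MeasurableSet U →
    D.prior (E0 ∩ G.en ⁻¹' {e} ∩ {x | G.u e (D.base x) ∈ U}) ≤ ENNReal.ofReal (K * Pk.H) * Pk.νQ (G.pk e) * volume U
  /-- "the base bin can freeze the gradient to error one" (06 l.165) -/
  frz : ∀ x ∈ E0, ∀ x' ∈ E0, G.st nf x = G.st nf x' →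
    |G.gt (G.en x) (D.base x) - G.gt (G.en x) (D.base x')| ≤ 1 ∧ ∀ a, |G.gy (G.en x) a (D.base x) - G.gy (G.en x) a (D.base x')| ≤ 1

end K6a1En

theorem k6a1_defs_eqns_cite : True := by
  have := @k6a1Cnt.eq_1
  have := @k6a1K.eq_1
  have := @K6a1Cap.eq_1
  have := @K6a1Dom.eq_1
  have := @K6a1Rect.eq_1
  have := @K6a1Coef.eq_1
  have := @K6a1Loc.eq_1
  have := @K6a1Fib.eq_1
  have := @K6a1Slice.eq_1
  have := @k6a1Low.eq_1
  have := @K6a1Lo.eq_1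
  have := @K6a1List.eq_1
  have := @K6a1Graphs.eq_1
  have := @k6a1Dp.eq_1
  have := @k6a1Dn.eq_1
  have := @k6a1Dv.eq_1
  have := @K6a1En.dir.eq_1
  have := @K6a1En.u.eq_1
  have := @K6a1En.F.eq_1
  have := @K6a1En.f.eq_1
  have := @K6a1En.dom.eq_1
  have := @K6a1En.dv.eq_1
  have := @K6a1En.gt.eq_1
  have := @K6a1En.gy.eq_1
  have := @K6a1En.st.eq_1
  trivial

end

end Claimed.Agent.R252
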