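import Claimed.Agent.R252.S6a.Phys.Cap
import Claimed.Agent.R252.S5.Contract

/-!
# ROW 252, unit S6a1, file 7: PARAMETER MASSES: the lower half of (6.6) by scalar clustering, the lists of blocks (06 l.194-207, 254-283).   CONTRACT      (sub-architect helper11; prefix `k6a1_`)

PAPER-FREE (language of `S6a/Layers.lean` + `Phys/Defs.lean`).   Black boxes: `Phys/Tools.lean`, `Phys/Cap.lean`, `k5_cluster` (`S5/Contract.lean`, Lemma 5.1) (usable while sorried).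
An AFFINE BIN of the level `i` is `α = (b0, bV)` : `{l | k6aVBin i (y0 l) = b0 ∧ vb i l = bV}`, `Π_α = pal (k6aCube i bV)`, `p = W_i`.
Statements are frozen (defects: message to helper11).   Provers replace the `sorry`s IN PLACE, helper lemmas directly above.
LEAVES: L-252-P1-F1 (`k6a1_aff_pick`, `k6a1_low_meas`), F2 (`k6a1_aff_ball`), F3 (`k6a1_aff_cells`), F4 (`k6a1_floor_level`), F5 (`k6a1_floor`), F6 (`k6a1_blk_cells`, `k6a1_null_pal`), F7 (`k6a1_blocks_level`), F8 (`k6a1_blocks`).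
-/

set_option autoImplicit false

namespace Claimed.Agent.R252

open MeasureTheory
open scoped ENNReal BigOperators

noncomputable section

variable {j : ℕ}

/-! ## 1. the lower half of (6.6) -/

theorem k6a1_aff_pick_cubes (D : K6aDat j) {K : ℝ} (hD : D.WF K) (i : ℕ) (FV : Finset (Fin j → ℤ)) :
    ∑ bV ∈ FV, D.pal (k6aCube i bV) ≤ 1 := by
  rw [← measure_biUnion_finset]
  · exact (measure_mono (Set.subset_univ _)).trans hD.pal_le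
  · intro a _ b _ hab
    refine Set.disjoint_left.2 ?_
    intro u hu hu'
    have h1 : k6aVBin i u = a := hu
    have h2 : k6aVBin i u = b := hu'
    exact hab (h1.symm.trans h2)
  · intro b _
    exact k6a1_cube_meas i b

/-- **"this follows by summation, because the sum of `p^j Π_α` over affine bins is at most `K`"**.
PLAN: by contradiction.   All `(b0, bV)` which occur lie in `F0 ×ˢ FV` (`k6a1_vbin_range i 0 K` twice, `‖y0‖, ‖V‖ ≤ K`), `card F0 ≤ (2 K 2^i + 2)^j ≤ (4 K)^j (2^i)^j`;   `prior A ≤ ∑_{b0 ∈ F0} ∑_{bV ∈ FV} prior (A ∩ α)` (`measure_biUnion_finset_le`)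
`≤ card F0 * (η / (4K)^j) W_i^j * ∑_{bV ∈ FV} pal (cube bV) ≤ η`   (the cubes are disjoint and measurable: `measure_biUnion_finset`, `pal_le`; `W_i 2^i = 1`). -/
theorem k6a1_aff_pick (D : K6aDat j) (K η : ℝ) (i : ℕ) (A : Set (D.L × ℝ)) (hK : 1 ≤ K) (hη : 0 < η) (hD : D.WF K) (hbig : ENNReal.ofReal η < D.prior A) :
    ∃ b0 bV : Fin j → ℤ, ENNReal.ofReal (η / (4 * K) ^ j * k6aW i ^ j) * D.pal (k6aCube i bV)
      < D.prior (A ∩ {e | k6aVBin i (D.y0 e.1) = b0 ∧ D.vb i e.1 = bV}) := by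
  classical
  by_contra hcon
  push Not at hcon
  have hK0 : 0 ≤ K := by linarith
  obtain ⟨F0, hF0c, hF0⟩ := k6a1_vbin_range (n := j) i 0 K hK0
  obtain ⟨FV, _, hFV⟩ := k6a1_vbin_range (n := j) i 0 K hK0
  obtain ⟨c, hc⟩ : ∃ c, c = η / (4 * K) ^ j * k6aW i ^ j := ⟨_, rfl⟩
  rw [← hc] at hcon
  have hW := k6a1_W_pos i
  have hc0 : 0 ≤ c := by rw [hc]; positivity
  have hsub : A ⊆ ⋃ b0 ∈ F0, ⋃ bV ∈ FV, (A ∩ {e | k6aVBin i (D.y0 e.1) = b0 ∧ D.vb i e.1 = bV}) := by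
    intro e he
    simp only [Set.mem_iUnion]
    refine ⟨k6aVBin i (D.y0 e.1), hF0 _ ?_, D.vb i e.1, hFV _ ?_, he, rfl, rfl⟩
    · show ‖D.y0 e.1 - 0‖ ≤ K
      rw [sub_zero]
      exact (hD.bd e.1).1
    · show ‖D.V e.1 - 0‖ ≤ K
      rw [sub_zero]
      exact (hD.bd e.1).2.1
  have h1 : D.prior A ≤ ∑ b0 ∈ F0, ∑ bV ∈ FV, ENNReal.ofReal c * D.pal (k6aCube i bV) := by
    refine (measure_mono hsub).trans ((measure_biUnion_finset_le _ _).trans ?_)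
    refine Finset.sum_le_sum fun b0 _ => (measure_biUnion_finset_le _ _).trans ?_
    exact Finset.sum_le_sum fun bV _ => hcon b0 bV
  have h2 : ∑ b0 ∈ F0, ∑ bV ∈ FV, ENNReal.ofReal c * D.pal (k6aCube i bV) ≤ (F0.card : ℝ≥0∞) * ENNReal.ofReal c := by
    rw [Finset.sum_const, nsmul_eq_mul, ← Finset.mul_sum]
    refine mul_le_mul' le_rfl ?_
    calc ENNReal.ofReal c * ∑ bV ∈ FV, D.pal (k6aCube i bV) ≤ ENNReal.ofReal c * 1 :=
          mul_le_mul' le_rfl (k6a1_aff_pick_cubes D hD i FV)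
      _ = ENNReal.ofReal c := mul_one _
  have h3 : (F0.card : ℝ≥0∞) * ENNReal.ofReal c ≤ ENNReal.ofReal η := by
    rw [← ENNReal.ofReal_natCast, ← ENNReal.ofReal_mul (Nat.cast_nonneg _)]
    apply ENNReal.ofReal_le_ofReal
    have hp : (1 : ℝ) ≤ 2 ^ i := one_le_pow₀ (by norm_num)
    have h4 : (2 * K * 2 ^ i + 2) ^ j ≤ (4 * K * 2 ^ i) ^ j := by
      apply pow_le_pow_left₀ (by positivity)
      nlinarith
    calc (F0.card : ℝ) * c ≤ (4 * K * 2 ^ i) ^ j * c := mul_le_mul_of_nonneg_right (hF0c.trans h4) hc0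
      _ = η * (k6aW i * 2 ^ i) ^ j := by
          rw [hc, mul_pow, mul_pow (k6aW i)]
          field_simp
      _ = η := by rw [k6a1_W_mul, one_pow, mul_one]
  exact absurd hbig (not_lt.2 (h1.trans (h2.trans h3)))

theorem k6a1_low_eq (D : K6aDat j) (d Kf : ℝ) (i : ℕ) (Lc : Set D.L) :
    k6a1Low D d Kf i Lc = D.bc i ⁻¹' {B | ¬ ENNReal.ofReal (k6aW i ^ ((j : ℝ) + d)) * D.pal (k6aCube i B.2.1)
      ≤ ENNReal.ofReal Kf * D.ν (Lc ∩ D.bc i ⁻¹' {B})} := by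
  ext l
  rfl

/-- lightness is a property of the block (`k6a1Low = bc i ⁻¹' (a set of blocks)`, countable union of the events `k6a1_meas_bc`) -/
theorem k6a1_low_meas (D : K6aDat j) {K : ℝ} (hD : D.WF K) (d Kf : ℝ) (i : ℕ) (Lc : Set D.L) : MeasurableSet (k6a1Low D d Kf i Lc) := by
  rw [k6a1_low_eq]
  generalize {B : K6aBc j | ¬ ENNReal.ofReal (k6aW i ^ ((j : ℝ) + d)) * D.pal (k6aCube i B.2.1)
      ≤ ENNReal.ofReal Kf * D.ν (Lc ∩ D.bc i ⁻¹' {B})} = T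
  have : D.bc i ⁻¹' T = ⋃ B ∈ T, D.bc i ⁻¹' {B} := by
    ext x
    simp
  rw [this]
  exact MeasurableSet.biUnion (Set.to_countable T) fun B _ => k6a1_meas_bc D hD i B

theorem k6a1_low_block (D : K6aDat j) (d Kf : ℝ) (i : ℕ) (Lc : Set D.L) {l l' : D.L} (h : D.bc i l = D.bc i l') : l ∈ k6a1Low D d Kf i Lc ↔ l' ∈ k6a1Low D d Kf i Lc := by
  rw [k6a1_low_eq, Set.mem_preimage, Set.mem_preimage, h]

theorem k6a1_aff_ball_cover (D : K6aDat j) (d K : ℝ) (n0 : ℕ) (Lc : Set D.L) (i i' : ℕ) (b0 bV : Fin j → ℤ) (hK : 0 ≤ K)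
    (hC : K6a1Coef D d K n0 Lc) (hi : i ≤ n0) (hi' : i' ≤ i) (r : ℝ) (hr : 0 ≤ r) (b : Fin 3 → ℝ) :
    D.ν (Lc ∩ {l | k6aVBin i (D.y0 l) = b0 ∧ D.vb i l = bV ∧ ‖D.xc l - b‖ ≤ r})
      ≤ ENNReal.ofReal ((2 * r * 2 ^ i' + 2) ^ 3 * (K * k6aW i ^ j * k6aW i' ^ d)) * D.pal (k6aCube i bV) := by
  classical
  obtain ⟨F, hFc, hF⟩ := k6a1_vbin_range (n := 3) i' b r hr
  have hW := k6a1_W_pos i
  have hW' := k6a1_W_pos i'
  have hsub : Lc ∩ {l | k6aVBin i (D.y0 l) = b0 ∧ D.vb i l = bV ∧ ‖D.xc l - b‖ ≤ r}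
      ⊆ ⋃ x ∈ F, (Lc ∩ {l | k6aVBin i (D.y0 l) = b0 ∧ D.vb i l = bV ∧ k6aVBin i' (D.xc l) = x}) := by
    rintro l ⟨hl, h1, h2, h3⟩
    simp only [Set.mem_iUnion]
    exact ⟨k6aVBin i' (D.xc l), hF _ h3, hl, h1, h2, rfl⟩
  refine (measure_mono hsub).trans ((measure_biUnion_finset_le _ _).trans ?_)
  refine (Finset.sum_le_card_nsmul _ _ _ fun x _ => hC i hi i' hi' b0 bV x).trans ?_
  rw [nsmul_eq_mul, ← mul_assoc, ← ENNReal.ofReal_natCast, ← ENNReal.ofReal_mul (Nat.cast_nonneg _)]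
  refine mul_le_mul' (ENNReal.ofReal_le_ofReal ?_) le_rfl
  exact mul_le_mul_of_nonneg_right hFc (by positivity)

/-- **mass and scalar coefficient-ball caps of `ν°` in an affine bin.**
PLAN: mass: `‖xc‖ ≤ K`: `≤ (2 K + 2)^3` cells of the level `0` (`k6a1_vbin_range 0 0 K`), `K6a1Coef` with `i' = 0`.   Balls, `1 ≤ r`: the mass bound, `1 ≤ r^d`.   Balls, `W_i ≤ r < 1`: `i'` = the largest level with `r ≤ W_{i'}` (`Nat.find` / induction; `i' ≤ i`,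
`W_{i'} < 2 r`); the ball meets `≤ (2 r 2^i' + 2)^3 ≤ 4^3` cells of the level `i'` (`k6a1_vbin_range`), each `≤ K W_i^j W_{i'}^d Π ≤ 2^d K W_i^j r^d Π`. -/
theorem k6a1_aff_ball (j : ℕ) (d : ℝ) (hd : 0 ≤ d) : ∃ C : ℕ, ∀ (D : K6aDat j) (K : ℝ) (n0 : ℕ) (Lc : Set D.L) (i : ℕ) (b0 bV : Fin j → ℤ), 1 ≤ K → D.WF K →
    K6a1Coef D d K n0 Lc → i ≤ n0 →
    D.ν (Lc ∩ {l | k6aVBin i (D.y0 l) = b0 ∧ D.vb i l = bV}) ≤ ENNReal.ofReal (k6a1K C K * k6aW i ^ j) * D.pal (k6aCube i bV) ∧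
    ∀ (r : ℝ) (b : Fin 3 → ℝ), k6aW i ≤ r →
      D.ν (Lc ∩ {l | k6aVBin i (D.y0 l) = b0 ∧ D.vb i l = bV ∧ ‖D.xc l - b‖ ≤ r}) ≤ ENNReal.ofReal (k6a1K C K * k6aW i ^ j * r ^ d) * D.pal (k6aCube i bV) := by
  obtain ⟨c2, hc2⟩ : ∃ c2 : ℕ, c2 = ⌈(2 : ℝ) ^ d⌉₊ := ⟨_, rfl⟩
  have hc2d : (2 : ℝ) ^ d ≤ c2 := by rw [hc2]; exact Nat.le_ceil _
  have h2d : (1 : ℝ) ≤ 2 ^ d := Real.one_le_rpow (by norm_num) hd
  refine ⟨64 * c2 + 4, ?_⟩
  intro D K n0 Lc i b0 bV hK hD hC hi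
  have hK0 : 0 ≤ K := by linarith
  have hW := k6a1_W_pos i
  have hKC : ((64 * c2 : ℕ) : ℝ) * K ^ 4 ≤ k6a1K (64 * c2 + 4) K := k6a1_K_of_pow (64 * c2) 4 hK
  push_cast at hKC
  have hK4 : K ≤ K ^ 4 := by
    calc K = K ^ 1 := (pow_one K).symm
      _ ≤ K ^ 4 := pow_le_pow_right₀ hK (by norm_num)
  have hmass : D.ν (Lc ∩ {l | k6aVBin i (D.y0 l) = b0 ∧ D.vb i l = bV}) ≤ ENNReal.ofReal (k6a1K (64 * c2 + 4) K * k6aW i ^ j) * D.pal (k6aCube i bV) := by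
    have h1 := k6a1_aff_ball_cover D d K n0 Lc i 0 b0 bV hK0 hC hi (Nat.zero_le _) K hK0 0
    have hsub : Lc ∩ {l | k6aVBin i (D.y0 l) = b0 ∧ D.vb i l = bV} ⊆ Lc ∩ {l | k6aVBin i (D.y0 l) = b0 ∧ D.vb i l = bV ∧ ‖D.xc l - 0‖ ≤ K} := by
      rintro l ⟨hl, h1, h2⟩
      refine ⟨hl, h1, h2, ?_⟩
      rw [sub_zero]
      exact (hD.bd l).2.2
    refine (measure_mono hsub).trans (h1.trans ?_)
    refine mul_le_mul' (ENNReal.ofReal_le_ofReal ?_) le_rfl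
    have hW0 : k6aW 0 = 1 := by unfold k6aW; simp
    rw [hW0, Real.one_rpow, pow_zero, mul_one, mul_one, ← mul_assoc]
    refine mul_le_mul_of_nonneg_right ?_ (by positivity)
    have h3 : (2 * K + 2) ^ 3 ≤ (4 * K) ^ 3 := pow_le_pow_left₀ (by positivity) (by linarith) 3
    calc (2 * K + 2) ^ 3 * K ≤ (4 * K) ^ 3 * K := mul_le_mul_of_nonneg_right h3 hK0
      _ = 64 * 1 * K ^ 4 := by ring
      _ ≤ 64 * (c2 : ℝ) * K ^ 4 := by
          have : (1 : ℝ) ≤ c2 := h2d.trans hc2d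
          gcongr
      _ ≤ _ := hKC
  refine ⟨hmass, ?_⟩
  intro r b hr
  have hr0 : 0 < r := hW.trans_le hr
  rcases le_or_gt 1 r with h1r | h1r
  · have hsub : Lc ∩ {l | k6aVBin i (D.y0 l) = b0 ∧ D.vb i l = bV ∧ ‖D.xc l - b‖ ≤ r} ⊆ Lc ∩ {l | k6aVBin i (D.y0 l) = b0 ∧ D.vb i l = bV} := by
      rintro l ⟨hl, h1, h2, _⟩
      exact ⟨hl, h1, h2⟩
    refine (measure_mono hsub).trans (hmass.trans ?_)
    refine mul_le_mul' (ENNReal.ofReal_le_ofReal ?_) le_rfl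
    have : (1 : ℝ) ≤ r ^ d := Real.one_le_rpow h1r hd
    have h0 : 0 ≤ k6a1K (64 * c2 + 4) K * k6aW i ^ j := mul_nonneg (k6a1_K_nonneg _ hK0) (by positivity)
    nlinarith
  · obtain ⟨n, hn1, hn2⟩ := exists_nat_pow_near_of_lt_one hr0 h1r.le (y := (1 / 2 : ℝ)) (by norm_num) (by norm_num)
    have hWn : k6aW n = (1 / 2 : ℝ) ^ n := rfl
    have hn_le : n ≤ i := by
      by_contra hcon
      push Not at hcon
      have h5 := k6a1_W_anti (Nat.succ_le_of_lt hcon)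
      have h6 : k6aW (i + 1) = k6aW i * (1 / 2) := by unfold k6aW; rw [pow_succ]
      rw [hWn, h6] at h5
      linarith
    have hWn2 : k6aW n ≤ 2 * r := by
      rw [hWn]
      rw [pow_succ] at hn1
      linarith
    have h1 := k6a1_aff_ball_cover D d K n0 Lc i n b0 bV hK0 hC hi hn_le r hr0.le b
    refine h1.trans ?_
    refine mul_le_mul' (ENNReal.ofReal_le_ofReal ?_) le_rfl
    have hWnpos := k6a1_W_pos n
    have h2 : r * 2 ^ n ≤ 1 := by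
      have := k6a1_W_mul n
      rw [← this]
      refine mul_le_mul_of_nonneg_right ?_ (by positivity)
      rw [hWn]
      exact hn2
    have h3 : (2 * r * 2 ^ n + 2) ^ 3 ≤ 4 ^ 3 := pow_le_pow_left₀ (by positivity) (by nlinarith) 3
    have h4 : k6aW n ^ d ≤ 2 ^ d * r ^ d := by
      rw [← Real.mul_rpow (by norm_num) hr0.le]
      exact Real.rpow_le_rpow hWnpos.le hWn2 hd
    have hrd : 0 ≤ r ^ d := Real.rpow_nonneg hr0.le d
    have hWj : 0 ≤ k6aW i ^ j := by positivity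
    calc (2 * r * 2 ^ n + 2) ^ 3 * (K * k6aW i ^ j * k6aW n ^ d)
        ≤ 4 ^ 3 * (K * k6aW i ^ j * (2 ^ d * r ^ d)) := by
          refine mul_le_mul h3 ?_ (by positivity) (by norm_num)
          exact mul_le_mul_of_nonneg_left h4 (by positivity)
      _ = (64 * 2 ^ d * K) * (k6aW i ^ j * r ^ d) := by ring
      _ ≤ (64 * (c2 : ℝ) * K ^ 4) * (k6aW i ^ j * r ^ d) := by
          refine mul_le_mul_of_nonneg_right ?_ (by positivity)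
          refine mul_le_mul ?_ hK4 hK0 (by positivity)
          linarith
      _ ≤ k6a1K (64 * c2 + 4) K * (k6aW i ^ j * r ^ d) := mul_le_mul_of_nonneg_right hKC (by positivity)
      _ = _ := by ring

theorem k6a1_aff_cells_y (D : K6aDat j) {K : ℝ} (hD : D.WF K) (i : ℕ) (e e0 : D.L × ℝ) (ht : e.2 ∈ Set.Icc (0 : ℝ) 1)
    (h0 : k6aVBin i (D.y0 e.1) = k6aVBin i (D.y0 e0.1)) (hV : D.vb i e.1 = D.vb i e0.1) (hb : k6aBin i e.2 = k6aBin i e0.2) :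
    ‖D.y e.1 e.2 - D.y e0.1 e0.2‖ ≤ (K + 2) * k6aW i := by
  have hW := k6a1_W_pos i
  have a1 := k6a1_vbin_diam i h0
  have a2 : ‖D.V e.1 - D.V e0.1‖ ≤ k6aW i := k6a1_vbin_diam i hV
  have a3 := k6a1_bin_diam i hb
  have a4 := (hD.bd e0.1).2.1
  have e1 : D.y e.1 e.2 - D.y e0.1 e0.2 = (D.y0 e.1 - D.y0 e0.1) + e.2 • (D.V e.1 - D.V e0.1) + (e.2 - e0.2) • D.V e0.1 := by
    unfold K6aDat.y
    module
  rw [e1]
  refine (norm_add_le _ _).trans ?_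
  have b1 := norm_add_le (D.y0 e.1 - D.y0 e0.1) (e.2 • (D.V e.1 - D.V e0.1))
  rw [norm_smul, Real.norm_eq_abs, abs_of_nonneg ht.1] at b1
  rw [norm_smul, Real.norm_eq_abs]
  have b2 : e.2 * ‖D.V e.1 - D.V e0.1‖ ≤ 1 * k6aW i := mul_le_mul ht.2 a2 (norm_nonneg _) (by norm_num)
  have b3 : |e.2 - e0.2| * ‖D.V e0.1‖ ≤ k6aW i * K := mul_le_mul a3 a4 (norm_nonneg _) hW.le
  linarith

/-- **the `(t, X)`-support of the labels of an affine bin**: "`α` fixes `y` to `K` options per time cell, and (6.5) counts scalar options".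
PLAN: `≤ 2^i + 1` time bins (`k6a1_bin_unit`).   Two incidences of `α` in one time bin: `‖y - y'‖ ≤ ‖y0 - y0'‖ + |t| ‖V - V'‖ + |t - t'| ‖V'‖ ≤ (K + 2) W_i`: `≤ (2 K + 6)^j` bins of `y` (`k6a1_vbin_range`).   Per base cell `≤ K (2^i)^d` bins of `X` (`K6a1Fib`).
`k6a1_cnt_fib` twice, `k6a1_cnt_pair`;   `2^i (2^i)^d = (2^i)^(1+d)`. -/
theorem k6a1_aff_cells (j : ℕ) : ∃ C : ℕ, ∀ (D : K6aDat j) (d K : ℝ) (n0 : ℕ) (E : Set (D.L × ℝ)) (i : ℕ) (b0 bV : Fin j → ℤ), 1 ≤ K → 0 ≤ d → D.WF K →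
    E ⊆ Set.univ ×ˢ Set.Icc (0 : ℝ) 1 → K6a1Fib D d K n0 E → i ≤ n0 →
    k6a1Cnt (E ∩ {e | k6aVBin i (D.y0 e.1) = b0 ∧ D.vb i e.1 = bV}) (fun e => (k6aBin i e.2, k6aBin i (D.X e.1 e.2))) (k6a1K C K * ((2 : ℝ) ^ i) ^ (1 + d)) := by
  classical
  refine ⟨2 * 8 ^ j + (j + 1), ?_⟩
  intro D d K n0 E i b0 bV hK hd hD hsub hFib hi
  have hK0 : 0 ≤ K := by linarith
  have hW := k6a1_W_pos i
  obtain ⟨A, hA⟩ : ∃ A, A = E ∩ {e : D.L × ℝ | k6aVBin i (D.y0 e.1) = b0 ∧ D.vb i e.1 = bV} := ⟨_, rfl⟩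
  rw [← hA]
  have hT : k6a1Cnt A (fun e => k6aBin i e.2) (2 ^ i + 1) := by
    obtain ⟨F, hF, hm⟩ := k6a1_bin_unit i
    refine ⟨F, hF, fun e he => hm e.2 ?_⟩
    rw [hA] at he
    exact (hsub he.1).2
  have hZ : k6a1Cnt A (D.zc i) ((2 ^ i + 1) * (2 * K + 6) ^ j) := by
    refine k6a1_cnt_fib hT (by positivity) ?_
    intro a
    by_cases hne : (A ∩ (fun e : D.L × ℝ => k6aBin i e.2) ⁻¹' {a}).Nonempty
    · obtain ⟨e0, he0, ha0⟩ := hne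
      obtain ⟨F, hF, hm⟩ := k6a1_vbin_range (n := j) i (D.y e0.1 e0.2) ((K + 2) * k6aW i) (by positivity)
      refine ⟨F.image (fun v => (a, v)), ?_, ?_⟩
      · refine le_trans ?_ (hF.trans (le_of_eq ?_))
        · exact_mod_cast Finset.card_image_le
        · have := k6a1_W_mul i
          have e2 : 2 * ((K + 2) * k6aW i) * 2 ^ i + 2 = 2 * (K + 2) * (k6aW i * 2 ^ i) + 2 := by ring
          rw [e2, this]
          ring
      · rintro e ⟨he, ha⟩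
        rw [Finset.mem_image]
        refine ⟨k6aVBin i (D.y e.1 e.2), hm _ ?_, ?_⟩
        · rw [hA] at he he0
          have ha' : k6aBin i e.2 = a := ha
          have ha0' : k6aBin i e0.2 = a := ha0
          exact k6a1_aff_cells_y D hD i e e0 (hsub he.1).2 (he.2.1.trans he0.2.1.symm) (he.2.2.trans he0.2.2.symm)
            (ha'.trans ha0'.symm)
        · have ha' : k6aBin i e.2 = a := ha
          unfold K6aDat.zc
          rw [ha']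
    · refine ⟨∅, by simp; positivity, fun e he => absurd ⟨e, he⟩ hne⟩
  have h2d : 0 ≤ ((2 : ℝ) ^ i) ^ d := Real.rpow_nonneg (by positivity) d
  have hX : k6a1Cnt A (fun e => (k6aBin i e.2, k6aBin i (D.X e.1 e.2))) ((2 ^ i + 1) * (2 * K + 6) ^ j * (K * ((2 : ℝ) ^ i) ^ d)) := by
    refine k6a1_cnt_fib hZ (by positivity) ?_
    intro c
    obtain ⟨F, hF, hm⟩ := hFib i hi c
    refine ⟨F.image (fun x => (c.1, x)), ?_, ?_⟩
    · refine le_trans ?_ hF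
      exact_mod_cast Finset.card_image_le
    · rintro e ⟨he, hc⟩
      have hc' : D.zc i e = c := hc
      rw [Finset.mem_image]
      rw [hA] at he
      refine ⟨k6aBin i (D.X e.1 e.2), hm e he.1 hc', ?_⟩
      rw [← hc']
      rfl
  refine k6a1_cnt_mono hX subset_rfl ?_
  have hp : (1 : ℝ) ≤ 2 ^ i := one_le_pow₀ (by norm_num)
  have e3 : ((2 : ℝ) ^ i) ^ (1 + d) = 2 ^ i * ((2 : ℝ) ^ i) ^ d := by
    rw [Real.rpow_add (by positivity), Real.rpow_one]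
  have hKC := k6a1_K_of_pow (2 * 8 ^ j) (j + 1) hK
  push_cast at hKC
  have h6 : (2 * K + 6) ^ j ≤ (8 * K) ^ j := pow_le_pow_left₀ (by positivity) (by linarith) j
  rw [e3]
  calc (2 ^ i + 1) * (2 * K + 6) ^ j * (K * ((2 : ℝ) ^ i) ^ d)
      ≤ (2 * 2 ^ i) * (8 * K) ^ j * (K * ((2 : ℝ) ^ i) ^ d) := by
        refine mul_le_mul_of_nonneg_right ?_ (by positivity)
        exact mul_le_mul (by linarith) h6 (by positivity) (by positivity)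
    _ = (2 * 8 ^ j * K ^ (j + 1)) * (2 ^ i * ((2 : ℝ) ^ i) ^ d) := by
        rw [mul_pow, pow_succ]
        ring
    _ ≤ _ := mul_le_mul_of_nonneg_right hKC (by positivity)

/-- F4 helper: the floor of `x / W_i` is the bin -/
theorem k6a1_f4_floor (i : ℕ) (x : ℝ) : ⌊x / k6aW i⌋ = k6aBin i x := by
  unfold k6aBin k6aW
  congr 1
  rw [one_div, inv_pow, div_inv_eq_mul]

/-- F4 helper: negative powers of the width -/
theorem k6a1_f4_rpow_neg (i : ℕ) (s : ℝ) : k6aW i ^ (-s) = ((2 : ℝ) ^ i) ^ s := by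
  unfold k6aW
  rw [one_div, inv_pow, Real.inv_rpow (by positivity), Real.rpow_neg (by positivity), inv_inv]

/-- F4 helper: `W^s (2^i)^s = 1` -/
theorem k6a1_f4_rpow_mul (i : ℕ) (s : ℝ) : k6aW i ^ s * ((2 : ℝ) ^ i) ^ s = 1 := by
  rw [← k6a1_f4_rpow_neg, ← Real.rpow_add (k6a1_W_pos i), add_neg_cancel, Real.rpow_zero]

/-- F4 helper: the density bound -/
theorem k6a1_f4_dens (j C₁ : ℕ) (hC : 4 ^ j + (j + 1) ≤ C₁) {K η : ℝ} (hK : 1 ≤ K) (hη : 0 < η) (hη1 : η ≤ 1) :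
    1 / k6a1K C₁ (K / η) ≤ η / (4 * K) ^ j := by
  have hX : 1 ≤ K / η := by
    rw [le_div_iff₀ hη]; linarith
  have hKX : K ≤ K / η := by
    rw [le_div_iff₀ hη]; nlinarith
  have h1 : (4 * K) ^ j / η ≤ k6a1K C₁ (K / η) := by
    calc (4 * K) ^ j / η = 4 ^ j * (K ^ j * (1 / η)) := by rw [mul_pow]; ring
      _ ≤ 4 ^ j * ((K / η) ^ j * (K / η)) := by
          have : 1 / η ≤ K / η := by gcongr
          gcongr
      _ = ((4 ^ j : ℕ) : ℝ) * (K / η) ^ (j + 1) := by push_cast; ring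
      _ ≤ k6a1K (4 ^ j + (j + 1)) (K / η) := k6a1_K_of_pow _ _ hX
      _ ≤ k6a1K C₁ (K / η) := k6a1_K_mono hC hX le_rfl
  have h4 : (0 : ℝ) < (4 * K) ^ j := by positivity
  have h5 : 0 < (4 * K) ^ j / η := by positivity
  calc 1 / k6a1K C₁ (K / η) ≤ 1 / ((4 * K) ^ j / η) := one_div_le_one_div_of_le h5 h1
    _ = η / (4 * K) ^ j := by rw [one_div_div]

/-- F4 helper: the constant of the cluster lemma in the `k6a1K` calculus -/
theorem k6a1_f4_const (C5 : ℝ) (hC5 : 1 ≤ C5) (C₁ : ℕ) (hC₁ : 1 ≤ C₁) {X : ℝ} (hX : 1 ≤ X) :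
    C5 * k6a1K C₁ X ^ C5 ≤ k6a1K (⌈C5⌉₊ * C₁ ^ ⌈C5⌉₊ + C₁ * ⌈C5⌉₊) X := by
  have h1 : 1 ≤ k6a1K C₁ X := k6a1_K_one_le hC₁ hX
  have h2 : C5 ≤ (⌈C5⌉₊ : ℝ) := Nat.le_ceil _
  calc C5 * k6a1K C₁ X ^ C5 ≤ (⌈C5⌉₊ : ℝ) * k6a1K C₁ X ^ ((⌈C5⌉₊ : ℕ) : ℝ) := by
        have := Real.rpow_le_rpow_of_exponent_le h1 h2
        have h3 : 0 ≤ k6a1K C₁ X ^ C5 := by positivity
        exact mul_le_mul h2 this h3 (by positivity)
    _ = k6a1K ⌈C5⌉₊ (k6a1K C₁ X) := by rw [Real.rpow_natCast]; rfl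
    _ ≤ _ := k6a1_K_comp _ _ hX

/-- F4 helper: the prior of a family in `[0,1]` is the product mass of its part in `[0,1)` -/
theorem k6a1_f4_prior (D : K6aDat j) {K : ℝ} (hD : D.WF K) (A : Set (D.L × ℝ)) (hA : MeasurableSet A) :
    D.prior A ≤ (D.ν.prod volume) (A ∩ {e | e.2 < 1}) := by
  have := hD.prob
  have h1 : D.prior = (D.ν.prod volume).restrict (Set.univ ×ˢ Set.Icc (0 : ℝ) 1) := by
    unfold K6aDat.prior
    rw [← Measure.prod_restrict, Measure.restrict_univ]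
  rw [h1, Measure.restrict_apply hA]
  have h2 : A ∩ Set.univ ×ˢ Set.Icc (0 : ℝ) 1 ⊆ (A ∩ {e | e.2 < 1}) ∪ (Set.univ ×ˢ {(1 : ℝ)}) := by
    rintro e ⟨he, -, he2⟩
    rcases lt_or_eq_of_le he2.2 with h | h
    · exact Or.inl ⟨he, h⟩
    · exact Or.inr ⟨trivial, h⟩
  refine (measure_mono h2).trans ((measure_union_le _ _).trans ?_)
  rw [Measure.prod_prod]
  simp

/-- **the lower half of (6.6), one level**: the incidences on lines whose block is lighter than `p^(j+d+ε₀) Π / (C (K/η)^C)` carry mass `≤ η`.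
PLAN: by contradiction: `A = E ∩ (Low × univ)` (measurable, `k6a1_low_meas`), `prior A > η`.   `k6a1_aff_pick`: an affine bin `α = (b0, bV)` with `prior (A ∩ α) > (η / (4K)^j) p^j Π`; hence `prior (A ∩ α) > 0`, and `Π ≠ 0` (`Π = 0` makes no line light); `Π ≤ 1`.
`S = Lc ∩ α ∩ Low`, `c = p^j Π.toReal > 0`, `ν̃ = (ofReal c)⁻¹ • ν.restrict S`, `a = D.xc`, `Ẽ = A ∩ α ∩ {t < 1}` (`{t = 1}` is null).   Hypotheses of `k5_cluster d ε₀` with `K̃ = C₁ (K/η)^C₁`: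
mass `≤ K̃` and balls `≤ K̃ r^d` : `k6a1_aff_ball`;   `k5_mass ν̃ Ẽ = prior (A ∩ α) / c ≥ η / (4K)^j` (`Ẽ ⊆ S × [0,1)`; `Measure.prod_smul_left`, `Measure.prod_restrict`);   squares: `k6a1_aff_cells`, `⌊t / p⌋ = k6aBin i t` (`t / (1/2)^i = t * 2^i`), `p^(-1-d) = (2^i)^(1+d)`.
Conclusion: a scalar bin `B` with `ν (S ∩ {xc-bin = B}) ≥ c p^(d+ε₀) / (C K̃^C) > 0`; so the block `(b0, bV, B)` contains a light line, is light (`k6a1_low_block`), and `ν (Lc ∩ block) ≥ p^(j+d+ε₀) Π / (C K̃^C)`: contradiction with lightness for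
`Kf = C K̃^C p^(-ε₀)`, `p^(-ε₀) = (2^i)^ε₀`. -/
theorem k6a1_floor_level (j : ℕ) (d ε₀ : ℝ) (hd : 0 ≤ d) (hd1 : d < 1) (hε : 0 < ε₀) : ∃ C : ℕ, ∀ (D : K6aDat j) (K η : ℝ) (n0 : ℕ) (E : Set (D.L × ℝ)) (Lc : Set D.L) (i : ℕ),
    1 ≤ K → 0 < η → η ≤ 1 → D.WF K → MeasurableSet E → MeasurableSet Lc → E ⊆ Lc ×ˢ Set.Icc (0 : ℝ) 1 → K6a1Coef D d K n0 Lc → K6a1Fib D d K n0 E → i ≤ n0 →
    D.prior (E ∩ {e | e.1 ∈ k6a1Low D d (k6a1K C (K / η) * ((2 : ℝ) ^ i) ^ ε₀) i Lc}) ≤ ENNReal.ofReal η := by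
  obtain ⟨Ca, hCa⟩ := k6a1_aff_ball j d hd
  obtain ⟨Cb, hCb⟩ := k6a1_aff_cells j
  obtain ⟨C5, hC51, h5⟩ := k5_cluster d ε₀ hd hd1 hε
  obtain ⟨C₁, hC₁1, hC₁a, hC₁b, hC₁4⟩ : ∃ C₁ : ℕ, 1 ≤ C₁ ∧ Ca ≤ C₁ ∧ Cb ≤ C₁ ∧ 4 ^ j + (j + 1) ≤ C₁ := by
    refine ⟨Ca + Cb + 4 ^ j + j + 2, ?_, ?_, ?_, ?_⟩ <;> generalize 4 ^ j = q <;> omega
  refine ⟨⌈C5⌉₊ * C₁ ^ ⌈C5⌉₊ + C₁ * ⌈C5⌉₊, fun D K η n0 E Lc i hK hη hη1 hD hE hLc hsub hcoef hfib hi => ?_⟩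
  have hprob := hD.prob
  by_contra hcon
  rw [not_le] at hcon
  obtain ⟨X, hXdef⟩ : ∃ X : ℝ, X = K / η := ⟨_, rfl⟩
  rw [← hXdef] at hcon
  have hX : 1 ≤ X := by
    rw [hXdef, le_div_iff₀ hη]; linarith
  have hKX : K ≤ X := by
    rw [hXdef, le_div_iff₀ hη]; nlinarith
  obtain ⟨Kt, hKt⟩ : ∃ Kt : ℝ, Kt = k6a1K C₁ X := ⟨_, rfl⟩
  have hKt1 : 1 ≤ Kt := hKt ▸ k6a1_K_one_le hC₁1 hX
  have hKKt : K ≤ Kt := hKX.trans (hKt ▸ k6a1_K_ge hC₁1 hX)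
  have hCaKt : k6a1K Ca K ≤ Kt := hKt ▸ k6a1_K_mono hC₁a hK hKX
  have hCbKt : k6a1K Cb K ≤ Kt := hKt ▸ k6a1_K_mono hC₁b hK hKX
  obtain ⟨Kc, hKc⟩ : ∃ Kc : ℝ, Kc = k6a1K (⌈C5⌉₊ * C₁ ^ ⌈C5⌉₊ + C₁ * ⌈C5⌉₊) X := ⟨_, rfl⟩
  rw [← hKc] at hcon
  have hconst : C5 * Kt ^ C5 ≤ Kc := by
    rw [hKt, hKc]; exact k6a1_f4_const C5 hC51 C₁ hC₁1 hX
  obtain ⟨Low, hLow⟩ : ∃ Low : Set D.L, Low = k6a1Low D d (Kc * ((2 : ℝ) ^ i) ^ ε₀) i Lc := ⟨_, rfl⟩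
  rw [← hLow] at hcon
  have hLowm : MeasurableSet Low := hLow ▸ k6a1_low_meas D hD d _ i Lc
  have hAm : MeasurableSet (E ∩ {e : D.L × ℝ | e.1 ∈ Low}) := hE.inter (measurable_fst hLowm)
  obtain ⟨b0, bV, hpick⟩ := k6a1_aff_pick D K η i _ hK hη hD hcon
  obtain ⟨p, hp⟩ : ∃ p : ℝ, p = k6aW i := ⟨_, rfl⟩
  have hp0 : 0 < p := hp ▸ k6a1_W_pos i
  have hp1 : p ≤ 1 := hp ▸ k6a1_W_le_one i
  obtain ⟨al, hal⟩ : ∃ al : Set D.L, al = {l | k6aVBin i (D.y0 l) = b0 ∧ D.vb i l = bV} := ⟨_, rfl⟩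
  have halm : MeasurableSet al := by
    rw [hal]
    exact (((k6a1_t3_vbin i).comp hD.m_y0) (measurableSet_singleton b0)).inter (k6a1_meas_vb D hD i bV)
  have hal' : {e : D.L × ℝ | k6aVBin i (D.y0 e.1) = b0 ∧ D.vb i e.1 = bV} = Prod.fst ⁻¹' al := by
    rw [hal]; rfl
  rw [hal', ← hp] at hpick
  have hAam : MeasurableSet (E ∩ {e : D.L × ℝ | e.1 ∈ Low} ∩ Prod.fst ⁻¹' al) := hAm.inter (measurable_fst halm)
  -- the palette mass of the bin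
  have hQ1 : D.pal (k6aCube i bV) ≤ 1 := (measure_mono (Set.subset_univ _)).trans hD.pal_le
  have hQt : D.pal (k6aCube i bV) ≠ ⊤ := ne_top_of_le_ne_top ENNReal.one_ne_top hQ1
  have hpos : 0 < D.prior (E ∩ {e : D.L × ℝ | e.1 ∈ Low} ∩ Prod.fst ⁻¹' al) := lt_of_le_of_lt zero_le hpick
  have hQ0 : D.pal (k6aCube i bV) ≠ 0 := by
    intro h0
    obtain ⟨e, he⟩ := nonempty_of_measure_ne_zero hpos.ne'
    have he1 : e.1 ∈ Low := he.1.2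
    have he2 : D.vb i e.1 = bV := by
      have : e.1 ∈ al := he.2
      rw [hal] at this
      exact this.2
    rw [hLow] at he1
    apply he1
    rw [he2, h0, mul_zero]
    exact zero_le
  obtain ⟨P, hP⟩ : ∃ P : ℝ, P = (D.pal (k6aCube i bV)).toReal := ⟨_, rfl⟩
  have hP0 : 0 < P := hP ▸ ENNReal.toReal_pos hQ0 hQt
  have hQP : D.pal (k6aCube i bV) = ENNReal.ofReal P := by rw [hP, ENNReal.ofReal_toReal hQt]
  obtain ⟨c, hc⟩ : ∃ c : ℝ, c = p ^ j * P := ⟨_, rfl⟩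
  have hc0 : 0 < c := by rw [hc]; positivity
  obtain ⟨S, hS⟩ : ∃ S : Set D.L, S = Lc ∩ al ∩ Low := ⟨_, rfl⟩
  have hSm : MeasurableSet S := hS ▸ (hLc.inter halm).inter hLowm
  obtain ⟨Et, hEt⟩ : ∃ Et : Set (D.L × ℝ), Et = E ∩ {e : D.L × ℝ | e.1 ∈ Low} ∩ Prod.fst ⁻¹' al ∩ {e | e.2 < 1} := ⟨_, rfl⟩
  have hEtm : MeasurableSet Et := hEt ▸ hAam.inter (measurableSet_lt measurable_snd measurable_const)
  have hEtS : ∀ e ∈ Et, e.1 ∈ S := by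
    intro e he
    rw [hEt] at he
    rw [hS]
    exact ⟨⟨(hsub he.1.1.1).1, he.1.2⟩, he.1.1.2⟩
  obtain ⟨hball0, hball⟩ := hCa D K n0 Lc i b0 bV hK hD hcoef hi
  have hcells := hCb D d K n0 E i b0 bV hK hd hD (fun e he => ⟨trivial, (hsub he).2⟩) hfib hi
  have hCa0 : 0 ≤ k6a1K Ca K := k6a1_K_nonneg Ca (by linarith)
  rw [← hp, hQP, ← ENNReal.ofReal_mul (by positivity), ← hal] at hball0
  -- real forms of the caps
  have hcinv : c⁻¹ * c = 1 := inv_mul_cancel₀ hc0.ne'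
  have hmassS : D.ν.real S ≤ k6a1K Ca K * c := by
    have h1 : D.ν S ≤ ENNReal.ofReal (k6a1K Ca K * p ^ j * P) :=
      (measure_mono (by rw [hS]; exact Set.inter_subset_left)).trans hball0
    have h2 := ENNReal.toReal_mono ENNReal.ofReal_ne_top h1
    rw [ENNReal.toReal_ofReal (by positivity)] at h2
    rw [measureReal_def, hc]
    linarith
  have hballS : ∀ (r : ℝ) (b : Fin 3 → ℝ), p ≤ r → D.ν.real ({l | ‖D.xc l - b‖ ≤ r} ∩ S) ≤ k6a1K Ca K * c * r ^ d := by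
    intro r b hr
    have hr0 : 0 < r := lt_of_lt_of_le hp0 hr
    have h0 := hball r b (hp ▸ hr)
    rw [← hp, hQP, ← ENNReal.ofReal_mul (by positivity)] at h0
    have h1 : D.ν ({l | ‖D.xc l - b‖ ≤ r} ∩ S) ≤ ENNReal.ofReal (k6a1K Ca K * p ^ j * r ^ d * P) := by
      refine (measure_mono ?_).trans h0
      rintro l ⟨hl1, hl2⟩
      rw [hS, hal] at hl2
      exact ⟨hl2.1.1, hl2.1.2.1, hl2.1.2.2, hl1⟩
    have h2 := ENNReal.toReal_mono ENNReal.ofReal_ne_top h1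
    rw [ENNReal.toReal_ofReal (by positivity)] at h2
    rw [measureReal_def, hc]
    linarith
  have hmassE : η / (4 * K) ^ j * c ≤ k5_mass D.ν Et := by
    have h1 : ENNReal.ofReal (η / (4 * K) ^ j * p ^ j * P) ≤ (D.ν.prod volume) Et := by
      rw [ENNReal.ofReal_mul (by positivity), ← hQP, hEt]
      exact hpick.le.trans (k6a1_f4_prior D hD _ hAam)
    have hfin : (D.ν.prod volume) Et ≠ ⊤ := by
      refine ne_top_of_le_ne_top (b := (D.ν.prod volume) (Set.univ ×ˢ Set.Icc (0 : ℝ) 1)) ?_ (measure_mono ?_)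
      · rw [Measure.prod_prod]; simp
      · intro e he
        rw [hEt] at he
        exact ⟨trivial, (hsub he.1.1.1).2⟩
    have h2 := ENNReal.toReal_mono hfin h1
    rw [ENNReal.toReal_ofReal (by positivity)] at h2
    unfold k5_mass
    rw [measureReal_def, hc]
    linarith
  -- the normalised prior
  have hci0 : 0 ≤ c⁻¹ := (inv_pos.2 hc0).le
  haveI hfinT : IsFiniteMeasure (ENNReal.ofReal c⁻¹ • D.ν.restrict S) := Measure.smul_finite _ ENNReal.ofReal_ne_top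
  have hreal : ∀ T : Set D.L, MeasurableSet T → (ENNReal.ofReal c⁻¹ • D.ν.restrict S).real T = c⁻¹ * D.ν.real (T ∩ S) :=
    fun T hT => k5_real_smul_restrict hT c⁻¹ hci0
  have hH1 : (ENNReal.ofReal c⁻¹ • D.ν.restrict S).real Set.univ ≤ Kt := by
    rw [hreal _ MeasurableSet.univ, Set.univ_inter]
    calc c⁻¹ * D.ν.real S ≤ c⁻¹ * (k6a1K Ca K * c) := mul_le_mul_of_nonneg_left hmassS hci0
      _ = k6a1K Ca K * (c⁻¹ * c) := by ring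
      _ = k6a1K Ca K := by rw [hcinv, mul_one]
      _ ≤ Kt := hCaKt
  have hH2 : ∀ l, ‖D.xc l‖ ≤ Kt := fun l => (hD.bd l).2.2.trans hKKt
  have hH3 : ∀ l t, (l, t) ∈ Et → 0 ≤ t ∧ t < 1 := by
    intro l t he
    rw [hEt] at he
    exact ⟨(hsub he.1.1.1).2.1, he.2⟩
  have hH4 : 1 / Kt ≤ k5_mass (ENNReal.ofReal c⁻¹ • D.ν.restrict S) Et := by
    rw [k5_mass_smul_restrict hEtm hSm c⁻¹ hci0]
    have h1 : {x : D.L × ℝ | x ∈ Et ∧ x.1 ∈ S} = Et := by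
      ext x
      exact ⟨fun h => h.1, fun h => ⟨h, hEtS x h⟩⟩
    rw [h1]
    calc 1 / Kt ≤ η / (4 * K) ^ j := by
          rw [hKt, hXdef]; exact k6a1_f4_dens j C₁ hC₁4 hK hη hη1
      _ = c⁻¹ * (η / (4 * K) ^ j * c) := by
          rw [mul_comm (η / (4 * K) ^ j) c, ← mul_assoc, hcinv, one_mul]
      _ ≤ c⁻¹ * k5_mass D.ν Et := mul_le_mul_of_nonneg_left hmassE hci0
  have hH5 : ∃ Z : Finset (ℤ × ℤ), (Z.card : ℝ) ≤ Kt * p ^ (-1 - d) ∧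
      ∀ l t, (l, t) ∈ Et → (⌊t / p⌋, ⌊(D.xc l 0 + t * D.xc l 1 + t ^ 2 * D.xc l 2) / p⌋) ∈ Z := by
    obtain ⟨Z, hZ1, hZ2⟩ := hcells
    refine ⟨Z, hZ1.trans ?_, fun l t he => ?_⟩
    · rw [show (-1 - d) = -(1 + d) by ring, hp, k6a1_f4_rpow_neg]
      exact mul_le_mul_of_nonneg_right hCbKt (by positivity)
    · rw [hEt] at he
      have h1 := hZ2 (l, t) ⟨he.1.1.1, by rw [hal']; exact he.1.2⟩
      rw [hp, k6a1_f4_floor, k6a1_f4_floor]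
      have h2 : D.xc l 0 + t * D.xc l 1 + t ^ 2 * D.xc l 2 = D.X l t := by
        unfold K6aDat.X; ring
      rw [h2]
      exact h1
  have hmb : ∀ (r : ℝ) (b : Fin 3 → ℝ), MeasurableSet {l | ‖D.xc l - b‖ ≤ r} := fun r b =>
    measurableSet_le (hD.m_xc.sub_const b).norm measurable_const
  have hH6 : ∀ (r : ℝ) (b : Fin 3 → ℝ), p ≤ r → (ENNReal.ofReal c⁻¹ • D.ν.restrict S).real {l | ‖D.xc l - b‖ ≤ r} ≤ Kt * r ^ d := by
    intro r b hr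
    have hr0 : 0 < r := lt_of_lt_of_le hp0 hr
    rw [hreal _ (hmb r b)]
    calc c⁻¹ * D.ν.real ({l | ‖D.xc l - b‖ ≤ r} ∩ S) ≤ c⁻¹ * (k6a1K Ca K * c * r ^ d) :=
          mul_le_mul_of_nonneg_left (hballS r b hr) hci0
      _ = k6a1K Ca K * r ^ d * (c⁻¹ * c) := by ring
      _ = k6a1K Ca K * r ^ d := by rw [hcinv, mul_one]
      _ ≤ Kt * r ^ d := mul_le_mul_of_nonneg_right hCaKt (by positivity)
  obtain ⟨B, hB⟩ := h5 D.L (ENNReal.ofReal c⁻¹ • D.ν.restrict S) D.xc Et Kt p hD.m_xc hEtm hKt1 hp0 hp1 hH1 hH2 hH3 hH4 hH5 hH6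
  -- the heavy scalar bin
  have hTm : MeasurableSet {l : D.L | k6aVBin i (D.xc l) = B} := ((k6a1_t3_vbin i).comp hD.m_xc) (measurableSet_singleton B)
  have hB2 : p ^ (d + ε₀) / (C5 * Kt ^ C5) ≤ c⁻¹ * D.ν.real ({l : D.L | k6aVBin i (D.xc l) = B} ∩ S) := by
    rw [← hreal _ hTm]
    refine hB.trans (measureReal_mono ?_)
    rintro l ⟨hl, -⟩
    funext a
    have := hl a
    rw [hp, k6a1_f4_floor] at this
    exact this
  have hden : 0 < C5 * Kt ^ C5 := by positivity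
  have hB3 : c * (p ^ (d + ε₀) / (C5 * Kt ^ C5)) ≤ D.ν.real ({l : D.L | k6aVBin i (D.xc l) = B} ∩ S) := by
    calc c * (p ^ (d + ε₀) / (C5 * Kt ^ C5)) ≤ c * (c⁻¹ * D.ν.real ({l : D.L | k6aVBin i (D.xc l) = B} ∩ S)) :=
          mul_le_mul_of_nonneg_left hB2 hc0.le
      _ = D.ν.real ({l : D.L | k6aVBin i (D.xc l) = B} ∩ S) := by
          rw [← mul_assoc, mul_comm c, hcinv, one_mul]
  have hpos3 : 0 < D.ν.real ({l : D.L | k6aVBin i (D.xc l) = B} ∩ S) := lt_of_lt_of_le (by positivity) hB3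
  obtain ⟨l0, hl0⟩ : ({l : D.L | k6aVBin i (D.xc l) = B} ∩ S).Nonempty := by
    apply nonempty_of_measure_ne_zero (μ := D.ν)
    intro h0
    rw [measureReal_def, h0] at hpos3
    simp at hpos3
  have hl0S := hl0.2
  rw [hS, hal] at hl0S
  have hl0Low : l0 ∈ Low := hl0S.2
  have hbc0 : D.bc i l0 = (b0, bV, B) := by
    unfold K6aDat.bc
    rw [hl0S.1.2.1, show k6aVBin i (D.V l0) = bV from hl0S.1.2.2, show k6aVBin i (D.xc l0) = B from hl0.1]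
  rw [hLow] at hl0Low
  apply hl0Low
  rw [show D.vb i l0 = bV from hl0S.1.2.2, hbc0, hQP, ← hp]
  have hsubB : {l : D.L | k6aVBin i (D.xc l) = B} ∩ S ⊆ Lc ∩ D.bc i ⁻¹' {(b0, bV, B)} := by
    rintro l ⟨hl1, hl2⟩
    rw [hS, hal] at hl2
    refine ⟨hl2.1.1, ?_⟩
    show D.bc i l = (b0, bV, B)
    unfold K6aDat.bc
    rw [hl2.1.2.1, show k6aVBin i (D.V l) = bV from hl2.1.2.2, show k6aVBin i (D.xc l) = B from hl1]
  have hB4 : ENNReal.ofReal (c * (p ^ (d + ε₀) / (C5 * Kt ^ C5))) ≤ D.ν (Lc ∩ D.bc i ⁻¹' {(b0, bV, B)}) := by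
    refine le_trans ?_ (measure_mono hsubB)
    rw [← ENNReal.ofReal_toReal (measure_ne_top D.ν _)]
    exact ENNReal.ofReal_le_ofReal hB3
  have hKc0 : 0 < Kc := lt_of_lt_of_le hden hconst
  calc ENNReal.ofReal (p ^ ((j : ℝ) + d)) * ENNReal.ofReal P
      = ENNReal.ofReal (p ^ ((j : ℝ) + d) * P) := (ENNReal.ofReal_mul (by positivity)).symm
    _ ≤ ENNReal.ofReal (Kc * ((2 : ℝ) ^ i) ^ ε₀ * (c * (p ^ (d + ε₀) / (C5 * Kt ^ C5)))) := by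
        apply ENNReal.ofReal_le_ofReal
        have e1 : p ^ ((j : ℝ) + d) = p ^ j * p ^ d := by
          rw [Real.rpow_add hp0, Real.rpow_natCast]
        have e2 : p ^ (d + ε₀) = p ^ d * p ^ ε₀ := Real.rpow_add hp0 _ _
        have e3 : p ^ ε₀ * ((2 : ℝ) ^ i) ^ ε₀ = 1 := hp ▸ k6a1_f4_rpow_mul i ε₀
        have e4 : 1 ≤ Kc / (C5 * Kt ^ C5) := by rwa [le_div_iff₀ hden, one_mul]
        calc p ^ ((j : ℝ) + d) * P = (p ^ j * P * p ^ d) * 1 := by rw [e1]; ring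
          _ ≤ (p ^ j * P * p ^ d) * (Kc / (C5 * Kt ^ C5)) := mul_le_mul_of_nonneg_left e4 (by positivity)
          _ = (p ^ j * P * p ^ d) * (Kc / (C5 * Kt ^ C5)) * (p ^ ε₀ * ((2 : ℝ) ^ i) ^ ε₀) := by rw [e3, mul_one]
          _ = Kc * ((2 : ℝ) ^ i) ^ ε₀ * (c * (p ^ (d + ε₀) / (C5 * Kt ^ C5))) := by rw [e2, hc]; ring
    _ = ENNReal.ofReal (Kc * ((2 : ℝ) ^ i) ^ ε₀) * ENNReal.ofReal (c * (p ^ (d + ε₀) / (C5 * Kt ^ C5))) :=
        ENNReal.ofReal_mul (by positivity)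
    _ ≤ ENNReal.ofReal (Kc * ((2 : ℝ) ^ i) ^ ε₀) * D.ν (Lc ∩ D.bc i ⁻¹' {(b0, bV, B)}) := by gcongr

/-- **the lower half of (6.6), all levels** (`E' = E \ ⋃_{i ≤ n0} Low_i × univ`, budget `η / (n0 + 1)` per level; `(2^i)^ε₀ ≤ (2^n0)^ε₀`; a larger slack makes fewer lines light) -/
theorem k6a1_floor (j : ℕ) (d ε₀ : ℝ) (hd : 0 ≤ d) (hd1 : d < 1) (hε : 0 < ε₀) : ∃ C : ℕ, ∀ (D : K6aDat j) (K η : ℝ) (n0 : ℕ) (E : Set (D.L × ℝ)) (Lc : Set D.L),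
    1 ≤ K → 0 < η → η ≤ 1 → D.WF K → MeasurableSet E → MeasurableSet Lc → E ⊆ Lc ×ˢ Set.Icc (0 : ℝ) 1 → K6a1Coef D d K n0 Lc → K6a1Fib D d K n0 E →
    ∃ E' : Set (D.L × ℝ), MeasurableSet E' ∧ E' ⊆ E ∧ D.prior (E \ E') ≤ ENNReal.ofReal η ∧
      K6a1Lo D d (k6a1K C (K * (n0 + 1) / η) * ((2 : ℝ) ^ n0) ^ ε₀) n0 E' Lc := by
  classical
  obtain ⟨C, hC⟩ := k6a1_floor_level j d ε₀ hd hd1 hε
  refine ⟨C, ?_⟩
  intro D K η n0 E Lc hK hη hη1 hD hE hLc hsub hCoef hFib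
  have hn : (0 : ℝ) < (n0 : ℝ) + 1 := by positivity
  obtain ⟨η', hη'⟩ : ∃ η', η' = η / ((n0 : ℝ) + 1) := ⟨_, rfl⟩
  have hη'0 : 0 < η' := by rw [hη']; positivity
  have hη'1 : η' ≤ 1 := by
    rw [hη', div_le_one hn]
    have : (0 : ℝ) ≤ n0 := Nat.cast_nonneg _
    linarith
  have hKη : K / η' = K * (n0 + 1) / η := by
    rw [hη']
    field_simp
  obtain ⟨Bd, hBd⟩ : ∃ Bd : ℕ → Set (D.L × ℝ), Bd = fun i => {e : D.L × ℝ | e.1 ∈ k6a1Low D d (k6a1K C (K / η') * ((2 : ℝ) ^ i) ^ ε₀) i Lc} := ⟨_, rfl⟩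
  have hBdm : ∀ i, MeasurableSet (Bd i) := by
    intro i
    rw [hBd]
    exact measurable_fst (k6a1_low_meas D hD d _ i Lc)
  refine ⟨E \ ⋃ i ∈ Finset.range (n0 + 1), Bd i, ?_, Set.sdiff_subset, ?_, ?_⟩
  · exact hE.diff (Finset.measurableSet_biUnion _ fun i _ => hBdm i)
  · have e1 : E \ (E \ ⋃ i ∈ Finset.range (n0 + 1), Bd i) ⊆ ⋃ i ∈ Finset.range (n0 + 1), (E ∩ Bd i) := by
      rintro e ⟨he, hne⟩
      have : e ∈ ⋃ i ∈ Finset.range (n0 + 1), Bd i := by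
        by_contra hcon
        exact hne ⟨he, hcon⟩
      simp only [Set.mem_iUnion] at this ⊢
      obtain ⟨i, hi, hei⟩ := this
      exact ⟨i, hi, he, hei⟩
    refine (measure_mono e1).trans ((measure_biUnion_finset_le _ _).trans ?_)
    have h2 : ∀ i ∈ Finset.range (n0 + 1), D.prior (E ∩ Bd i) ≤ ENNReal.ofReal η' := by
      intro i hi
      rw [hBd]
      exact hC D K η' n0 E Lc i hK hη'0 hη'1 hD hE hLc hsub hCoef hFib (Nat.lt_succ_iff.1 (Finset.mem_range.1 hi))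
    refine (Finset.sum_le_card_nsmul _ _ _ h2).trans ?_
    rw [Finset.card_range, nsmul_eq_mul, ← ENNReal.ofReal_natCast, ← ENNReal.ofReal_mul (Nat.cast_nonneg _)]
    apply ENNReal.ofReal_le_ofReal
    rw [hη']
    push_cast
    field_simp
    exact le_rfl
  · intro i hi e he
    have hne : e ∉ Bd i := by
      intro hcon
      apply he.2
      simp only [Set.mem_iUnion]
      exact ⟨i, Finset.mem_range.2 (Nat.lt_succ_iff.2 hi), hcon⟩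
    rw [hBd] at hne
    have h3 : ENNReal.ofReal (k6aW i ^ ((j : ℝ) + d)) * D.pal (k6aCube i (D.vb i e.1))
        ≤ ENNReal.ofReal (k6a1K C (K / η') * ((2 : ℝ) ^ i) ^ ε₀) * D.ν (Lc ∩ D.bc i ⁻¹' {D.bc i e.1}) := by
      by_contra hcon
      exact hne hcon
    refine h3.trans (mul_le_mul' (ENNReal.ofReal_le_ofReal ?_) le_rfl)
    rw [hKη]
    refine mul_le_mul_of_nonneg_left ?_ (k6a1_K_nonneg _ (by positivity))
    refine Real.rpow_le_rpow (by positivity) ?_ hε.le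
    exact pow_le_pow_right₀ (by norm_num) hi

/-! ## 2. the lists of blocks -/

/-- two incidences of one block in one time bin: the positions are close -/
theorem k6a1_blk_y_close (D : K6aDat j) {K : ℝ} (hD : D.WF K) (i : ℕ) {e e' : D.L × ℝ} (ht : e.2 ∈ Set.Icc (0 : ℝ) 1)
    (hb : D.bc i e.1 = D.bc i e'.1) (hbin : k6aBin i e.2 = k6aBin i e'.2) : ‖D.y e.1 e.2 - D.y e'.1 e'.2‖ ≤ (K + 2) * k6aW i := by
  have h1 : k6aVBin i (D.y0 e.1) = k6aVBin i (D.y0 e'.1) := congrArg (fun x => x.1) hb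
  have h2 : k6aVBin i (D.V e.1) = k6aVBin i (D.V e'.1) := congrArg (fun x => x.2.1) hb
  have d1 := k6a1_vbin_diam i h1
  have d2 := k6a1_vbin_diam i h2
  have d3 := k6a1_bin_diam i hbin
  have e1 : D.y e.1 e.2 - D.y e'.1 e'.2 = (D.y0 e.1 - D.y0 e'.1) + e.2 • (D.V e.1 - D.V e'.1) + (e.2 - e'.2) • D.V e'.1 := by
    unfold K6aDat.y
    module
  rw [e1]
  have n1 : ‖e.2 • (D.V e.1 - D.V e'.1)‖ ≤ 1 * k6aW i := by
    rw [norm_smul, Real.norm_eq_abs, abs_of_nonneg ht.1]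
    exact mul_le_mul ht.2 d2 (norm_nonneg _) zero_le_one
  have n2 : ‖(e.2 - e'.2) • D.V e'.1‖ ≤ k6aW i * K := by
    rw [norm_smul, Real.norm_eq_abs]
    exact mul_le_mul d3 (hD.bd e'.1).2.1 (norm_nonneg _) (k6a1_W_pos i).le
  calc _ ≤ ‖D.y0 e.1 - D.y0 e'.1‖ + ‖e.2 • (D.V e.1 - D.V e'.1)‖ + ‖(e.2 - e'.2) • D.V e'.1‖ := norm_add₃_le
    _ ≤ k6aW i + 1 * k6aW i + k6aW i * K := by gcongr
    _ = _ := by ring

/-- two incidences of one block in one time bin: the signals are close -/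
theorem k6a1_blk_X_close (D : K6aDat j) {K : ℝ} (hD : D.WF K) (i : ℕ) {e e' : D.L × ℝ} (ht : e.2 ∈ Set.Icc (0 : ℝ) 1) (ht' : e'.2 ∈ Set.Icc (0 : ℝ) 1)
    (hb : D.bc i e.1 = D.bc i e'.1) (hbin : k6aBin i e.2 = k6aBin i e'.2) : |D.X e.1 e.2 - D.X e'.1 e'.2| ≤ (3 * K + 3) * k6aW i := by
  have h3 : k6aVBin i (D.xc e.1) = k6aVBin i (D.xc e'.1) := congrArg (fun x => x.2.2) hb
  have d3 := k6a1_bin_diam i hbin
  have c0 := k6a1_bin_diam i (congrFun h3 0)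
  have c1 := k6a1_bin_diam i (congrFun h3 1)
  have c2 := k6a1_bin_diam i (congrFun h3 2)
  have l1 := k6a1_X_lip D hD e.1 e.2 e'.2 ht ht'
  have hK : 0 ≤ K := (norm_nonneg _).trans (hD.bd e.1).1
  have l2 : |D.X e.1 e'.2 - D.X e'.1 e'.2| ≤ 3 * k6aW i := by
    have : D.X e.1 e'.2 - D.X e'.1 e'.2 = (D.xc e.1 0 - D.xc e'.1 0) + (D.xc e.1 1 - D.xc e'.1 1) * e'.2 + (D.xc e.1 2 - D.xc e'.1 2) * e'.2 ^ 2 := by
      unfold K6aDat.X
      ring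
    rw [this]
    refine (abs_add_three _ _ _).trans ?_
    rw [abs_mul, abs_mul, abs_of_nonneg ht'.1, abs_of_nonneg (pow_nonneg ht'.1 2)]
    have t2 : e'.2 ^ 2 ≤ 1 := pow_le_one₀ ht'.1 ht'.2
    have m1 := mul_le_mul c1 ht'.2 ht'.1 (k6a1_W_pos i).le
    have m2 := mul_le_mul c2 t2 (pow_nonneg ht'.1 2) (k6a1_W_pos i).le
    linarith
  have l3 : 3 * K * |e.2 - e'.2| ≤ 3 * K * k6aW i := by gcongr
  calc |D.X e.1 e.2 - D.X e'.1 e'.2| = |(D.X e.1 e.2 - D.X e.1 e'.2) + (D.X e.1 e'.2 - D.X e'.1 e'.2)| := by ring_nf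
    _ ≤ |D.X e.1 e.2 - D.X e.1 e'.2| + |D.X e.1 e'.2 - D.X e'.1 e'.2| := abs_add_le _ _
    _ ≤ _ := by linarith

/-- **a block uses `≤ K / p` physical cells.**
PLAN: `≤ 2^i + 1 ≤ 2 * 2^i` time bins; for two incidences of the block in one time bin: `‖y - y'‖ ≤ (K + 2) W_i` (as in `k6a1_aff_cells`), `|X_l(t) - X_{l'}(t')| ≤ |X_l(t) - X_l(t')| + |X_l(t') - X_{l'}(t')| ≤ 3 K W_i + 3 W_i` (`k6a1_X_lip`, `k6a1_vbin_diam`, `t' ∈ [0,1]`). -/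
theorem k6a1_blk_cells (j : ℕ) : ∃ C : ℕ, ∀ (D : K6aDat j) (K : ℝ) (i : ℕ) (B : K6aBc j), 1 ≤ K → D.WF K →
    k6a1Cnt {e : D.L × ℝ | e.2 ∈ Set.Icc (0 : ℝ) 1 ∧ D.bc i e.1 = B} (D.wc i) (k6a1K C K * 2 ^ i) := by
  refine ⟨28 * 8 ^ j + (j + 1), fun D K i B hK hD => ?_⟩
  have hW := k6a1_W_pos i
  have hWm := k6a1_W_mul i
  have hp : (1 : ℝ) ≤ 2 ^ i := one_le_pow₀ (by norm_num)
  have h1 : k6a1Cnt {e : D.L × ℝ | e.2 ∈ Set.Icc (0 : ℝ) 1 ∧ D.bc i e.1 = B} (fun e => k6aBin i e.2) (2 ^ i + 1) :=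
    k6a1_cnt_mono (k6a1_cnt_pre (k6a1_bin_unit i) (Prod.snd : D.L × ℝ → ℝ)) (fun e he => he.1) le_rfl
  have h2 : ∀ a : ℤ, k6a1Cnt ({e : D.L × ℝ | e.2 ∈ Set.Icc (0 : ℝ) 1 ∧ D.bc i e.1 = B} ∩ (fun e => k6aBin i e.2) ⁻¹' {a}) (D.wc i)
      ((2 * K + 6) ^ j * (6 * K + 8)) := by
    intro a
    by_cases hne : ({e : D.L × ℝ | e.2 ∈ Set.Icc (0 : ℝ) 1 ∧ D.bc i e.1 = B} ∩ (fun e => k6aBin i e.2) ⁻¹' {a}).Nonempty
    swap
    · exact ⟨∅, by simp; positivity, fun e he => absurd ⟨e, he⟩ hne⟩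
    obtain ⟨e0, ⟨ht0, hb0⟩, ha0⟩ := hne
    have ha0' : k6aBin i e0.2 = a := ha0
    have y1 : k6a1Cnt ({e : D.L × ℝ | e.2 ∈ Set.Icc (0 : ℝ) 1 ∧ D.bc i e.1 = B} ∩ (fun e => k6aBin i e.2) ⁻¹' {a})
        (fun e => k6aVBin i (D.y e.1 e.2)) ((2 * K + 6) ^ j) := by
      refine k6a1_cnt_mono (k6a1_cnt_pre (k6a1_vbin_range i (D.y e0.1 e0.2) ((K + 2) * k6aW i) (by positivity))
        (fun e : D.L × ℝ => D.y e.1 e.2)) ?_ (le_of_eq ?_)
      · rintro e ⟨⟨ht, hb⟩, ha⟩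
        exact k6a1_blk_y_close D hD i ht (hb.trans hb0.symm) (Eq.trans ha ha0'.symm)
      · congr 1
        calc 2 * ((K + 2) * k6aW i) * 2 ^ i + 2 = 2 * (K + 2) * (k6aW i * 2 ^ i) + 2 := by ring
          _ = _ := by rw [hWm]; ring
    have x1 : k6a1Cnt ({e : D.L × ℝ | e.2 ∈ Set.Icc (0 : ℝ) 1 ∧ D.bc i e.1 = B} ∩ (fun e => k6aBin i e.2) ⁻¹' {a})
        (fun e => k6aBin i (D.X e.1 e.2)) (6 * K + 8) := by
      refine k6a1_cnt_mono (k6a1_cnt_pre (k6a1_bin_range i (D.X e0.1 e0.2) ((3 * K + 3) * k6aW i) (by positivity))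
        (fun e : D.L × ℝ => D.X e.1 e.2)) ?_ (le_of_eq ?_)
      · rintro e ⟨⟨ht, hb⟩, ha⟩
        exact k6a1_blk_X_close D hD i ht ht0 (hb.trans hb0.symm) (Eq.trans ha ha0'.symm)
      · calc 2 * ((3 * K + 3) * k6aW i) * 2 ^ i + 2 = 2 * (3 * K + 3) * (k6aW i * 2 ^ i) + 2 := by ring
          _ = _ := by rw [hWm]; ring
    obtain ⟨F, hF, hFm⟩ := k6a1_cnt_comp (k6a1_cnt_pair y1 x1 (by positivity)) (fun x : (Fin j → ℤ) × ℤ => (((a, x.1), x.2) : K6aWc j))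
    refine ⟨F, hF, fun e he => ?_⟩
    have := hFm e he
    have ea : k6aBin i e.2 = a := he.2
    have ew : D.wc i e = ((a, k6aVBin i (D.y e.1 e.2)), k6aBin i (D.X e.1 e.2)) := by
      unfold K6aDat.wc K6aDat.zc
      rw [ea]
    rw [ew]
    exact this
  refine k6a1_cnt_mono (k6a1_cnt_fib h1 (by positivity) h2) (fun _ h => h) ?_
  have b1 : (2 * K + 6) ^ j ≤ (8 * K) ^ j := by
    gcongr
    linarith
  have b2 : 6 * K + 8 ≤ 14 * K := by linarith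
  have b3 := k6a1_K_of_pow (28 * 8 ^ j) (j + 1) hK
  calc ((2 : ℝ) ^ i + 1) * ((2 * K + 6) ^ j * (6 * K + 8)) ≤ (2 * 2 ^ i) * ((8 * K) ^ j * (14 * K)) := by
        gcongr
        linarith
    _ = (((28 * 8 ^ j : ℕ) : ℝ) * K ^ (j + 1)) * 2 ^ i := by
        push_cast
        rw [mul_pow]
        ring
    _ ≤ _ := by gcongr

/-- null palette bins carry no incidences (countable union over `(a, b, c, J)` of rectangles of the levels `(0, 0, 0, i)`, each of mass `≤ .. * 0`) -/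
theorem k6a1_null_pal (D : K6aDat j) (d K : ℝ) (n1 : ℕ) (E : Set (D.L × ℝ)) (h : K6a1Rect D d K n1 E) (i : ℕ) (hi : i ≤ n1) :
    D.prior (E ∩ {e | D.pal (k6aCube i (D.vb i e.1)) = 0}) = 0 := by
  have hsub : E ∩ {e | D.pal (k6aCube i (D.vb i e.1)) = 0} ⊆
      ⋃ x : ℤ × (Fin j → ℤ) × ℤ × {J : Fin j → ℤ // D.pal (k6aCube i J) = 0},
        E ∩ {e | k6aBin 0 e.2 = x.1 ∧ k6aVBin 0 (D.y e.1 e.2) = x.2.1 ∧ k6aBin 0 (D.X e.1 e.2) = x.2.2.1} ∩ {e | D.vb i e.1 = x.2.2.2.1} := by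
    rintro e ⟨he, h0⟩
    exact Set.mem_iUnion.2 ⟨(k6aBin 0 e.2, k6aVBin 0 (D.y e.1 e.2), k6aBin 0 (D.X e.1 e.2), ⟨D.vb i e.1, h0⟩), ⟨he, rfl, rfl, rfl⟩, rfl⟩
  refine measure_mono_null hsub (measure_iUnion_null fun x => ?_)
  have := h 0 (Nat.zero_le _) 0 (Nat.zero_le _) 0 (Nat.zero_le _) i hi x.1 x.2.1 x.2.2.1 x.2.2.2.1
  rw [x.2.2.2.2, mul_zero] at this
  exact le_antisymm this (zero_le)

/-- the event "the palette bin of the velocity is null" -/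
theorem k6a1_null_meas (D : K6aDat j) {K : ℝ} (hD : D.WF K) (i : ℕ) : MeasurableSet {e : D.L × ℝ | D.pal (k6aCube i (D.vb i e.1)) = 0} := by
  have e1 : {e : D.L × ℝ | D.pal (k6aCube i (D.vb i e.1)) = 0}
      = ⋃ J : {J : Fin j → ℤ // D.pal (k6aCube i J) = 0}, Prod.fst ⁻¹' {l : D.L | D.vb i l = J.1} := by
    ext e
    simp only [Set.mem_ofPred_eq, Set.mem_iUnion, Set.mem_preimage]
    constructor
    · intro h
      exact ⟨⟨_, h⟩, rfl⟩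
    · rintro ⟨J, hJ⟩
      rw [hJ]
      exact J.2
  rw [e1]
  exact MeasurableSet.iUnion fun J => measurable_fst (k6a1_meas_vb D hD i J.1)

/-- the blocks are disjoint: their `ν°`-masses sum to at most one -/
theorem k6a1_blk_sum (D : K6aDat j) {K : ℝ} (hD : D.WF K) (i : ℕ) {Lc : Set D.L} (hLc : MeasurableSet Lc) (FB : Finset (K6aBc j)) :
    ∑ B ∈ FB, D.ν (Lc ∩ D.bc i ⁻¹' {B}) ≤ 1 := by
  have := hD.prob
  rw [← measure_biUnion_finset (fun B _ B' _ hne => ?_) (fun B _ => hLc.inter (k6a1_meas_bc D hD i B))]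
  · exact prob_le_one
  · refine Set.disjoint_left.2 fun l h1 h2 => hne ?_
    exact (h1.2 : D.bc i l = B).symm.trans h2.2

/-- **a physical cell and a velocity bin admit `≤ K` participating blocks, one level.**
PLAN: `K₂ = k6a1K C₂ K` of `k6a1_blk_cells`; label `s e = (bc i e.1, wc i e)`, `θ (B, c) = ofReal (η W_i / K₂) * ν (Lc ∩ bc i ⁻¹' {B})`;   `E' = k6a1Hv prior s E θ \ {e | pal (cube (vb i e.1)) = 0}`.
Loss: `k6a1_prune_light` with `F = ⋃_{B ∈ FB} {B} × cells B` (`k6a1_bc_fin`, `k6a1_blk_cells`): `∑ θ ≤ ∑_B (K₂ 2^i) (η W_i / K₂) ν (Lc ∩ B) = η ∑_B ν (Lc ∩ B) ≤ η` (disjoint blocks, probability); `k6a1_null_pal`.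
List for `(c, J)`: if `pal (cube J) = 0` take `∅`.   Otherwise `P = (pal (cube J)).toReal ∈ (0, 1]`; `k6a1_cnt_pay` with `A = E' ∩ {wc = c} ∩ {vb = J}`, `B = E ∩ {wc = c} ∩ {vb = J}`, label `bc i e.1`:
`μ B ≤ K W W^j W^d P` (`K6a1Rect` at `(i, i, i, i)`);   for `e ∈ A`: `B ∩ {bc = bc e} ⊇ E ∩ s ⁻¹' {s e}` (`bc` determines `vb`), of mass `≥ θ ≥ (η W / K₂) W^(j+d) P / K` (hypothesis `hlo`).   Ratio `K² K₂ / η`. -/
theorem k6a1_blocks_level (j : ℕ) (d : ℝ) : ∃ C : ℕ, ∀ (D : K6aDat j) (K η : ℝ) (n1 : ℕ) (E : Set (D.L × ℝ)) (Lc : Set D.L) (i : ℕ),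
    1 ≤ K → 0 < η → η ≤ 1 → D.WF K → MeasurableSet E → MeasurableSet Lc → E ⊆ Lc ×ˢ Set.Icc (0 : ℝ) 1 → i ≤ n1 → K6a1Rect D d K n1 E →
    (∀ e ∈ E, ENNReal.ofReal (k6aW i ^ ((j : ℝ) + d)) * D.pal (k6aCube i (D.vb i e.1)) ≤ ENNReal.ofReal K * D.ν (Lc ∩ D.bc i ⁻¹' {D.bc i e.1})) →
    ∃ E' : Set (D.L × ℝ), MeasurableSet E' ∧ E' ⊆ E ∧ D.prior (E \ E') ≤ ENNReal.ofReal η ∧
      ∀ (c : K6aWc j) (J : Fin j → ℤ), ∃ F : Finset (K6aBc j), (F.card : ℝ) ≤ k6a1K C (K / η) ∧ ∀ e ∈ E', D.wc i e = c → D.vb i e.1 = J → D.bc i e.1 ∈ F := by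
  classical
  obtain ⟨C₂, hC₂⟩ := k6a1_blk_cells j
  refine ⟨3 * (C₂ + 1) + 3 + (C₂ + 1), fun D K η n1 E Lc i hK hη hη1 hD hE hLc hsub hi hR hlo => ?_⟩
  have hK0 : 0 < K := by linarith
  have hW := k6a1_W_pos i
  have hWm := k6a1_W_mul i
  obtain ⟨K₂, hK₂⟩ : ∃ K₂, K₂ = k6a1K (C₂ + 1) K := ⟨_, rfl⟩
  have hK₂1 : 1 ≤ K₂ := hK₂ ▸ k6a1_K_one_le (by omega) hK
  have hK₂0 : 0 < K₂ := by linarith
  -- the cells of a block
  have hcells : ∀ B : K6aBc j, k6a1Cnt {e : D.L × ℝ | e.2 ∈ Set.Icc (0 : ℝ) 1 ∧ D.bc i e.1 = B} (D.wc i) (K₂ * 2 ^ i) := fun B =>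
    k6a1_cnt_mono (hC₂ D K i B hK hD) (fun _ h => h) (by
      rw [hK₂]
      gcongr
      exact k6a1_K_mono (by omega) hK le_rfl)
  choose Fc hFc hFcm using hcells
  obtain ⟨nB, FB, -, hFB⟩ := k6a1_bc_fin D hD i
  -- the label and the threshold
  obtain ⟨s, hsdef⟩ : ∃ s : D.L × ℝ → K6aBc j × K6aWc j, s = fun e => (D.bc i e.1, D.wc i e) := ⟨_, rfl⟩
  obtain ⟨θ, hθdef⟩ : ∃ θ : K6aBc j × K6aWc j → ℝ≥0∞, θ = fun x => ENNReal.ofReal (η * k6aW i / K₂) * D.ν (Lc ∩ D.bc i ⁻¹' {x.1}) := ⟨_, rfl⟩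
  have hs : ∀ a, MeasurableSet (s ⁻¹' {a}) := by
    rintro ⟨B, c⟩
    have : s ⁻¹' {(B, c)} = Prod.fst ⁻¹' (D.bc i ⁻¹' {B}) ∩ D.wc i ⁻¹' {c} := by
      ext e
      simp [hsdef, Prod.ext_iff]
    rw [this]
    exact (measurable_fst (k6a1_meas_bc D hD i B)).inter (k6a1_meas_wc D hD i c)
  obtain ⟨F, hFdef⟩ : ∃ F : Finset (K6aBc j × K6aWc j), F = (FB.sigma Fc).image (fun x => (x.1, x.2)) := ⟨_, rfl⟩
  have hF : ∀ x ∈ E, s x ∈ F := by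
    intro x hx
    rw [hFdef, hsdef]
    exact Finset.mem_image.2 ⟨⟨D.bc i x.1, D.wc i x⟩, Finset.mem_sigma.2 ⟨hFB _ (Set.mem_univ _), hFcm _ x ⟨(hsub hx).2, rfl⟩⟩, rfl⟩
  obtain ⟨hm1, hl1⟩ := k6a1_prune_light D.prior s hs E hE θ F hF
  have hsum : ∑ a ∈ F, θ a ≤ ENNReal.ofReal η := by
    rw [hFdef, Finset.sum_image (by
      rintro ⟨a, b⟩ _ ⟨a', b'⟩ _ h
      simp only [Prod.mk.injEq] at h
      obtain ⟨rfl, rfl⟩ := h
      rfl), Finset.sum_sigma]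
    calc ∑ B ∈ FB, ∑ c ∈ Fc B, θ (B, c) ≤ ∑ B ∈ FB, ENNReal.ofReal η * D.ν (Lc ∩ D.bc i ⁻¹' {B}) := by
          refine Finset.sum_le_sum fun B _ => ?_
          rw [hθdef]
          simp only [Finset.sum_const, nsmul_eq_mul]
          rw [← mul_assoc]
          refine mul_le_mul' ?_ le_rfl
          calc ((Fc B).card : ℝ≥0∞) * ENNReal.ofReal (η * k6aW i / K₂) ≤ ENNReal.ofReal (K₂ * 2 ^ i) * ENNReal.ofReal (η * k6aW i / K₂) := by
                refine mul_le_mul' ?_ le_rfl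
                rw [← ENNReal.ofReal_natCast]
                exact ENNReal.ofReal_le_ofReal (hFc B)
            _ = ENNReal.ofReal η := by
                rw [← ENNReal.ofReal_mul (by positivity)]
                congr 1
                calc K₂ * 2 ^ i * (η * k6aW i / K₂) = η * (k6aW i * 2 ^ i) * (K₂ / K₂) := by ring
                  _ = η := by rw [hWm, div_self hK₂0.ne']; ring
      _ = ENNReal.ofReal η * ∑ B ∈ FB, D.ν (Lc ∩ D.bc i ⁻¹' {B}) := by rw [Finset.mul_sum]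
      _ ≤ ENNReal.ofReal η * 1 := mul_le_mul' le_rfl (k6a1_blk_sum D hD i hLc FB)
      _ = _ := mul_one _
  obtain ⟨E', hE'def⟩ : ∃ E' : Set (D.L × ℝ), E' = k6a1Hv D.prior s E θ \ {e | D.pal (k6aCube i (D.vb i e.1)) = 0} := ⟨_, rfl⟩
  have hE'E : E' ⊆ E := fun e he => by
    rw [hE'def] at he
    exact he.1.1
  refine ⟨E', ?_, hE'E, ?_, ?_⟩
  · rw [hE'def]
    exact hm1.diff (k6a1_null_meas D hD i)
  · have h1 : E \ E' ⊆ (E \ k6a1Hv D.prior s E θ) ∪ (E ∩ {e | D.pal (k6aCube i (D.vb i e.1)) = 0}) := by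
      rintro e ⟨he, hne⟩
      by_cases h2 : e ∈ k6a1Hv D.prior s E θ
      · refine Or.inr ⟨he, ?_⟩
        by_contra h3
        exact hne (by rw [hE'def]; exact ⟨h2, h3⟩)
      · exact Or.inl ⟨he, h2⟩
    calc D.prior (E \ E') ≤ D.prior ((E \ k6a1Hv D.prior s E θ) ∪ (E ∩ {e | D.pal (k6aCube i (D.vb i e.1)) = 0})) := measure_mono h1
      _ ≤ D.prior (E \ k6a1Hv D.prior s E θ) + D.prior (E ∩ {e | D.pal (k6aCube i (D.vb i e.1)) = 0}) := measure_union_le _ _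
      _ ≤ ENNReal.ofReal η + 0 := add_le_add (hl1.trans hsum) (k6a1_null_pal D d K n1 E hR i hi).le
      _ = _ := add_zero _
  · intro c J
    have hY1 : 1 ≤ K / η := by
      rw [le_div_iff₀ hη]
      linarith
    by_cases hP0 : D.pal (k6aCube i J) = 0
    · refine ⟨∅, ?_, fun e he _ hJ => ?_⟩
      · simp only [Finset.card_empty, Nat.cast_zero]
        exact k6a1_K_nonneg _ (by positivity)
      · rw [hE'def] at he
        exact absurd (show D.pal (k6aCube i (D.vb i e.1)) = 0 by rw [hJ]; exact hP0) he.2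
    have hPtop : D.pal (k6aCube i J) ≠ ⊤ := ne_top_of_le_ne_top ENNReal.one_ne_top ((measure_mono (Set.subset_univ _)).trans hD.pal_le)
    obtain ⟨P, hP⟩ : ∃ P, P = (D.pal (k6aCube i J)).toReal := ⟨_, rfl⟩
    have hPpos : 0 < P := hP ▸ ENNReal.toReal_pos hP0 hPtop
    have hPe : D.pal (k6aCube i J) = ENNReal.ofReal P := by rw [hP, ENNReal.ofReal_toReal hPtop]
    have hWjd : k6aW i ^ ((j : ℝ) + d) = k6aW i ^ j * k6aW i ^ d := by rw [Real.rpow_add hW, Real.rpow_natCast]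
    have hWd : 0 < k6aW i ^ d := Real.rpow_pos_of_pos hW d
    have hpay := k6a1_cnt_pay D.prior (E' ∩ {e | D.wc i e = c ∧ D.vb i e.1 = J}) (E ∩ {e | D.wc i e = c ∧ D.vb i e.1 = J}) (fun e => D.bc i e.1)
      (fun a => measurable_fst (k6a1_meas_bc D hD i a))
      (η * k6aW i / K₂ * (k6aW i ^ ((j : ℝ) + d) * P / K)) (K * k6aW i * k6aW i ^ j * k6aW i ^ d * P) (by rw [hWjd]; positivity) (by positivity) ?_ ?_
    · obtain ⟨F', hF', hF'm⟩ := hpay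
      refine ⟨F', hF'.trans ?_, fun e he h1 h2 => hF'm e ⟨he, h1, h2⟩⟩
      have e1 : K * k6aW i * k6aW i ^ j * k6aW i ^ d * P / (η * k6aW i / K₂ * (k6aW i ^ ((j : ℝ) + d) * P / K)) = K ^ 2 / η * K₂ := by
        rw [hWjd]
        field_simp
      rw [e1]
      have b1 : K ^ 2 / η ≤ k6a1K 3 (K / η) := by
        have := k6a1_K_of_pow 1 2 hY1
        refine le_trans ?_ this
        rw [Nat.cast_one, one_mul, div_pow]
        gcongr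
        calc η ^ 2 = η * η := sq η
          _ ≤ 1 * η := by gcongr
          _ = η := one_mul η
      have b2 : K₂ ≤ k6a1K (C₂ + 1) (K / η) := by
        rw [hK₂]
        refine k6a1_K_mono le_rfl hK ?_
        rw [le_div_iff₀ hη]
        nlinarith
      calc K ^ 2 / η * K₂ ≤ k6a1K 3 (K / η) * k6a1K (C₂ + 1) (K / η) :=
            mul_le_mul b1 b2 hK₂0.le (k6a1_K_nonneg _ (by positivity))
        _ ≤ _ := k6a1_K_mul 3 (C₂ + 1) hY1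
    · have hsub2 : E ∩ {e | D.wc i e = c ∧ D.vb i e.1 = J} ⊆
          E ∩ {e | k6aBin i e.2 = c.1.1 ∧ k6aVBin i (D.y e.1 e.2) = c.1.2 ∧ k6aBin i (D.X e.1 e.2) = c.2} ∩ {e | D.vb i e.1 = J} := by
        rintro e ⟨he, h1, h2⟩
        subst h1
        exact ⟨⟨he, rfl, rfl, rfl⟩, h2⟩
      refine (measure_mono hsub2).trans ((hR i hi i hi i hi i hi c.1.1 c.1.2 c.2 J).trans (le_of_eq ?_))
      rw [hPe, ← ENNReal.ofReal_mul (by positivity)]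
    · rintro e ⟨he, h1, h2⟩
      have heE : e ∈ E := hE'E he
      rw [hE'def] at he
      have h3 : θ (s e) ≤ D.prior (E ∩ s ⁻¹' {s e}) := he.1.2
      have h4 : E ∩ s ⁻¹' {s e} ⊆ E ∩ {e | D.wc i e = c ∧ D.vb i e.1 = J} ∩ (fun e => D.bc i e.1) ⁻¹' {D.bc i e.1} := by
        rintro e' ⟨he', hs'⟩
        have hs'' : s e' = s e := hs'
        rw [hsdef] at hs''
        simp only [Prod.mk.injEq] at hs''
        refine ⟨⟨he', hs''.2.trans h1, ?_⟩, hs''.1⟩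
        have : D.vb i e'.1 = D.vb i e.1 := congrArg (fun x => x.2.1) hs''.1
        exact this.trans h2
      refine le_trans ?_ (h3.trans (measure_mono h4))
      have h5 := hlo e heE
      rw [h2, hPe, ← ENNReal.ofReal_mul (by positivity)] at h5
      have h6 : ENNReal.ofReal (k6aW i ^ ((j : ℝ) + d) * P / K) ≤ D.ν (Lc ∩ D.bc i ⁻¹' {D.bc i e.1}) := by
        rw [ENNReal.ofReal_div_of_pos hK0]
        exact ENNReal.div_le_of_le_mul' h5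
      rw [hθdef, hsdef, ENNReal.ofReal_mul (by positivity)]
      exact mul_le_mul' le_rfl h6

/-- **all levels** (intersection of the families of `k6a1_blocks_level`, budget `η / (n0 + 1)` per level) -/
theorem k6a1_blocks (j : ℕ) (d : ℝ) : ∃ C : ℕ, ∀ (D : K6aDat j) (K η : ℝ) (n0 n1 : ℕ) (E : Set (D.L × ℝ)) (Lc : Set D.L),
    1 ≤ K → 0 < η → η ≤ 1 → D.WF K → MeasurableSet E → MeasurableSet Lc → E ⊆ Lc ×ˢ Set.Icc (0 : ℝ) 1 → n0 ≤ n1 → K6a1Rect D d K n1 E → K6a1Lo D d K n0 E Lc →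
    ∃ E' : Set (D.L × ℝ), MeasurableSet E' ∧ E' ⊆ E ∧ D.prior (E \ E') ≤ ENNReal.ofReal η ∧ K6a1List D (k6a1K C (K * (n0 + 1) / η)) n0 E' := by
  classical
  obtain ⟨C, hC⟩ := k6a1_blocks_level j d
  refine ⟨C, fun D K η n0 n1 E Lc hK hη hη1 hD hE hLc hsub hn hR hlo => ?_⟩
  have hn0 : (0 : ℝ) < (n0 : ℝ) + 1 := by positivity
  have hη' : 0 < η / (n0 + 1) := by positivity
  have hη'1 : η / (n0 + 1) ≤ 1 := by
    rw [div_le_one hn0]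
    have : (0 : ℝ) ≤ n0 := Nat.cast_nonneg _
    linarith
  have hlev : ∀ i : ℕ, ∃ G : Set (D.L × ℝ), MeasurableSet G ∧ G ⊆ E ∧ D.prior (E \ G) ≤ ENNReal.ofReal (η / (n0 + 1)) ∧ (i ≤ n0 →
      ∀ (c : K6aWc j) (J : Fin j → ℤ), ∃ F : Finset (K6aBc j), (F.card : ℝ) ≤ k6a1K C (K / (η / (n0 + 1))) ∧
        ∀ e ∈ G, D.wc i e = c → D.vb i e.1 = J → D.bc i e.1 ∈ F) := by
    intro i
    by_cases hi : i ≤ n0
    · obtain ⟨G, h1, h2, h3, h4⟩ := hC D K (η / (n0 + 1)) n1 E Lc i hK hη' hη'1 hD hE hLc hsub (hi.trans hn) hR (hlo i hi)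
      exact ⟨G, h1, h2, h3, fun _ => h4⟩
    · exact ⟨E, hE, le_rfl, by simp, fun h => absurd h hi⟩
  choose G hG1 hG2 hG3 hG4 using hlev
  refine ⟨⋂ i ∈ Finset.range (n0 + 1), G i, Finset.measurableSet_biInter _ fun i _ => hG1 i, ?_, ?_, ?_⟩
  · intro e he
    exact hG2 0 (Set.mem_iInter₂.1 he 0 (Finset.mem_range.2 (by omega)))
  · have h1 : E \ ⋂ i ∈ Finset.range (n0 + 1), G i ⊆ ⋃ i ∈ Finset.range (n0 + 1), E \ G i := by
      rintro e ⟨he, hne⟩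
      simp only [Set.mem_iInter, not_forall] at hne
      obtain ⟨i, hi, hi2⟩ := hne
      exact Set.mem_iUnion₂.2 ⟨i, hi, he, hi2⟩
    calc _ ≤ D.prior (⋃ i ∈ Finset.range (n0 + 1), E \ G i) := measure_mono h1
      _ ≤ ∑ i ∈ Finset.range (n0 + 1), D.prior (E \ G i) := measure_biUnion_finset_le _ _
      _ ≤ ∑ _i ∈ Finset.range (n0 + 1), ENNReal.ofReal (η / (n0 + 1)) := Finset.sum_le_sum fun i _ => hG3 i
      _ = ENNReal.ofReal η := by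
          rw [Finset.sum_const, Finset.card_range, nsmul_eq_mul, ← ENNReal.ofReal_natCast, ← ENNReal.ofReal_mul (by positivity)]
          congr 1
          push_cast
          field_simp
  · intro i hi c J
    obtain ⟨F, hF, hFm⟩ := hG4 i hi c J
    refine ⟨F, hF.trans (le_of_eq ?_), fun e he => hFm e (Set.mem_iInter₂.1 he i (Finset.mem_range.2 (by omega)))⟩
    congr 1
    field_simp

end

end Claimed.Agent.R252
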