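import Claimed.Agent.R252.S6a.Phys.Count
import Claimed.Agent.R252.S6a.Phys.Floor

/-!
# ROW 252, unit S6a1, file 8: THE ABSTRACT EXIT  `k6a1_exit` : RAW per-parent data ⟹ `K6aPhys` + graph lists of all nodes (06 l.96-296).   CONTRACT      (sub-architect helper11; prefix `k6a1_`)

PAPER-FREE: pure assembly of `Phys/{Cap,Node,Count,Floor}.lean` (black boxes, usable while sorried).
Statements are frozen (defects: message to helper11).   Provers replace the `sorry`s IN PLACE, helper lemmas directly above.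
LEAVES: L-252-P1-M1 (s1: heredity and monotonicity), M2 (`k6a1_nodes`), M3 (`k6a1_caps`), M4 (`k6a1_exit`).
-/

set_option autoImplicit false

namespace Claimed.Agent.R252

open MeasureTheory
open scoped ENNReal BigOperators

noncomputable section

variable {j : ℕ}

/-! ## 1. heredity and monotonicity -/

theorem k6a1_loc_mono {D : K6aDat j} {d K K' : ℝ} {n0 : ℕ} {E E' : Set (D.L × ℝ)} (h : K6a1Loc D d K n0 E) (hE : E' ⊆ E) (hK : K ≤ K') : K6a1Loc D d K' n0 E' := by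
  intro i i' h1 h2 c
  obtain ⟨F, hF, hF'⟩ := h i i' h1 h2 c
  exact ⟨F, hF.trans (mul_le_mul_of_nonneg_right hK (Real.rpow_nonneg (by positivity) _)), fun e he => hF' e (hE he)⟩

theorem k6a1_fib_mono {D : K6aDat j} {d K K' : ℝ} {n0 : ℕ} {E E' : Set (D.L × ℝ)} (h : K6a1Fib D d K n0 E) (hE : E' ⊆ E) (hK : K ≤ K') : K6a1Fib D d K' n0 E' := by
  intro i h1 c
  obtain ⟨F, hF, hF'⟩ := h i h1 c
  exact ⟨F, hF.trans (mul_le_mul_of_nonneg_right hK (Real.rpow_nonneg (by positivity) _)), fun e he => hF' e (hE he)⟩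

theorem k6a1_slice_mono {D : K6aDat j} {d K K' : ℝ} {n0 : ℕ} {E E' : Set (D.L × ℝ)} (h : K6a1Slice D d K n0 E) (hE : E' ⊆ E) (hK : K ≤ K') : K6a1Slice D d K' n0 E' := by
  intro i h1 i' h2 t c J
  have hsub : {l | (l, t) ∈ E' ∧ D.sc i' l t = c ∧ D.vb i l = J} ⊆ {l | (l, t) ∈ E ∧ D.sc i' l t = c ∧ D.vb i l = J} :=
    fun l hl => ⟨hE hl.1, hl.2⟩
  refine (measure_mono hsub).trans ((h i h1 i' h2 t c J).trans ?_)
  refine mul_le_mul' (ENNReal.ofReal_le_ofReal ?_) le_rfl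
  exact mul_le_mul_of_nonneg_right hK (Real.rpow_nonneg (k6a1_W_pos i').le _)

theorem k6a1_lo_mono {D : K6aDat j} {d K K' : ℝ} {n0 : ℕ} {E E' : Set (D.L × ℝ)} {Lc : Set D.L} (h : K6a1Lo D d K n0 E Lc) (hE : E' ⊆ E) (hK : K ≤ K') : K6a1Lo D d K' n0 E' Lc := by
  intro i h1 e he
  exact (h i h1 e (hE he)).trans (mul_le_mul' (ENNReal.ofReal_le_ofReal hK) le_rfl)

theorem k6a1_list_mono {D : K6aDat j} {K K' : ℝ} {n0 : ℕ} {E E' : Set (D.L × ℝ)} (h : K6a1List D K n0 E) (hE : E' ⊆ E) (hK : K ≤ K') : K6a1List D K' n0 E' := by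
  intro i h1 c J
  obtain ⟨F, hF, hF'⟩ := h i h1 c J
  exact ⟨F, hF.trans hK, fun e he => hF' e (hE he)⟩

theorem k6a1_coef_mono {D : K6aDat j} {d K K' : ℝ} {n0 : ℕ} {Lc : Set D.L} (h : K6a1Coef D d K n0 Lc) (hK : K ≤ K') : K6a1Coef D d K' n0 Lc := by
  intro i h1 i' h2 b0 bV x
  refine (h i h1 i' h2 b0 bV x).trans (mul_le_mul' (ENNReal.ofReal_le_ofReal ?_) le_rfl)
  have hW := (k6a1_W_pos i).le
  exact mul_le_mul_of_nonneg_right (mul_le_mul_of_nonneg_right hK (pow_nonneg hW _))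
    (Real.rpow_nonneg (k6a1_W_pos i').le _)

theorem k6a1_wf_mono {D : K6aDat j} {K K' : ℝ} (h : D.WF K) (hK : K ≤ K') : D.WF K' :=
  ⟨h.prob, h.m_y0, h.m_V, h.m_xc, h.m_lab, h.pal_le,
    fun l => ⟨(h.bd l).1.trans hK, (h.bd l).2.1.trans hK, (h.bd l).2.2.trans hK⟩⟩

theorem k6a1_hist_mono {D : K6aDat j} {Hd : K6a1Hist D} {K K' : ℝ} {n1 : ℕ} {E0 : Set (D.L × ℝ)} (h : Hd.Ok K n1 E0) (hK : K ≤ K') : Hd.Ok K' n1 E0 := by
  refine ⟨h.m_hist, h.ref_sum.trans (ENNReal.ofReal_le_ofReal hK), fun i hi a J => ?_, fun a => ?_⟩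
  · exact (h.dom i hi a J).trans (mul_le_mul' (mul_le_mul' (ENNReal.ofReal_le_ofReal hK) le_rfl) le_rfl)
  · obtain ⟨F, hF, hF'⟩ := h.opt a
    exact ⟨F, hF.trans hK, hF'⟩

/-- the record from its clauses (`blk_hi` = `K6a1Coef` with `i' = i`, `W^j W^d = W^(j+d)`; `capW` = `k6a1_capW`; `capX` = `K6a1Cap`; `m0_sum`, `joint` = `k6a1_joint`) -/
theorem k6a1_phys_mk (D : K6aDat j) (d K : ℝ) (n0 n1 : ℕ) (E0 E : Set (D.L × ℝ)) (Lc : Set D.L) (hK : 1 ≤ K) (hD : D.WF K) (hn : n0 ≤ n1) (hE : MeasurableSet E)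
    (hLc : MeasurableSet Lc) (hsub : E ⊆ Lc ×ˢ Set.Icc (0 : ℝ) 1) (hE0 : E ⊆ E0) (hcap : K6a1Cap D d K n1 E0) (hdom : K6a1Dom D K n1 E0 E) (hloc : K6a1Loc D d K n0 E)
    (hfib : K6a1Fib D d K n0 E) (hsl : K6a1Slice D d K n0 E) (hco : K6a1Coef D d K n0 Lc) (hlo : K6a1Lo D d K n0 E Lc) (hli : K6a1List D K n0 E) :
    K6aPhys D d K n0 E Lc (fun s => D.prior (E0 ∩ D.ms n0 ⁻¹' {s})) := by
  obtain ⟨hj1, hj2⟩ := k6a1_joint D K n0 n1 E0 E hK hD hn hdom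
  refine ⟨hE, hLc, hsub, hj1, hj2, ?_, ?_, hloc, hfib, hsl, ?_, hlo, hli⟩
  · intro i hi c
    exact (measure_mono (Set.inter_subset_inter_left _ hE0)).trans (k6a1_capW D d K n1 E0 hK hcap i (hi.trans hn) c)
  · intro i hi U f hU hf
    refine (measure_mono ?_).trans (hcap i (hi.trans hn) U f hU hf)
    intro e he
    exact ⟨hE0 he.1.1, he.1.2, he.2⟩
  · intro i hi B
    have h1 := hco i hi i le_rfl B.1 B.2.1 B.2.2
    have e1 : Lc ∩ D.bc i ⁻¹' {B} = Lc ∩ {l | k6aVBin i (D.y0 l) = B.1 ∧ D.vb i l = B.2.1 ∧ k6aVBin i (D.xc l) = B.2.2} := by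
      ext l
      simp only [K6aDat.bc, K6aDat.vb, Set.mem_inter_iff, Set.mem_preimage, Set.mem_singleton_iff, Set.mem_ofPred_eq,
        Prod.ext_iff]
    have e2 : K * k6aW i ^ j * k6aW i ^ d = K * k6aW i ^ ((j : ℝ) + d) := by
      rw [Real.rpow_add (k6a1_W_pos i), Real.rpow_natCast, mul_assoc]
    rw [e1, ← e2]
    exact h1

/-- every clause of `K6aPhys` is hereditary and monotone in the slack -/
theorem k6a1_phys_mono {D : K6aDat j} {d K K' : ℝ} {n0 : ℕ} {E E' : Set (D.L × ℝ)} {Lc : Set D.L} {m0 : D.Lb × K6aWc j → ℝ≥0∞} (h : K6aPhys D d K n0 E Lc m0)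
    (hm : MeasurableSet E') (hE : E' ⊆ E) (hK : K ≤ K') (hK0 : 0 ≤ K) : K6aPhys D d K' n0 E' Lc m0 := by
  have hoK : ENNReal.ofReal K ≤ ENNReal.ofReal K' := ENNReal.ofReal_le_ofReal hK
  refine ⟨hm, h.Lc_meas, hE.trans h.E_sub, fun F => (h.m0_sum F).trans hoK, ?_, ?_, ?_, ?_, ?_, ?_, ?_, ?_, ?_⟩
  · intro i hi s J
    refine (measure_mono ?_).trans ((h.joint i hi s J).trans (mul_le_mul' (mul_le_mul' hoK le_rfl) le_rfl))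
    exact Set.inter_subset_inter_left _ (Set.inter_subset_inter_left _ hE)
  · intro i hi c
    refine (measure_mono (Set.inter_subset_inter_left _ hE)).trans ((h.capW i hi c).trans (ENNReal.ofReal_le_ofReal ?_))
    exact mul_le_mul_of_nonneg_right hK (Real.rpow_nonneg (k6a1_W_pos i).le _)
  · intro i hi U f hU hf
    refine (measure_mono ?_).trans ((h.capX i hi U f hU hf).trans (mul_le_mul' (ENNReal.ofReal_le_ofReal ?_) le_rfl))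
    · exact Set.inter_subset_inter_left _ (Set.inter_subset_inter_left _ hE)
    · exact mul_le_mul_of_nonneg_right hK (Real.rpow_nonneg (k6a1_W_pos i).le _)
  · exact k6a1_loc_mono (fun i i' h1 h2 c => h.loc i i' h1 h2 c) hE hK
  · exact k6a1_fib_mono (fun i h1 c => h.fibre i h1 c) hE hK
  · exact k6a1_slice_mono (fun i h1 i' h2 t c J => h.slice i h1 i' h2 t c J) hE hK
  · intro i hi B
    refine (h.blk_hi i hi B).trans (mul_le_mul' (ENNReal.ofReal_le_ofReal ?_) le_rfl)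
    exact mul_le_mul_of_nonneg_right hK (Real.rpow_nonneg (k6a1_W_pos i).le _)
  · exact k6a1_lo_mono (fun i h1 e he => h.blk_lo i h1 e he) hE hK
  · exact k6a1_list_mono (fun i h1 c J => h.blk_list i h1 c J) hE hK

theorem k6a1_pkok_mono {D : K6aDat j} {Pk : K6aPk D} {d k K K' : ℝ} {E E' : Set (D.L × ℝ)} (h : Pk.Ok d k K E) (hE : E' ⊆ E) (hK : K ≤ K') (hK0 : 0 ≤ K) : Pk.Ok d k K' E' := by
  have hoK : ENNReal.ofReal K ≤ ENNReal.ofReal K' := ENNReal.ofReal_le_ofReal hK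
  have hH : 0 ≤ Pk.H := (k6a1_W_pos Pk.lev).le
  have ha := h.a_pos
  refine ⟨ha, h.H_lo.trans (mul_le_mul_of_nonneg_right hK hH),
    h.H_hi.trans (mul_le_mul_of_nonneg_right hK (Real.rpow_nonneg ha.le _)), h.asg_meas, h.disj, ?_, ?_,
    fun e he => h.cov e (hE he), ?_, fun q hq => (h.cen q hq).trans hK, ?_, ?_⟩
  · intro q hq
    exact (h.ν_lo q (hq.mono (Set.inter_subset_inter_left _ hE))).trans (mul_le_mul' hoK le_rfl)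
  · intro q
    refine (h.ν_hi q).trans (ENNReal.ofReal_le_ofReal ?_)
    exact mul_le_mul_of_nonneg_right (mul_le_mul_of_nonneg_right hK (Real.rpow_nonneg ha.le _)) (pow_nonneg hH _)
  · intro q l hl t ht
    exact (h.box q l hl t ht).trans (mul_le_mul_of_nonneg_right hK hH)
  · intro q U hU
    refine le_trans (mul_le_mul' le_rfl (measure_mono ?_)) ((h.capQ q U hU).trans (mul_le_mul' (mul_le_mul' hoK le_rfl) le_rfl))
    exact Set.inter_subset_inter_left _ (Set.inter_subset_inter_left _ hE)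
  · intro q
    obtain ⟨n, f, Dm, hn, hl, hc⟩ := h.graphs q
    refine ⟨n, f, Dm, hn.trans hK, fun i z hz z' hz' => (hl i z hz z' hz').trans
      (mul_le_mul_of_nonneg_right hK (norm_nonneg _)), fun e he => ?_⟩
    obtain ⟨i, h1, h2⟩ := hc e ⟨hE he.1, he.2⟩
    exact ⟨i, h1, h2.trans (mul_le_mul_of_nonneg_right hK ha.le)⟩

theorem k6a1_brd_mono {D : K6aDat j} {S : Type} {E E' : Set (D.L × ℝ)} {s : D.L × ℝ → S} {κ w ε ε' : ℝ} (h : K6aBrd D E s κ w ε) (hE : E' ⊆ E) (hε : ε ≤ ε') : K6aBrd D E' s κ w ε' :=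
  fun E'' hm hs => (h E'' hm (hs.trans hE)).trans (ENNReal.ofReal_le_ofReal hε)

/-- loss of a finite intersection -/
theorem k6a1_loss_iInter {Ω ι : Type} [MeasurableSpace Ω] [Fintype ι] (μ : Measure Ω) (E0 : Set Ω) (E : ι → Set Ω) (c : ℝ) (hc : 0 ≤ c)
    (h : ∀ a, μ (E0 \ E a) ≤ ENNReal.ofReal c) : μ (E0 \ (E0 ∩ ⋂ a, E a)) ≤ ENNReal.ofReal (Fintype.card ι * c) := by
  have hsub : E0 \ (E0 ∩ ⋂ a, E a) ⊆ ⋃ a, (E0 \ E a) := by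
    intro x hx
    obtain ⟨h0, h1⟩ := hx
    by_contra hcon
    apply h1
    refine ⟨h0, Set.mem_iInter.2 (fun a => ?_)⟩
    by_contra ha
    exact hcon (Set.mem_iUnion.2 ⟨a, h0, ha⟩)
  calc μ (E0 \ (E0 ∩ ⋂ a, E a)) ≤ μ (⋃ a, (E0 \ E a)) := measure_mono hsub
    _ ≤ ∑ a, μ (E0 \ E a) := measure_iUnion_fintype_le μ _
    _ ≤ ∑ _a : ι, ENNReal.ofReal c := Finset.sum_le_sum (fun a _ => h a)
    _ = ENNReal.ofReal (Fintype.card ι * c) := by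
        rw [Finset.sum_const, nsmul_eq_mul, ENNReal.ofReal_mul (Nat.cast_nonneg _), ENNReal.ofReal_natCast, Finset.card_univ]

/-- loss of a chain -/
theorem k6a1_loss_trans {Ω : Type} [MeasurableSpace Ω] (μ : Measure Ω) {E0 E1 E2 : Set Ω} {c c' : ℝ} (hc : 0 ≤ c) (hc' : 0 ≤ c')
    (h : μ (E0 \ E1) ≤ ENNReal.ofReal c) (h' : μ (E1 \ E2) ≤ ENNReal.ofReal c') : μ (E0 \ E2) ≤ ENNReal.ofReal (c + c') := by
  have hsub : E0 \ E2 ⊆ (E0 \ E1) ∪ (E1 \ E2) := by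
    intro x hx
    by_cases h1 : x ∈ E1
    · exact Or.inr ⟨h1, hx.2⟩
    · exact Or.inl ⟨hx.1, h1⟩
  rw [ENNReal.ofReal_add hc hc']
  exact (measure_mono hsub).trans ((measure_union_le _ _).trans (add_le_add h h'))

/-! ## 2. the assembly -/

/-- **all nodes at once** (`k6a1_node` for every `a`, budget `η / (card ι + 1)`, `E = E0 ∩ ⋂_a E_a`; `k6a1_loss_iInter`, `k6a1_graphs_mono`, `k6a1_K_mono`) -/
theorem k6a1_nodes (j dg : ℕ) (hj : 1 ≤ j) (k : ℝ) (hk : k ≤ 1) : ∃ C : ℕ, ∀ (D : K6aDat j) (ι : Type) [Fintype ι] (Pk : ι → K6aPk D) (G : ∀ a, K6a1En D (Pk a)) (d K η w εb : ℝ)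
    (nf : ι → ℕ) (E0 : Set (D.L × ℝ)), 1 ≤ K → 0 < η → η ≤ 1 → 0 < w → w ≤ 1 → 0 ≤ εb → D.WF K → MeasurableSet E0 → E0 ⊆ Set.univ ×ˢ Set.Icc (0 : ℝ) 1 →
    (∀ a, (Pk a).a ≤ 1) → (∀ a, K6a1PkRaw (Pk a) d k K E0) → (∀ a, (G a).Ok dg K (nf a) E0) → (∀ a, K6aBrd D E0 ((G a).st (nf a)) 1 w εb) →
    ∃ E : Set (D.L × ℝ), MeasurableSet E ∧ E ⊆ E0 ∧ D.prior (E0 \ E) ≤ ENNReal.ofReal (η + Fintype.card ι * εb) ∧
      ∀ a, K6a1Graphs (Pk a) (k6a1K C (K * (Fintype.card ι + 1) / (η * w))) E := by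
  obtain ⟨C, hC⟩ := k6a1_node j dg hj k hk
  refine ⟨C, ?_⟩
  intro D ι _ Pk G d K η w εb nf E0 hK hη hη1 hw hw1 hεb hD hE0 hE0s ha hraw hG hbrd
  have hc0 : (0 : ℝ) ≤ Fintype.card ι := Nat.cast_nonneg _
  have hc : (0 : ℝ) < (Fintype.card ι : ℝ) + 1 := by linarith
  have hη' : 0 < η / ((Fintype.card ι : ℝ) + 1) := by positivity
  have hη'1 : η / ((Fintype.card ι : ℝ) + 1) ≤ 1 := by
    rw [div_le_one hc]; linarith
  have key := fun a => hC D (Pk a) (G a) d K (η / ((Fintype.card ι : ℝ) + 1)) w εb (nf a) E0 hK hη' hη'1 hw hw1 hεb hD hE0 hE0s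
    (ha a) (hraw a) (hG a) (hbrd a)
  choose Ea hEm hEs hEl hEg using key
  refine ⟨E0 ∩ ⋂ a, Ea a, hE0.inter (MeasurableSet.iInter hEm), Set.inter_subset_left, ?_, fun a => ?_⟩
  · refine (k6a1_loss_iInter D.prior E0 Ea (η / ((Fintype.card ι : ℝ) + 1) + εb) (by positivity) hEl).trans
      (ENNReal.ofReal_le_ofReal ?_)
    have h1 : (Fintype.card ι : ℝ) * (η / ((Fintype.card ι : ℝ) + 1)) ≤ η := by
      rw [← mul_div_assoc, div_le_iff₀ hc]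
      nlinarith
    linarith
  · have e : K / (η / ((Fintype.card ι : ℝ) + 1) * w) = K * ((Fintype.card ι : ℝ) + 1) / (η * w) := by
      field_simp
    have h1 := hEg a
    rw [e] at h1
    exact k6a1_graphs_mono h1 (Set.inter_subset_right.trans (Set.iInter_subset _ a)) le_rfl (hraw a).a_pos.le

theorem k6a1_m_comp (C C₁ : ℕ) : ∃ C' : ℕ, ∀ X Y : ℝ, 1 ≤ X → 1 ≤ Y → Y ≤ k6a1K C₁ X → k6a1K C Y ≤ k6a1K C' X :=
  ⟨C * C₁ ^ C + C₁ * C, fun _ _ hX hY h => (k6a1_K_mono le_rfl hY h).trans (k6a1_K_comp C C₁ hX)⟩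

theorem k6a1_m_mul (C₁ C₂ : ℕ) : ∃ C' : ℕ, ∀ X Y Z : ℝ, 1 ≤ X → 0 ≤ Y → 0 ≤ Z → Y ≤ k6a1K C₁ X → Z ≤ k6a1K C₂ X →
    Y * Z ≤ k6a1K C' X :=
  ⟨C₁ * C₂ + C₁ + C₂, fun _ _ _ hX _ hZ h1 h2 =>
    (mul_le_mul h1 h2 hZ (k6a1_K_nonneg _ (by linarith))).trans (k6a1_K_mul C₁ C₂ hX)⟩

theorem k6a1_m_num (K η N : ℝ) (hK : 1 ≤ K) (hη : 0 < η) (hη1 : η ≤ 1) (hN : 1 ≤ N) :
    1 ≤ K * N / η ∧ K ≤ K * N / η ∧ 1 / η ≤ K * N / η ∧ N / η ≤ K * N / η := by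
  have hKN : 1 ≤ K * N := one_le_mul_of_one_le_of_one_le hK hN
  have hK0 : 0 < K := by linarith
  refine ⟨?_, ?_, ?_, ?_⟩
  · rw [le_div_iff₀ hη]; linarith
  · rw [le_div_iff₀ hη]
    calc K * η ≤ K * 1 := mul_le_mul_of_nonneg_left hη1 hK0.le
      _ ≤ K * N := mul_le_mul_of_nonneg_left hN hK0.le
  · exact div_le_div_of_nonneg_right hKN hη.le
  · refine div_le_div_of_nonneg_right ?_ hη.le
    calc N = 1 * N := (one_mul N).symm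
      _ ≤ K * N := mul_le_mul_of_nonneg_right hK (by linarith)

theorem k6a1_m_nine (X Y : ℝ) (hX : 1 ≤ X) (hY : Y ≤ X) : 8 * Y ≤ k6a1K 9 X := by
  have h := k6a1_K_of_pow 8 1 hX
  norm_num at h
  linarith

theorem k6a1_m_Kr (K η X : ℝ) (hK : 1 ≤ K) (hη : 0 < η) (hη1 : η ≤ 1) (hKX : K ≤ X) (hηX : 1 / η ≤ X) :
    K ≤ K ^ 3 / (η / 8) ∧ K ^ 3 / (η / 8) ≤ k6a1K 12 X := by
  have hX : 1 ≤ X := hK.trans hKX
  have hK0 : 0 < K := by linarith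
  constructor
  · rw [le_div_iff₀ (by positivity)]
    have h1 : K * (η / 8) ≤ K * 1 := mul_le_mul_of_nonneg_left (by linarith) hK0.le
    have h2 : K * 1 ≤ K ^ 3 := by
      rw [mul_one]
      exact le_self_pow₀ hK (by norm_num)
    linarith
  · have h := k6a1_K_of_pow 8 4 hX
    norm_num at h
    refine le_trans ?_ h
    have e : K ^ 3 / (η / 8) = 8 * (K ^ 3 * (1 / η)) := by field_simp
    rw [e]
    have h3 : K ^ 3 ≤ X ^ 3 := pow_le_pow_left₀ hK0.le hKX 3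
    have h4 : K ^ 3 * (1 / η) ≤ X ^ 3 * X := mul_le_mul h3 hηX (by positivity) (by positivity)
    calc 8 * (K ^ 3 * (1 / η)) ≤ 8 * (X ^ 3 * X) := by linarith
      _ = 8 * X ^ 4 := by ring

theorem k6a1_m_split (C : ℕ) (A P : ℝ) : k6a1K C (A * P) = k6a1K C A * P ^ C := by
  unfold k6a1K
  rw [mul_pow]
  ring

theorem k6a1_m_P (n0 C : ℕ) (ε₀ : ℝ) (hε : 0 < ε₀) :
    1 ≤ ((2 : ℝ) ^ n0) ^ (ε₀ / ((C : ℝ) + 1)) ∧ ((2 : ℝ) ^ n0) ^ (ε₀ / ((C : ℝ) + 1)) ≤ ((2 : ℝ) ^ n0) ^ ε₀ ∧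
      (((2 : ℝ) ^ n0) ^ (ε₀ / ((C : ℝ) + 1))) ^ C ≤ ((2 : ℝ) ^ n0) ^ ε₀ := by
  have h2 : (1 : ℝ) ≤ (2 : ℝ) ^ n0 := one_le_pow₀ (by norm_num)
  have hC : (0 : ℝ) ≤ C := Nat.cast_nonneg C
  have hC1 : (0 : ℝ) < (C : ℝ) + 1 := by linarith
  refine ⟨Real.one_le_rpow h2 (by positivity), Real.rpow_le_rpow_of_exponent_le h2 ?_, ?_⟩
  · rw [div_le_iff₀ hC1]; nlinarith
  · rw [← Real.rpow_mul_natCast (by positivity)]
    refine Real.rpow_le_rpow_of_exponent_le h2 ?_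
    rw [div_mul_eq_mul_div, div_le_iff₀ hC1]
    nlinarith

/-- **everything which follows from the caps, the histories and the counts** (no nodes, no breadth).
ORDER (budget `η / 8` for every step; `X = K (n0 + 1) / η`; every slack is `k6a1K C_m X`, `k6a1_K_comp`, `k6a1_K_mul`, `k6a1_K_mono`):
`k6a1_dom` on `E0` gives `Ed`; `E2 = E ∩ Ed`; `k6a1_rect` (+ `_mono`);   `k6a1_support` on `E2` (`k6a1_cap_mono`, counts by `k6a1_cnt_mono`) gives `E3`;   `k6a1_slice` on `E3` (`K₀ = K`) gives `E4`;   `k6a1_long` on `E4` gives `Lc`, `E5 = E4 ∩ Lc × univ`;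
`k6a1_coef` with the family `E4`;   `k6a1_floor` on `E5` gives `E6`;   `k6a1_blocks` on `E6` gives `E7`;   `k6a1_phys_mk` for `E7` with all clauses transported by the `_mono` lemmas. -/
theorem k6a1_caps (j : ℕ) (d ε₀ : ℝ) (hd : 0 ≤ d) (hd1 : d < 1) (hε : 0 < ε₀) : ∃ C : ℕ, ∀ (D : K6aDat j) (Hd : K6a1Hist D) (K η : ℝ) (n0 n1 : ℕ) (E0 E : Set (D.L × ℝ)),
    1 ≤ K → 0 < η → η ≤ 1 → D.WF K → MeasurableSet E0 → E0 ⊆ Set.univ ×ˢ Set.Icc (0 : ℝ) 1 → MeasurableSet E → E ⊆ E0 → n0 ≤ n1 → 4 * K * k6aW n1 ≤ k6aW n0 →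
    K6a1Cap D d K n1 E0 → Hd.Ok K n1 E0 → (∀ i ≤ n0, k6a1Cnt E (D.wc i) (K * ((2 : ℝ) ^ i) ^ ((j : ℝ) + 1 + d))) →
    ∃ (E' : Set (D.L × ℝ)) (Lc : Set D.L), E' ⊆ E ∧ D.prior (E \ E') ≤ ENNReal.ofReal η ∧
      K6aPhys D d (k6a1K C (K * (n0 + 1) / η) * ((2 : ℝ) ^ n0) ^ ε₀) n0 E' Lc (fun s => D.prior (E0 ∩ D.ms n0 ⁻¹' {s})) := by
  obtain ⟨Csup, hsup⟩ := k6a1_support j d hd
  obtain ⟨Csl, hsl⟩ := k6a1_slice j d hd
  obtain ⟨Cco, hco⟩ := k6a1_coef j d hd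
  obtain ⟨Cbl, hbl⟩ := k6a1_blocks j d
  have hε1 : 0 < ε₀ / ((Cbl : ℝ) + 1) := by positivity
  obtain ⟨Cfl, hfl⟩ := k6a1_floor j d (ε₀ / ((Cbl : ℝ) + 1)) hd hd1 hε1
  obtain ⟨cq, hcq⟩ := k6a1_m_mul 12 12
  obtain ⟨cs1, hcs1⟩ := k6a1_m_comp Csup 9
  obtain ⟨cq8, hcq8⟩ := k6a1_m_mul cq 9
  obtain ⟨cs2, hcs2⟩ := k6a1_m_comp Csl cq8
  obtain ⟨cs3, hcs3⟩ := k6a1_m_comp Cco cq8
  obtain ⟨c58, hc58⟩ := k6a1_m_mul (cs1 + cs3 + 1) 9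
  obtain ⟨cs4, hcs4⟩ := k6a1_m_comp Cfl c58
  obtain ⟨c68, hc68⟩ := k6a1_m_mul (cs4 + cq + 1) 9
  obtain ⟨cs5, hcs5⟩ := k6a1_m_comp Cbl c68
  refine ⟨12 + cq + cs1 + cs2 + cs3 + cs4 + cs5 + 1, ?_⟩
  intro D Hd K η n0 n1 E0 E hK hη hη1 hD hE0 hE0s hE hEE0 hn hfine hcap hHd hcnt
  have hN : (1 : ℝ) ≤ (n0 : ℝ) + 1 := by linarith [(Nat.cast_nonneg n0 : (0 : ℝ) ≤ n0)]
  obtain ⟨hX1, hKX, hηX, hnX⟩ := k6a1_m_num K η ((n0 : ℝ) + 1) hK hη hη1 hN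
  obtain ⟨X, hXdef⟩ : ∃ X : ℝ, X = K * ((n0 : ℝ) + 1) / η := ⟨_, rfl⟩
  rw [← hXdef] at hX1 hKX hηX hnX ⊢
  obtain ⟨hP1, hP10, hP1C⟩ := k6a1_m_P n0 Cbl ε₀ hε
  obtain ⟨P₁, hP₁⟩ : ∃ P : ℝ, P = ((2 : ℝ) ^ n0) ^ (ε₀ / ((Cbl : ℝ) + 1)) := ⟨_, rfl⟩
  obtain ⟨P₀, hP₀⟩ : ∃ P : ℝ, P = ((2 : ℝ) ^ n0) ^ ε₀ := ⟨_, rfl⟩
  rw [← hP₁, ← hP₀] at hP1C hP10
  rw [← hP₁] at hP1
  rw [← hP₀]
  have hP01 : 1 ≤ P₀ := hP1.trans hP10
  have hη8 : 0 < η / 8 := by positivity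
  have hη81 : η / 8 ≤ 1 := by linarith
  obtain ⟨hKKr, hKr12⟩ := k6a1_m_Kr K η X hK hη hη1 hKX hηX
  obtain ⟨Kr, hKrdef⟩ : ∃ Kr : ℝ, Kr = K ^ 3 / (η / 8) := ⟨_, rfl⟩
  rw [← hKrdef] at hKKr hKr12
  have hKr1 : 1 ≤ Kr := hK.trans hKKr
  have hKq : Kr ^ 2 ≤ k6a1K cq X := by
    rw [sq]; exact hcq X Kr Kr hX1 (by linarith) (by linarith) hKr12 hKr12
  have hKq1 : 1 ≤ Kr ^ 2 := one_le_pow₀ hKr1
  have hKKq : K ≤ Kr ^ 2 := hKKr.trans (le_self_pow₀ hKr1 two_ne_zero)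
  -- the arguments of the slacks
  have a1 : K * ((n0 : ℝ) + 1) / (η / 8) = 8 * X := by rw [hXdef]; field_simp
  have a2 : Kr ^ 2 / (η / 8) = Kr ^ 2 * (8 * (1 / η)) := by field_simp
  have b1 : 8 * X ≤ k6a1K 9 X := k6a1_m_nine X X hX1 le_rfl
  have b2 : 8 * (1 / η) ≤ k6a1K 9 X := k6a1_m_nine X _ hX1 hηX
  have b3 : 8 * (((n0 : ℝ) + 1) / η) ≤ k6a1K 9 X := k6a1_m_nine X _ hX1 hnX
  have b2' : 1 ≤ 8 * (1 / η) := by
    have : 1 ≤ 1 / η := by rw [le_div_iff₀ hη]; linarith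
    linarith
  have b3' : 1 ≤ 8 * (((n0 : ℝ) + 1) / η) := by
    have : 1 ≤ ((n0 : ℝ) + 1) / η := by rw [le_div_iff₀ hη]; linarith
    linarith
  -- the slacks
  have s1 : k6a1K Csup (K * ((n0 : ℝ) + 1) / (η / 8)) ≤ k6a1K cs1 X := by
    rw [a1]; exact hcs1 X _ hX1 (by linarith) b1
  have q8 : Kr ^ 2 / (η / 8) ≤ k6a1K cq8 X := by
    rw [a2]; exact hcq8 X _ _ hX1 (by linarith) (by linarith) hKq b2
  have q8' : 1 ≤ Kr ^ 2 / (η / 8) := by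
    rw [a2]; exact one_le_mul_of_one_le_of_one_le hKq1 b2'
  have s2 : k6a1K Csl (Kr ^ 2 / (η / 8)) ≤ k6a1K cs2 X := hcs2 X _ hX1 q8' q8
  have s3 : k6a1K Cco (Kr ^ 2 / (η / 8)) ≤ k6a1K cs3 X := hcs3 X _ hX1 q8' q8
  obtain ⟨K5, hK5⟩ : ∃ K5 : ℝ, K5 = k6a1K (cs1 + cs3 + 1) X := ⟨_, rfl⟩
  have hK51 : 1 ≤ K5 := by rw [hK5]; exact k6a1_K_one_le (by omega) hX1
  have hKK5 : K ≤ K5 := by rw [hK5]; exact hKX.trans (k6a1_K_ge (by omega) hX1)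
  have a5 : K5 * ((n0 : ℝ) + 1) / (η / 8) = K5 * (8 * (((n0 : ℝ) + 1) / η)) := by field_simp
  have q5 : K5 * ((n0 : ℝ) + 1) / (η / 8) ≤ k6a1K c58 X := by
    rw [a5]; exact hc58 X _ _ hX1 (by linarith) (by linarith) hK5.le b3
  have q5' : 1 ≤ K5 * ((n0 : ℝ) + 1) / (η / 8) := by
    rw [a5]; exact one_le_mul_of_one_le_of_one_le hK51 b3'
  have s4 : k6a1K Cfl (K5 * ((n0 : ℝ) + 1) / (η / 8)) ≤ k6a1K cs4 X := hcs4 X _ hX1 q5' q5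
  obtain ⟨A6, hA6⟩ : ∃ A6 : ℝ, A6 = k6a1K (cs4 + cq + 1) X := ⟨_, rfl⟩
  have hA61 : 1 ≤ A6 := by rw [hA6]; exact k6a1_K_one_le (by omega) hX1
  have hKA6 : K ≤ A6 := by rw [hA6]; exact hKX.trans (k6a1_K_ge (by omega) hX1)
  have hA6P : A6 ≤ A6 * P₁ := le_mul_of_one_le_right (by linarith) hP1
  have a6 : A6 * P₁ * ((n0 : ℝ) + 1) / (η / 8) = A6 * (8 * (((n0 : ℝ) + 1) / η)) * P₁ := by field_simp
  have q6 : A6 * (8 * (((n0 : ℝ) + 1) / η)) ≤ k6a1K c68 X :=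
    hc68 X _ _ hX1 (by linarith) (by linarith) hA6.le b3
  have q6' : 1 ≤ A6 * (8 * (((n0 : ℝ) + 1) / η)) := one_le_mul_of_one_le_of_one_le hA61 b3'
  have s5 : k6a1K Cbl (A6 * P₁ * ((n0 : ℝ) + 1) / (η / 8)) ≤ k6a1K cs5 X * P₀ := by
    rw [a6, k6a1_m_split]
    exact mul_le_mul (hcs5 X _ hX1 q6' q6) hP1C (by positivity) (k6a1_K_nonneg _ (by linarith))
  -- the final slack
  obtain ⟨Kf, hKf⟩ : ∃ Kf : ℝ, Kf = k6a1K (12 + cq + cs1 + cs2 + cs3 + cs4 + cs5 + 1) X * P₀ := ⟨_, rfl⟩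
  rw [← hKf]
  have hfin : ∀ c : ℕ, c ≤ 12 + cq + cs1 + cs2 + cs3 + cs4 + cs5 + 1 → ∀ P : ℝ, 0 ≤ P → P ≤ P₀ → k6a1K c X * P ≤ Kf := by
    intro c hc P hP hPP
    rw [hKf]
    exact mul_le_mul (k6a1_K_mono hc hX1 le_rfl) hPP hP (k6a1_K_nonneg _ (by linarith))
  have hfin1 : ∀ c : ℕ, c ≤ 12 + cq + cs1 + cs2 + cs3 + cs4 + cs5 + 1 → k6a1K c X ≤ Kf := by
    intro c hc
    have := hfin c hc 1 zero_le_one hP01
    rwa [mul_one] at this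
  have hKf1 : 1 ≤ Kf := (k6a1_K_one_le (C := 12) (by omega) hX1).trans (hfin1 12 (by omega))
  have hKKf : K ≤ Kf := (hKX.trans (k6a1_K_ge (C := 12) (by omega) hX1)).trans (hfin1 12 (by omega))
  -- step 1: the ceiling
  obtain ⟨Ed, hEdm, hEds, hEdl, hEdd⟩ := k6a1_dom D Hd K (η / 8) n1 E0 hK hη8 hη81 hD hE0 hHd
  rw [← hKrdef] at hEdd
  have hE2m : MeasurableSet (E ∩ Ed) := hE.inter hEdm
  have hE2E0 : E ∩ Ed ⊆ E0 := Set.inter_subset_left.trans hEE0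
  have hsub2 : E \ (E ∩ Ed) ⊆ E0 \ Ed := fun x hx => ⟨hEE0 hx.1, fun h => hx.2 ⟨hx.1, h⟩⟩
  have hl2 : D.prior (E \ (E ∩ Ed)) ≤ ENNReal.ofReal (η / 8) := (measure_mono hsub2).trans hEdl
  have hdom2 : K6a1Dom D Kr n1 E0 (E ∩ Ed) := k6a1_dom_mono hEdd Set.inter_subset_right le_rfl
  have hrect2 : K6a1Rect D d (Kr ^ 2) n1 (E ∩ Ed) :=
    k6a1_rect D d Kr n1 E0 (E ∩ Ed) hKr1 (k6a1_cap_mono hcap subset_rfl hKKr le_rfl) hdom2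
  -- step 2: support
  obtain ⟨E3, hE3m, hE3s, hE3l, hloc3, hfib3⟩ := hsup D K (η / 8) n0 n1 (E ∩ Ed) hK hη8 hη81 hD hE2m (hE2E0.trans hE0s) hn
    (k6a1_cap_mono hcap hE2E0 le_rfl le_rfl) (fun i hi => k6a1_cnt_mono (hcnt i hi) Set.inter_subset_left le_rfl)
  have hE3E0 : E3 ⊆ E0 := hE3s.trans hE2E0
  -- step 3: slices
  obtain ⟨E4, hE4m, hE4s, hE4l, hsl4⟩ := hsl D K (Kr ^ 2) (η / 8) n0 n1 E3 hK hKKq hη8 hη81 hD hE3m (hE3E0.trans hE0s) hn hfine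
    (k6a1_rect_mono hrect2 hE3s le_rfl le_rfl)
  have hE4E0 : E4 ⊆ E0 := hE4s.trans hE3E0
  have hrect4 : K6a1Rect D d (Kr ^ 2) n1 E4 := k6a1_rect_mono hrect2 (hE4s.trans hE3s) le_rfl le_rfl
  -- step 4: long lines
  obtain ⟨Lc, hLcm, hLcl, hLclong⟩ := k6a1_long D K (η / 8) E4 hη8 hD hE4m
  have hE5m : MeasurableSet (E4 ∩ Lc ×ˢ Set.univ) := hE4m.inter (hLcm.prod MeasurableSet.univ)
  have hl5 : D.prior (E4 \ (E4 ∩ Lc ×ˢ Set.univ)) ≤ ENNReal.ofReal (η / 8) := by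
    rw [Set.sdiff_self_inter]; exact hLcl
  have hE5s : E4 ∩ Lc ×ˢ Set.univ ⊆ Lc ×ˢ Set.Icc (0 : ℝ) 1 := fun x hx => ⟨hx.2.1, (hE0s (hE4E0 hx.1)).2⟩
  -- step 5: coefficient caps
  have hco6 := hco D (Kr ^ 2) (η / 8) n0 n1 E4 Lc hKq1 hη8 hη81 (k6a1_wf_mono hD hKKq) hE4m (hE4E0.trans hE0s) hLcm hn hrect4 hLclong
  -- step 6: floors
  have hco5 : K6a1Coef D d K5 n0 Lc := k6a1_coef_mono hco6 (s3.trans (by rw [hK5]; exact k6a1_K_mono (by omega) hX1 le_rfl))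
  have hfib5 : K6a1Fib D d K5 n0 (E4 ∩ Lc ×ˢ Set.univ) :=
    k6a1_fib_mono hfib3 (Set.inter_subset_left.trans hE4s) (s1.trans (by rw [hK5]; exact k6a1_K_mono (by omega) hX1 le_rfl))
  obtain ⟨E6, hE6m, hE6s, hE6l, hlo6⟩ := hfl D K5 (η / 8) n0 (E4 ∩ Lc ×ˢ Set.univ) Lc hK51 hη8 hη81 (k6a1_wf_mono hD hKK5) hE5m hLcm
    hE5s hco5 hfib5
  rw [← hP₁] at hlo6
  have hE6E4 : E6 ⊆ E4 := hE6s.trans Set.inter_subset_left
  -- step 7: blocks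
  have hlo6' : K6a1Lo D d (A6 * P₁) n0 E6 Lc := by
    refine k6a1_lo_mono hlo6 subset_rfl (mul_le_mul_of_nonneg_right (s4.trans ?_) (by linarith))
    rw [hA6]; exact k6a1_K_mono (by omega) hX1 le_rfl
  have hrect6 : K6a1Rect D d (A6 * P₁) n1 E6 := by
    refine k6a1_rect_mono hrect4 hE6E4 ((hKq.trans ?_).trans hA6P) le_rfl
    rw [hA6]; exact k6a1_K_mono (by omega) hX1 le_rfl
  obtain ⟨E7, hE7m, hE7s, hE7l, hli7⟩ := hbl D (A6 * P₁) (η / 8) n0 n1 E6 Lc (hA61.trans hA6P) hη8 hη81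
    (k6a1_wf_mono hD (hKA6.trans hA6P)) hE6m hLcm (hE6s.trans hE5s) hn hrect6 hlo6'
  have hE7E4 : E7 ⊆ E4 := hE7s.trans hE6E4
  have hE7E2 : E7 ⊆ E ∩ Ed := hE7E4.trans (hE4s.trans hE3s)
  -- the losses
  have L1 := k6a1_loss_trans D.prior hη8.le hη8.le hl2 hE3l
  have L2 := k6a1_loss_trans D.prior (by positivity) hη8.le L1 hE4l
  have L3 := k6a1_loss_trans D.prior (by positivity) hη8.le L2 hl5
  have L4 := k6a1_loss_trans D.prior (by positivity) hη8.le L3 hE6l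
  have L5 := k6a1_loss_trans D.prior (by positivity) hη8.le L4 hE7l
  refine ⟨E7, Lc, hE7E2.trans Set.inter_subset_left, L5.trans (ENNReal.ofReal_le_ofReal (by linarith)), ?_⟩
  refine k6a1_phys_mk D d Kf n0 n1 E0 E7 Lc hKf1 (k6a1_wf_mono hD hKKf) hn hE7m hLcm ((hE7s.trans hE6s).trans hE5s)
    (hE7E4.trans hE4E0) (k6a1_cap_mono hcap subset_rfl hKKf le_rfl) ?_ ?_ ?_ ?_ ?_ ?_ ?_
  · exact k6a1_dom_mono hdom2 hE7E2 (hKr12.trans (hfin1 12 (by omega)))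
  · exact k6a1_loc_mono hloc3 (hE7E4.trans hE4s) (s1.trans (hfin1 cs1 (by omega)))
  · exact k6a1_fib_mono hfib3 (hE7E4.trans hE4s) (s1.trans (hfin1 cs1 (by omega)))
  · exact k6a1_slice_mono hsl4 hE7E4 (s2.trans (hfin1 cs2 (by omega)))
  · exact k6a1_coef_mono hco6 (s3.trans (hfin1 cs3 (by omega)))
  · refine k6a1_lo_mono hlo6 hE7s ((mul_le_mul_of_nonneg_right s4 (by linarith)).trans (hfin cs4 (by omega) P₁ (by linarith) hP10))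
  · exact k6a1_list_mono hli7 subset_rfl (s5.trans (hfin cs5 (by omega) P₀ (by linarith) le_rfl))

theorem k6a1_m_num2 (K η w N M : ℝ) (hK : 1 ≤ K) (hη : 0 < η) (hη1 : η ≤ 1) (hw : 0 < w) (hw1 : w ≤ 1) (hN : 1 ≤ N) (hM : 1 ≤ M) :
    1 ≤ K * N * M / (η * w) ∧ K ≤ K * N * M / (η * w) ∧ K * M / (η * w) ≤ K * N * M / (η * w) ∧ N / η ≤ K * N * M / (η * w) := by
  have hηw : 0 < η * w := by positivity
  have hηw1 : η * w ≤ 1 := mul_le_one₀ hη1 hw.le hw1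
  have hNM : 1 ≤ N * M := one_le_mul_of_one_le_of_one_le hN hM
  obtain ⟨h1, h2, _, _⟩ := k6a1_m_num K (η * w) (N * M) hK hηw hηw1 hNM
  rw [← mul_assoc] at h1 h2
  have hK0 : 0 < K := by linarith
  refine ⟨h1, h2, div_le_div_of_nonneg_right ?_ hηw.le, ?_⟩
  · have : K * 1 * M ≤ K * N * M :=
      mul_le_mul_of_nonneg_right (mul_le_mul_of_nonneg_left hN hK0.le) (by linarith)
    linarith
  · rw [div_le_div_iff₀ hη hηw]
    have hKM : 1 ≤ K * M := one_le_mul_of_one_le_of_one_le hK hM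
    have h3 : N * w ≤ N * (K * M) := mul_le_mul_of_nonneg_left (hw1.trans hKM) (by linarith)
    calc N * (η * w) = (N * w) * η := by ring
      _ ≤ (N * (K * M)) * η := mul_le_mul_of_nonneg_right h3 hη.le
      _ = K * N * M * η := by ring

theorem k6a1_m_three (X Y : ℝ) (hX : 1 ≤ X) (hY : Y ≤ X) : 2 * Y ≤ k6a1K 3 X := by
  have h := k6a1_K_of_pow 2 1 hX
  norm_num at h
  linarith

theorem k6a1_m_four (X : ℝ) (hX : 1 ≤ X) : 4 ≤ k6a1K 4 X := by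
  have h := k6a1_K_of_pow 4 0 hX
  norm_num at h
  linarith

/-- **THE ABSTRACT EXIT OF S6a1.**   `ι` = the nodes (a `K`-dense list of thicknesses down to `W_{n0}`, hypothesis `hlev`), `E0` = the prepared family of the parent.
PLAN: `k6a1_nodes` (budget `η / 2`) gives `E1`;   for `i ≤ n0` the node of `hlev` and `k6a1_count` (on `E1`, `k6a1_pkraw_mono`) give the counts with a slack `K₁ = k6a1K C₁ X`, `X = K (n0 + 1) (card ι + 1) / (η w)`;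
`k6a1_caps` with `K₁` (all hypotheses are monotone in the slack: `k6a1_cap_mono`, `WF`, `Hist.Ok`; `4 K₁ W_{n1} ≤ W_{n0}` is the hypothesis `hfine`), budget `η / 2`. -/
theorem k6a1_exit (j dg : ℕ) (hj : 1 ≤ j) (d k ε₀ : ℝ) (hd : 0 ≤ d) (hd1 : d < 1) (hk : k ≤ 1) (hε : 0 < ε₀) : ∃ C : ℕ, ∀ (D : K6aDat j) (Hd : K6a1Hist D) (ι : Type) [Fintype ι]
    (Pk : ι → K6aPk D) (G : ∀ a, K6a1En D (Pk a)) (K η w εb : ℝ) (n0 n1 : ℕ) (nf : ι → ℕ) (E0 : Set (D.L × ℝ)),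
    1 ≤ K → 0 < η → η ≤ 1 → 0 < w → w ≤ 1 → 0 ≤ εb → D.WF K → MeasurableSet E0 → E0 ⊆ Set.univ ×ˢ Set.Icc (0 : ℝ) 1 → n0 ≤ n1 →
    k6a1K C (K * (n0 + 1) * (Fintype.card ι + 1) / (η * w)) * k6aW n1 ≤ k6aW n0 →
    K6a1Cap D d K n1 E0 → Hd.Ok K n1 E0 → (∀ a, (Pk a).a ≤ 1) → (∀ a, K6a1PkRaw (Pk a) d k K E0) → (∀ a, (G a).Ok dg K (nf a) E0) →
    (∀ a, K6aBrd D E0 ((G a).st (nf a)) 1 w εb) → (∀ i ≤ n0, ∃ a, (Pk a).a ≤ k6aW i ∧ k6aW i ≤ K * (Pk a).a) →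
    ∃ (E : Set (D.L × ℝ)) (Lc : Set D.L), E ⊆ E0 ∧ D.prior (E0 \ E) ≤ ENNReal.ofReal (η + Fintype.card ι * εb) ∧
      K6aPhys D d (k6a1K C (K * (n0 + 1) * (Fintype.card ι + 1) / (η * w)) * ((2 : ℝ) ^ n0) ^ ε₀) n0 E Lc (fun s => D.prior (E0 ∩ D.ms n0 ⁻¹' {s})) ∧
      ∀ a, K6a1Graphs (Pk a) (k6a1K C (K * (n0 + 1) * (Fintype.card ι + 1) / (η * w))) E := by
  obtain ⟨Cn, hnodes⟩ := k6a1_nodes j dg hj k hk
  obtain ⟨Cc, hcount⟩ := k6a1_count j d k hd hd1.le hk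
  obtain ⟨Cp, hcaps⟩ := k6a1_caps j d ε₀ hd hd1 hε
  obtain ⟨cg, hcg⟩ := k6a1_m_comp Cn 3
  obtain ⟨c1, hc1⟩ := k6a1_m_comp Cc (cg + 1)
  obtain ⟨c2, hc2⟩ := k6a1_m_mul (c1 + 1) 3
  obtain ⟨c3, hc3⟩ := k6a1_m_comp Cp c2
  obtain ⟨c4, hc4⟩ := k6a1_m_mul 4 (c1 + 1)
  refine ⟨cg + c3 + c4 + 1, ?_⟩
  intro D Hd ι _ Pk G K η w εb n0 n1 nf E0 hK hη hη1 hw hw1 hεb hD hE0 hE0s hn hfine hcap hHd ha hraw hG hbrd hlev
  have hN : (1 : ℝ) ≤ (n0 : ℝ) + 1 := by linarith [(Nat.cast_nonneg n0 : (0 : ℝ) ≤ n0)]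
  have hM : (1 : ℝ) ≤ (Fintype.card ι : ℝ) + 1 := by linarith [(Nat.cast_nonneg (Fintype.card ι) : (0 : ℝ) ≤ Fintype.card ι)]
  obtain ⟨hX1, hKX, hMX, hNX⟩ := k6a1_m_num2 K η w _ _ hK hη hη1 hw hw1 hN hM
  obtain ⟨X, hXdef⟩ : ∃ X : ℝ, X = K * ((n0 : ℝ) + 1) * ((Fintype.card ι : ℝ) + 1) / (η * w) := ⟨_, rfl⟩
  rw [← hXdef] at hX1 hKX hMX hNX hfine ⊢
  have hK0 : 0 < K := by linarith
  have hη2 : 0 < η / 2 := by positivity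
  have hη21 : η / 2 ≤ 1 := by linarith
  -- slacks
  have a1 : K * ((Fintype.card ι : ℝ) + 1) / (η / 2 * w) = 2 * (K * ((Fintype.card ι : ℝ) + 1) / (η * w)) := by field_simp
  have a1' : 1 ≤ K * ((Fintype.card ι : ℝ) + 1) / (η * w) := by
    rw [le_div_iff₀ (by positivity)]
    have h1 : η * w ≤ 1 := mul_le_one₀ hη1 hw.le hw1
    have h2 : 1 ≤ K * ((Fintype.card ι : ℝ) + 1) := one_le_mul_of_one_le_of_one_le hK hM
    linarith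
  have g1 : k6a1K Cn (K * ((Fintype.card ι : ℝ) + 1) / (η / 2 * w)) ≤ k6a1K cg X := by
    rw [a1]; exact hcg X _ hX1 (by linarith) (k6a1_m_three X _ hX1 hMX)
  obtain ⟨Kc, hKc⟩ : ∃ Kc : ℝ, Kc = k6a1K (cg + 1) X := ⟨_, rfl⟩
  have hKc1 : 1 ≤ Kc := by rw [hKc]; exact k6a1_K_one_le (by omega) hX1
  have hKKc : K ≤ Kc := by rw [hKc]; exact hKX.trans (k6a1_K_ge (by omega) hX1)
  have g1c : k6a1K Cn (K * ((Fintype.card ι : ℝ) + 1) / (η / 2 * w)) ≤ Kc := by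
    rw [hKc]; exact g1.trans (k6a1_K_mono (by omega) hX1 le_rfl)
  obtain ⟨K1, hK1⟩ : ∃ K1 : ℝ, K1 = k6a1K (c1 + 1) X := ⟨_, rfl⟩
  have hK11 : 1 ≤ K1 := by rw [hK1]; exact k6a1_K_one_le (by omega) hX1
  have hKK1 : K ≤ K1 := by rw [hK1]; exact hKX.trans (k6a1_K_ge (by omega) hX1)
  have g2 : k6a1K Cc Kc ≤ K1 := by
    rw [hK1]; exact (hc1 X Kc hX1 hKc1 hKc.le).trans (k6a1_K_mono (by omega) hX1 le_rfl)
  have a3 : K1 * ((n0 : ℝ) + 1) / (η / 2) = K1 * (2 * (((n0 : ℝ) + 1) / η)) := by field_simp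
  have a3' : 1 ≤ 2 * (((n0 : ℝ) + 1) / η) := by
    have : 1 ≤ ((n0 : ℝ) + 1) / η := by rw [le_div_iff₀ hη]; linarith
    linarith
  have g3 : k6a1K Cp (K1 * ((n0 : ℝ) + 1) / (η / 2)) ≤ k6a1K c3 X := by
    rw [a3]
    exact hc3 X _ hX1 (one_le_mul_of_one_le_of_one_le hK11 a3')
      (hc2 X _ _ hX1 (by linarith) (by linarith) hK1.le (k6a1_m_three X _ hX1 hNX))
  have g4 : 4 * K1 ≤ k6a1K (cg + c3 + c4 + 1) X :=
    (hc4 X 4 K1 hX1 (by norm_num) (by linarith) (k6a1_m_four X hX1) hK1.le).trans (k6a1_K_mono (by omega) hX1 le_rfl)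
  -- step 1: the nodes
  obtain ⟨E1, hE1m, hE1s, hE1l, hE1g⟩ := hnodes D ι Pk G d K (η / 2) w εb nf E0 hK hη2 hη21 hw hw1 hεb hD hE0 hE0s ha hraw hG hbrd
  -- step 2: the counts
  have hcnt : ∀ i ≤ n0, k6a1Cnt E1 (D.wc i) (K1 * ((2 : ℝ) ^ i) ^ ((j : ℝ) + 1 + d)) := by
    intro i hi
    obtain ⟨a, ha1, ha2⟩ := hlev i hi
    have hapos := (hraw a).a_pos
    refine k6a1_cnt_mono (hcount D (Pk a) Kc E1 i hKc1 (k6a1_wf_mono hD hKKc) (hE1s.trans hE0s)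
      (k6a1_pkraw_mono (hraw a) hE1s hKKc hK0.le) (k6a1_graphs_mono (hE1g a) subset_rfl g1c hapos.le) (ha a) ha1
      (ha2.trans (mul_le_mul_of_nonneg_right hKKc hapos.le))) subset_rfl ?_
    exact mul_le_mul_of_nonneg_right g2 (Real.rpow_nonneg (by positivity) _)
  -- step 3: the caps
  have hfine' : 4 * K1 * k6aW n1 ≤ k6aW n0 :=
    (mul_le_mul_of_nonneg_right g4 (k6a1_W_pos n1).le).trans hfine
  obtain ⟨E', Lc, hE's, hE'l, hphys⟩ := hcaps D Hd K1 (η / 2) n0 n1 E0 E1 hK11 hη2 hη21 (k6a1_wf_mono hD hKK1) hE0 hE0s hE1m hE1s hn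
    hfine' (k6a1_cap_mono hcap subset_rfl hKK1 le_rfl) (k6a1_hist_mono hHd hKK1) hcnt
  have hc0 : (0 : ℝ) ≤ (Fintype.card ι : ℝ) * εb := by positivity
  refine ⟨E', Lc, hE's.trans hE1s, ?_, ?_, fun a => ?_⟩
  · refine (k6a1_loss_trans D.prior (by positivity) hη2.le hE1l hE'l).trans (ENNReal.ofReal_le_ofReal (by linarith))
  · have hP : (0 : ℝ) ≤ ((2 : ℝ) ^ n0) ^ ε₀ := Real.rpow_nonneg (by positivity) _
    refine k6a1_phys_mono hphys hphys.E_meas subset_rfl (mul_le_mul_of_nonneg_right ?_ hP)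
      (mul_nonneg (k6a1_K_nonneg _ ?_) hP)
    · exact g3.trans (k6a1_K_mono (by omega) hX1 le_rfl)
    · positivity
  · exact k6a1_graphs_mono (hE1g a) hE's (g1.trans (k6a1_K_mono (by omega) hX1 le_rfl)) (hraw a).a_pos.le

end

end Claimed.Agent.R252
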