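import Claimed.Agent.R252.S6a.Adapt
import Claimed.Agent.R252.State.KsVel
import Claimed.Agent.R252.S6a.Phys.Main
import Claimed.Agent.R252.Norm.Quad

/-!
# ROW 252, unit S6a1, file 9: THE ADAPTOR, part 1:  `KsRef` (State/KsCore, helper31) ⟶ RAW data of `Phys/Defs.lean` on `k6aOf R A s s1 s2` (S6a/Adapt, helper234):
bins, identities, `WF`, pure caps, histories, nodes without graphs, covers, `Below`, breadth.   CONTRACT      (sub-architect helper11; prefix `k6a1_`)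

PAPER-FREE: every statement is a translation between two Lean records.   `R : KsRef v`, `hR : R.Ok K`, `hA : R.One A`, `R.ell = 0`.   `D = k6aOf R A s s1 s2` has the SAME types `L`, the same `ν`; `D.prior = R.prior`; `E0 = R.Ev0`.
Unfold `k6aOf`, `k6aPkOf` by `show` / `simp only [k6aOf]` / `rfl`-lemmas of s2.      Statements are frozen (defects: message to helper11).   Provers replace the `sorry`s IN PLACE, helper lemmas directly above.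
LEAVES: L-252-P1-R1 (s1), R2 (s2), R3 (`k6a1_of_cap`), R4 (`k6a1_of_hist`), R5 (`k6a1_of_pkraw`), R6 (`k6a1_of_cov`, `k6a1_of_below`, `k6a1_of_lev`), R7 (`k6a1_of_brd`, `k6a1_of_brd_ms`).
-/

set_option autoImplicit false

namespace Claimed.Agent.R252

open MeasureTheory
open scoped ENNReal BigOperators

noncomputable section

variable {v : KbVer}

/-! ## 1. the two languages of dyadic bins -/

/-- the dyadic level of a requested width `0 < x ≤ 1` : `kbDy x = (1/2)^(k6a1Lev x)` -/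
def k6a1Lev (x : ℝ) : ℕ := (-⌈Real.logb 2 x⌉).toNat

theorem k6a1_ref_eqns_cite : True := by
  have := @k6a1Lev.eq_1
  trivial

theorem k6a1_lev_ceil {x : ℝ} (h0 : 0 < x) (h1 : x ≤ 1) : ((k6a1Lev x : ℕ) : ℤ) = -⌈Real.logb 2 x⌉ := by
  unfold k6a1Lev
  apply Int.toNat_of_nonneg
  have h : Real.logb 2 x ≤ 0 := Real.logb_nonpos (by norm_num) h0.le h1
  have : ⌈Real.logb 2 x⌉ ≤ 0 := by
    rw [Int.ceil_le]; simpa using h
  omega

/-- (`⌈logb 2 x⌉ ≤ 0`, `Int.toNat_of_nonneg`, `zpow_neg`, `zpow_natCast`, `one_div_pow`) -/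
theorem k6a1_dy_eq {x : ℝ} (h0 : 0 < x) (h1 : x ≤ 1) : kbDy x = k6aW (k6a1Lev x) := by
  have h := k6a1_lev_ceil h0 h1
  have h' : ⌈Real.logb 2 x⌉ = -((k6a1Lev x : ℕ) : ℤ) := by omega
  unfold kbDy k6aW
  rw [h', zpow_neg, zpow_natCast, one_div, inv_pow]

/-- (`Int.le_ceil`, `Int.ceil_lt_add_one`, `Real.rpow_logb`) -/
theorem k6a1_lev_le {x : ℝ} (h0 : 0 < x) (h1 : x ≤ 1) : x ≤ k6aW (k6a1Lev x) ∧ k6aW (k6a1Lev x) < 2 * x := by
  rw [← k6a1_dy_eq h0 h1]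
  unfold kbDy
  have hx : (2 : ℝ) ^ (Real.logb 2 x) = x := Real.rpow_logb (by norm_num) (by norm_num) h0
  have e : (2 : ℝ) ^ (⌈Real.logb 2 x⌉ : ℤ) = (2 : ℝ) ^ ((⌈Real.logb 2 x⌉ : ℤ) : ℝ) := (Real.rpow_intCast 2 _).symm
  rw [e]
  constructor
  · calc x = (2 : ℝ) ^ (Real.logb 2 x) := hx.symm
      _ ≤ _ := Real.rpow_le_rpow_of_exponent_le (by norm_num) (Int.le_ceil _)
  · calc (2 : ℝ) ^ ((⌈Real.logb 2 x⌉ : ℤ) : ℝ) < (2 : ℝ) ^ (Real.logb 2 x + 1) :=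
          Real.rpow_lt_rpow_of_exponent_lt (by norm_num) (Int.ceil_lt_add_one _)
      _ = 2 * x := by rw [Real.rpow_add (by norm_num), hx, Real.rpow_one]; ring

theorem k6a1_lev_W (i : ℕ) : k6a1Lev (k6aW i) = i := by
  unfold k6a1Lev k6aW
  have : Real.logb 2 ((1 / 2 : ℝ) ^ i) = ((-(i : ℤ) : ℤ) : ℝ) := by
    rw [Real.logb_pow, one_div, Real.logb_inv, Real.logb_self_eq_one (by norm_num)]
    push_cast; ring
  rw [this, Int.ceil_intCast]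
  simp

theorem k6a1_lev_anti {x x' : ℝ} (h0 : 0 < x) (h : x ≤ x') (h1 : x' ≤ 1) : k6a1Lev x' ≤ k6a1Lev x := by
  unfold k6a1Lev
  have : Real.logb 2 x ≤ Real.logb 2 x' := Real.logb_le_logb_of_le (by norm_num) h0 h
  have h2 : ⌈Real.logb 2 x⌉ ≤ ⌈Real.logb 2 x'⌉ := Int.ceil_mono this
  exact Int.toNat_le_toNat (by omega)

theorem k6a1_kbBin_eq {x : ℝ} (h0 : 0 < x) (h1 : x ≤ 1) (y : ℝ) : kbBin x y = k6aBin (k6a1Lev x) y := by
  unfold kbBin k6aBin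
  rw [k6a1_dy_eq h0 h1]
  congr 1
  unfold k6aW
  rw [one_div, inv_pow, div_inv_eq_mul]

theorem k6a1_kbBin_W (i : ℕ) (y : ℝ) : kbBin (k6aW i) y = k6aBin i y := by
  rw [k6a1_kbBin_eq (k6a1_W_pos i) (k6a1_W_le_one i), k6a1_lev_W]

theorem k6a1_kpCube_W (i : ℕ) (b : Fin v.j → ℤ) : kpCube (v := v) (k6aW i) b = k6aCube i b := by
  ext u
  unfold kpCube k6aCube k6aVBin
  simp only [Set.mem_setOf_eq, k6a1_kbBin_W]
  constructor
  · intro h; funext a; exact h a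
  · intro h a; exact congrFun h a

theorem k6a1_kbI (n i : ℕ) : kbI n i = {t : ℝ | k6aBin n t = (i : ℤ)} := by
  rw [k6a1_bin_set]
  unfold kbI kbQ k6aW
  push_cast
  rfl

theorem k6a1_kbQ (n : ℕ) : kbQ n = k6aW n := rfl

/-- `a_r = N^(-r)` -/
theorem k6a1_a_pos {R : KsRef v} {K : ℝ} (hR : R.Ok K) (r : ℝ) : 0 < R.a r := by
  unfold KsRef.a
  exact Real.rpow_pos_of_pos (by linarith [hR.N_ge]) _

theorem k6a1_a_le_one {R : KsRef v} {K : ℝ} (hR : R.Ok K) {r : ℝ} (hr : 0 ≤ r) : R.a r ≤ 1 := by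
  unfold KsRef.a
  exact Real.rpow_le_one_of_one_le_of_nonpos (by linarith [hR.N_ge]) (by linarith)

theorem k6a1_a_rpow {R : KsRef v} {K : ℝ} (hR : R.Ok K) (r c : ℝ) : R.a r ^ c = R.a (c * r) := by
  unfold KsRef.a
  rw [← Real.rpow_mul (by linarith [hR.N_ge])]
  congr 1
  ring

theorem k6a1_a_zero {R : KsRef v} {K : ℝ} (hR : R.Ok K) : R.a 0 = 1 := by
  unfold KsRef.a
  simp

/-! ## 2. identities in `k6aOf` -/

section ident

variable (R : KsRef v) (A : R.Par) (s s1 s2 : ℝ)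

theorem k6a1_of_prior : (k6aOf R A s s1 s2).prior = R.prior := rfl

theorem k6a1_of_y {l : R.L} (hl : l ∈ R.Sp) (t : ℝ) : (k6aOf R A s s1 s2).y l t = R.y l t := by
  classical
  show (if l ∈ R.Sp then (R.co l).1 else 0) + t • (if l ∈ R.Sp then kbV (R.co l) else 0) = (R.co l).1 + t • (R.co l).2.1
  rw [if_pos hl, if_pos hl]
  rfl

theorem k6a1_of_V {l : R.L} (hl : l ∈ R.Sp) : (k6aOf R A s s1 s2).V l = R.V l := by
  classical
  show (if l ∈ R.Sp then kbV (R.co l) else 0) = kbV (R.co l)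
  rw [if_pos hl]

/-- the palette velocity is `V` in the isotropic case -/
theorem k6a1_of_vel (hell : R.ell = 0) (l : R.L) : R.vel l = R.V l := by
  show kpPv R.prm (kbV (R.co l)) = kbV (R.co l)
  unfold kpPv
  rw [if_neg]
  rw [show R.prm.ell = 0 from hell]
  exact lt_irrefl 0

/-- **the native signal is a quadratic in `t`.**   PLAN: `cases v`.   Version 1: `nat_v1`: `X = w(t) = w₀ + w₁ t + w₂ t²` (`Fin.sum_univ_three`).   Version 2: `nat_adm` gives `Q : KbQuad`; `y` and `w` are affine in `t`; unfold `KbQuad.ev`, `kbX`, `kbY`, `kbW`,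
`dotProduct`, `Matrix.mulVec`, `Fin.sum_univ_two`; the coefficients are read off by `ring`. -/
theorem k6a1_X_quad {R : KsRef v} {K : ℝ} (hR : R.Ok K) (l : R.L) : ∃ c0 c1 c2 : ℝ, ∀ t, R.X l t = c0 + c1 * t + c2 * t ^ 2 := by
  exact k2n_X_poly (hR.nat_adm _) (R.co l)

/-- the coefficients stored in `k6aOf` -/
theorem k6a1_of_xc {l : R.L} (hl : l ∈ R.Sp) :
    (k6aOf R A s s1 s2).xc l = ![R.X l 0, (R.X l 1 - R.X l (-1)) / 2, (R.X l 1 - 2 * R.X l 0 + R.X l (-1)) / 2] := by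
  classical
  show (if l ∈ R.Sp then ![R.X l 0, (R.X l 1 - R.X l (-1)) / 2, (R.X l 1 - 2 * R.X l 0 + R.X l (-1)) / 2] else 0) = _
  rw [if_pos hl]

/-- (`k6a1_X_quad`; exact finite differences) -/
theorem k6a1_of_X {K : ℝ} (hR : R.Ok K) {l : R.L} (hl : l ∈ R.Sp) (t : ℝ) : (k6aOf R A s s1 s2).X l t = R.X l t := by
  obtain ⟨c0, c1, c2, h⟩ := k6a1_X_quad hR l
  unfold K6aDat.X
  rw [k6a1_of_xc R A s s1 s2 hl]
  simp only [Matrix.cons_val_zero, Matrix.cons_val_one, Matrix.cons_val, h]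
  ring

theorem k6a1_of_base {e : R.L × ℝ} (he : e.1 ∈ R.Sp) : (k6aOf R A s s1 s2).base e = R.base e := by
  show (e.2, (k6aOf R A s s1 s2).y e.1 e.2) = (e.2, R.y e.1 e.2)
  rw [k6a1_of_y R A s s1 s2 he]

/-- a function which is measurable on every event of a finite label -/
theorem k6a1_meas_lab {Ω P β : Type*} [MeasurableSpace Ω] [MeasurableSpace β] [Finite P] (par : Ω → P) (hp : KsLab par) (g : P → Ω → β) (hg : ∀ a, Measurable (g a)) :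
    Measurable fun l => g (par l) l := by
  intro S hS
  have e : (fun l => g (par l) l) ⁻¹' S = ⋃ a, par ⁻¹' {a} ∩ g a ⁻¹' S := by
    ext l
    simp only [Set.mem_preimage, Set.mem_iUnion, Set.mem_inter_iff, Set.mem_singleton_iff]
    constructor
    · intro h
      exact ⟨par l, rfl, h⟩
    · rintro ⟨a, rfl, h⟩
      exact h
  rw [e]
  exact MeasurableSet.iUnion fun a => (hp a).inter (hg a hS)

/-- the native signal at a fixed time is measurable -/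
theorem k6a1_meas_RX {K : ℝ} (hR : R.Ok K) (t : ℝ) : Measurable fun l => R.X l t := by
  refine k6a1_meas_lab R.par hR.m_par (fun a l => kbX (R.nat a) (R.co l) t) fun a => ?_
  exact (kst_cont_quad (R.nat a) (hR.nat_adm a).1).measurable.comp (hR.m_co.prodMk measurable_const)

/-- **well-formedness.**   PLAN: `bd`: `y0 = y(0)`, `V`: `y_bd`, `V_bd`; the coefficients of a quadratic bounded by `K` on `[0,1]`: `c0 = X(0)`, `c1 = -3 X(0) + 4 X(1/2) - X(1)`, `c2 = 2 X(0) - 4 X(1/2) + 2 X(1)`, all `≤ 8 K` (`k6a1_X_quad`).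
Measurability: `Measurable.ite hR.m_Sp`, `hR.m_co`; `l ↦ R.X l t` is measurable: `X l t = ∑_A 1_{par l = A} (nat A) t (y) (w)`, each `nat A` is a polynomial (`nat_adm`) hence continuous in `(y, w)`; `m_par`.   `m_lab`: finite intersections of the events of `m_ent`. -/
theorem k6a1_of_wf {K : ℝ} (hR : R.Ok K) : (k6aOf R A s s1 s2).WF (8 * K) := by
  classical
  have hK : 1 ≤ K := hR.K_ge
  have h0 : (0 : ℝ) ∈ Set.Icc (0 : ℝ) 1 := ⟨le_rfl, zero_le_one⟩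
  have h1 : (1 : ℝ) ∈ Set.Icc (0 : ℝ) 1 := ⟨zero_le_one, le_rfl⟩
  have h2 : (1 / 2 : ℝ) ∈ Set.Icc (0 : ℝ) 1 := ⟨by norm_num, by norm_num⟩
  refine ⟨hR.prob, ?_, ?_, ?_, ?_, hR.pal_le A, ?_⟩
  · exact Measurable.ite hR.m_Sp hR.m_co.fst measurable_const
  · exact Measurable.ite hR.m_Sp hR.m_co.snd.fst measurable_const
  · refine Measurable.ite hR.m_Sp ?_ measurable_const
    refine measurable_pi_iff.2 fun i => ?_
    have m0 := k6a1_meas_RX R hR 0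
    have m1 := k6a1_meas_RX R hR 1
    have m2 := k6a1_meas_RX R hR (-1)
    fin_cases i
    · exact m0
    · exact (m1.sub m2).div_const 2
    · exact ((m1.sub (m0.const_mul 2)).add m2).div_const 2
  · rintro ⟨a, a1, a2⟩
    have e : (fun x : R.L × ℝ => (R.labAt s x, R.labAt s1 x, R.labAt s2 x)) ⁻¹' {(a, a1, a2)} = R.labAt s ⁻¹' {a} ∩ (R.labAt s1 ⁻¹' {a1} ∩ R.labAt s2 ⁻¹' {a2}) := by
      ext x
      show (R.labAt s x, R.labAt s1 x, R.labAt s2 x) = (a, a1, a2) ↔ (R.labAt s x = a ∧ R.labAt s1 x = a1 ∧ R.labAt s2 x = a2)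
      simp only [Prod.mk.injEq]
    show MeasurableSet ((fun x : R.L × ℝ => (R.labAt s x, R.labAt s1 x, R.labAt s2 x)) ⁻¹' {(a, a1, a2)})
    rw [e]
    exact (ks_labAt_meas hR s a).inter ((ks_labAt_meas hR s1 a1).inter (ks_labAt_meas hR s2 a2))
  · intro l
    by_cases hl : l ∈ R.Sp
    · refine ⟨?_, ?_, ?_⟩
      · have e : (k6aOf R A s s1 s2).y0 l = R.y l 0 := by
          show (if l ∈ R.Sp then (R.co l).1 else 0) = (R.co l).1 + (0 : ℝ) • (R.co l).2.1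
          rw [if_pos hl, zero_smul, add_zero]
        rw [e]
        exact (hR.y_bd l hl 0 h0).trans (by linarith)
      · rw [k6a1_of_V R A s s1 s2 hl]
        exact (hR.V_bd l hl).trans (by linarith)
      · obtain ⟨c0, c1, c2, h⟩ := k6a1_X_quad hR l
        have b0 := abs_le.1 (hR.X_bd l hl 0 h0)
        have b1 := abs_le.1 (hR.X_bd l hl 1 h1)
        have b2 := abs_le.1 (hR.X_bd l hl (1 / 2) h2)
        rw [h] at b0 b1 b2
        rw [k6a1_of_xc R A s s1 s2 hl]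
        refine (pi_norm_le_iff_of_nonneg (by linarith)).2 fun i => ?_
        rw [Real.norm_eq_abs, abs_le]
        fin_cases i
        · simp only [Fin.zero_eta, Matrix.cons_val_zero, h]
          constructor <;> linarith [b0.1, b0.2]
        · simp only [Fin.mk_one, Matrix.cons_val_one, Matrix.cons_val_zero, h]
          constructor <;> linarith [b0.1, b0.2, b1.1, b1.2, b2.1, b2.2]
        · simp only [Fin.reduceFinMk, Matrix.cons_val, h]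
          constructor <;> linarith [b0.1, b0.2, b1.1, b1.2, b2.1, b2.2]
    · have e0 : (k6aOf R A s s1 s2).y0 l = 0 := by
        show (if l ∈ R.Sp then (R.co l).1 else 0) = 0
        rw [if_neg hl]
      have e1 : (k6aOf R A s s1 s2).V l = 0 := by
        show (if l ∈ R.Sp then kbV (R.co l) else 0) = 0
        rw [if_neg hl]
      have e2 : (k6aOf R A s s1 s2).xc l = 0 := by
        show (if l ∈ R.Sp then ![R.X l 0, (R.X l 1 - R.X l (-1)) / 2, (R.X l 1 - 2 * R.X l 0 + R.X l (-1)) / 2] else 0) = 0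
        rw [if_neg hl]
      rw [e0, e1, e2, norm_zero, norm_zero]
      exact ⟨by linarith, by linarith, by linarith⟩

/-- the labels of `D` in terms of those of `R`, on `Sp` -/
theorem k6a1_of_zc {e : R.L × ℝ} (he : e.1 ∈ R.Sp) (i : ℕ) : (k6aOf R A s s1 s2).zc i e = (k6aBin i e.2, fun a => k6aBin i (R.y e.1 e.2 a)) := by
  show (k6aBin i e.2, k6aVBin i ((k6aOf R A s s1 s2).y e.1 e.2)) = _
  rw [k6a1_of_y R A s s1 s2 he]
  rfl

theorem k6a1_of_wc {K : ℝ} (hR : R.Ok K) {e : R.L × ℝ} (he : e.1 ∈ R.Sp) (i : ℕ) :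
    (k6aOf R A s s1 s2).wc i e = ((k6aBin i e.2, fun a => k6aBin i (R.y e.1 e.2 a)), k6aBin i (R.X e.1 e.2)) := by
  show ((k6aOf R A s s1 s2).zc i e, k6aBin i ((k6aOf R A s s1 s2).X e.1 e.2)) = _
  rw [k6a1_of_zc R A s s1 s2 he, k6a1_of_X R A s s1 s2 hR he]

/-- the point state of mesh and width `N^(-U)` is the physical cell of the level `k6a1Lev (a U)` -/
theorem k6a1_of_pt {K : ℝ} (hR : R.Ok K) {e : R.L × ℝ} (he : e.1 ∈ R.Sp) {U : ℝ} (hU : 0 ≤ U) :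
    (k6aOf R A s s1 s2).wc (k6a1Lev (R.a U)) e = (((R.pt U U e).1, (R.pt U U e).2.1), (R.pt U U e).2.2) := by
  have h0 := k6a1_a_pos hR U
  have h1 := k6a1_a_le_one hR hU
  rw [k6a1_of_wc R A s s1 s2 hR he]
  show _ = ((kbBin (R.a U) e.2, fun i => kbBin (R.a U) (R.y e.1 e.2 i)), kbBin (R.a U) (R.X e.1 e.2))
  simp only [k6a1_kbBin_eq h0 h1]

theorem k6a1_lam0_apply {K : ℝ} (hR : R.Ok K) (S : Set (R.L × ℝ)) : R.lam0 S = R.prior (R.Ev0 ∩ S) := by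
  show R.prior.restrict R.Ev0 S = _
  rw [Measure.restrict_apply' hR.m_Ev0, Set.inter_comm]

theorem k6a1_m0_eq (hA : R.One A) : R.m0 A = R.prior R.Ev0 := by
  unfold KsRef.m0
  congr 1
  exact Set.inter_eq_left.2 fun x hx => hA.par x hx

theorem k6a1_m0_le {K : ℝ} (hR : R.Ok K) : R.m0 A ≤ 1 := by
  have := hR.prob
  have := ksl_tm_sfinite
  have h1 : R.prior Set.univ = 1 := by
    show (R.ν.prod KbPb.tm) Set.univ = 1
    rw [← Set.univ_prod_univ, Measure.prod_prod, measure_univ, one_mul]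
    show volume.restrict (Set.Icc (0 : ℝ) 1) Set.univ = 1
    rw [Measure.restrict_apply MeasurableSet.univ, Set.univ_inter, Real.volume_Icc]
    norm_num
  exact (measure_mono (Set.subset_univ _)).trans h1.le

end ident

/-! ## 3. pure caps -/

/-- **the pure cap at all dyadic levels** from the caps at a `g`-dense list of widths.   PLAN: for `i ≤ n1` take `r` of `hgrid`; `{|X - f| ≤ W_i} ⊆ {|X - f| ≤ a_r}`; `capX` (`k6a1_lam0_apply`, `hA.par`, `hA.pA`, `k6a1_of_base`, `k6a1_of_X`, `Ev0_sub`);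
`a_r^d ≤ (g W_i)^d ≤ g W_i^d` (`0 ≤ d ≤ 1`, `1 ≤ g`: `Real.mul_rpow`, `Real.rpow_le_rpow_of_exponent_le`). -/
theorem k6a1_of_cap (R : KsRef v) (A : R.Par) (s s1 s2 K g : ℝ) (n1 : ℕ) (hR : R.Ok K) (hA : R.One A) (hg : 1 ≤ g)
    (hgrid : ∀ i ≤ n1, ∃ r ∈ R.widths, k6aW i ≤ R.a r ∧ R.a r ≤ g * k6aW i) : K6a1Cap (k6aOf R A s s1 s2) R.d (K * g) n1 R.Ev0 := by
  intro i hi U f hU hf
  obtain ⟨r, hr, h1, h2⟩ := hgrid i hi
  have hK0 : 0 ≤ K := by linarith [hR.K_ge]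
  have hW : 0 < k6aW i := by
    unfold k6aW
    positivity
  have ha : 0 < R.a r := k6a1_a_pos hR r
  have hd0 : 0 ≤ R.d := hR.prm.d_nonneg
  have hd1 : R.d ≤ 1 := hR.prm.d_lt.le
  have hcap := hR.capX r hr A U f hU hf
  rw [k6a1_lam0_apply R hR, hA.pA, mul_one] at hcap
  have hsub : R.Ev0 ∩ {e : R.L × ℝ | (k6aOf R A s s1 s2).base e ∈ U ∧ |(k6aOf R A s s1 s2).X e.1 e.2 - f ((k6aOf R A s s1 s2).base e)| ≤ k6aW i}
      ⊆ R.Ev0 ∩ {p : R.L × ℝ | R.par p.1 = A ∧ R.base p ∈ U ∧ |R.X p.1 p.2 - f (R.base p)| ≤ R.a r} := by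
    rintro e ⟨he0, heU, heX⟩
    have hSp : e.1 ∈ R.Sp := (hR.Ev0_sub he0).1
    rw [k6a1_of_base R A s s1 s2 hSp] at heU heX
    rw [k6a1_of_X R A s s1 s2 hR hSp] at heX
    exact ⟨he0, hA.par e he0, heU, heX.trans h1⟩
  have hnum : R.a r ^ R.d ≤ g * k6aW i ^ R.d := by
    calc R.a r ^ R.d ≤ (g * k6aW i) ^ R.d := Real.rpow_le_rpow ha.le h2 hd0
      _ = g ^ R.d * k6aW i ^ R.d := Real.mul_rpow (by linarith) hW.le
      _ ≤ g ^ (1 : ℝ) * k6aW i ^ R.d :=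
          mul_le_mul_of_nonneg_right (Real.rpow_le_rpow_of_exponent_le hg hd1) (Real.rpow_nonneg hW.le _)
      _ = g * k6aW i ^ R.d := by rw [Real.rpow_one]
  calc (k6aOf R A s s1 s2).prior (R.Ev0 ∩ {e | (k6aOf R A s s1 s2).base e ∈ U ∧ |(k6aOf R A s s1 s2).X e.1 e.2 - f ((k6aOf R A s s1 s2).base e)| ≤ k6aW i})
      ≤ R.prior (R.Ev0 ∩ {p : R.L × ℝ | R.par p.1 = A ∧ R.base p ∈ U ∧ |R.X p.1 p.2 - f (R.base p)| ≤ R.a r}) := measure_mono hsub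
    _ ≤ ENNReal.ofReal K * ENNReal.ofReal (R.a r ^ R.d) * volume U := hcap
    _ ≤ ENNReal.ofReal (K * g * k6aW i ^ R.d) * volume U := by
        refine mul_le_mul' ?_ le_rfl
        rw [← ENNReal.ofReal_mul hK0]
        refine ENNReal.ofReal_le_ofReal ?_
        rw [mul_assoc]
        exact mul_le_mul_of_nonneg_left hnum hK0

/-! ## 4. histories -/

/-- the end histories of the parent -/
def k6a1HistOf (R : KsRef v) (A : R.Par) (s s1 s2 : ℝ) : K6a1Hist (k6aOf R A s s1 s2) where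
  Hs := R.Hist
  fHs := R.fHist
  hist := R.hist
  ref := fun h => R.ref (A, h)

theorem k6a1_ref_eqns_cite2 : True := by
  have := @k6a1HistOf.eq_1
  trivial

/-- outside the list of options nothing has mass -/
theorem k6a1_opt_null {Ω S D : Type*} [MeasurableSpace Ω] [Countable D] (μ : Measure Ω) (s : Ω → S) (d : Ω → D) (s0 : S) (L : Finset D)
    (h : ∀ d0, d0 ∉ L → ksMass μ (ksPair s d) (s0, d0) = 0) : μ (s ⁻¹' {s0} ∩ {x | d x ∉ L}) = 0 := by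
  have hsub : s ⁻¹' {s0} ∩ {x | d x ∉ L} ⊆ ⋃ d0 : {d0 // d0 ∉ L}, ksPair s d ⁻¹' {(s0, d0.1)} := by
    rintro x ⟨hx1, hx2⟩
    refine Set.mem_iUnion.2 ⟨⟨d x, hx2⟩, ?_⟩
    show (s x, d x) = (s0, d x)
    rw [show s x = s0 from hx1]
  exact measure_mono_null hsub (measure_iUnion_null fun d0 => h d0.1 d0.2)

/-- **(a03:palette-joint) + item 4 in the language of `K6a1Hist`.**   `n1` = the level of the mesh `N^(-U1)`, `U1` a required mesh AND width; the finest velocity mesh `χ ≤ W_{n1}`.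
PLAN: `ref_sum` = `ref_par` + `hA.pA`.   `dom`: `ks_dom_coarse hR hR.dom (χ' := k6aW i)` (`χ ≤ W_{n1} ≤ W_i`), `k6a1_kpCube_W`, `k6a1_of_vel`, `k6a1_of_V`; `R.st x = (A, hist x)` on `Ev0`.
`opt`: lists `L, L1, L2` of `opt_ent` at `s, s1, s2` and `Lp` of `opt_pt U1 U1` for the state `(A, h)`; `F` = image of `L ×ˢ L1 ×ˢ L2 ×ˢ Lp` under `(e, e1, e2, c) ↦ ((eLab e, eLab e1, eLab e2), ((c.1, c.2.1), c.2.2))`, `card ≤ K^4`;
the exceptional set lies in the union of the four sets `{ent s x ∉ L}`, .., `{pt x ∉ Lp}`, each a countable union of null events (`KsOpt`, `ksMass`, `ksPair`; `k6a1_of_pt`). -/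
theorem k6a1_of_hist (R : KsRef v) (A : R.Par) (s s1 s2 K U1 : ℝ) (hR : R.Ok K) (hA : R.One A) (hell : R.ell = 0) (hs : s ∈ R.depths) (hs1 : s1 ∈ R.depths)
    (hs2 : s2 ∈ R.depths) (hU : 0 ≤ U1) (hM : U1 ∈ R.meshes) (hr : U1 ∈ R.widths) (hχ : R.χ ≤ k6aW (k6a1Lev (R.a U1))) :
    (k6a1HistOf R A s s1 s2).Ok (K ^ 4) (k6a1Lev (R.a U1)) R.Ev0 := by
  classical
  have hK1 : 1 ≤ K := hR.K_ge
  have hK0 : 0 ≤ K := by linarith
  have hK4 : K ≤ K ^ 4 := by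
    calc K = K ^ 1 := (pow_one K).symm
      _ ≤ K ^ 4 := pow_le_pow_right₀ hK1 (by norm_num)
  have hSp : ∀ e ∈ R.Ev0, e.1 ∈ R.Sp := fun e he => (hR.Ev0_sub he).1
  refine ⟨fun h => hR.m_hist h, ?_, ?_, ?_⟩
  · have h := hR.ref_par A
    rw [hA.pA, mul_one] at h
    exact h.trans (ENNReal.ofReal_le_ofReal hK4)
  · intro i hi (h : R.Hist) J
    have hW : k6aW (k6a1Lev (R.a U1)) ≤ k6aW i := by
      unfold k6aW
      exact pow_le_pow_of_le_one (by norm_num) (by norm_num) hi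
    have hd : R.lam0 (R.st ⁻¹' {(A, h)} ∩ {z : R.L × ℝ | R.vel z.1 ∈ kpCube (k6aW i) J}) ≤ ENNReal.ofReal K * R.pal A (kpCube (k6aW i) J) * R.ref (A, h) :=
      ks_dom_coarse hR hR.dom (χ' := k6aW i) (hχ.trans hW) (A, h) J
    rw [k6a1_lam0_apply R hR, k6a1_kpCube_W] at hd
    have hsub : R.Ev0 ∩ R.hist ⁻¹' {h} ∩ {e : R.L × ℝ | (k6aOf R A s s1 s2).vb i e.1 = J}
        ⊆ R.Ev0 ∩ (R.st ⁻¹' {(A, h)} ∩ {z : R.L × ℝ | R.vel z.1 ∈ k6aCube i J}) := by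
      rintro e ⟨⟨he0, heh⟩, heJ⟩
      refine ⟨he0, ?_, ?_⟩
      · show (R.par e.1, R.hist e) = (A, h)
        rw [hA.par e he0, show R.hist e = h from heh]
      · show R.vel e.1 ∈ k6aCube i J
        rw [k6a1_of_vel R hell, ← k6a1_of_V R A s s1 s2 (hSp e he0)]
        exact heJ
    calc (k6aOf R A s s1 s2).prior (R.Ev0 ∩ (k6a1HistOf R A s s1 s2).hist ⁻¹' {h} ∩ {e | (k6aOf R A s s1 s2).vb i e.1 = J})
        ≤ R.prior (R.Ev0 ∩ (R.st ⁻¹' {(A, h)} ∩ {z : R.L × ℝ | R.vel z.1 ∈ k6aCube i J})) := measure_mono hsub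
      _ ≤ ENNReal.ofReal K * R.pal A (k6aCube i J) * R.ref (A, h) := hd
      _ ≤ ENNReal.ofReal (K ^ 4) * R.pal A (k6aCube i J) * R.ref (A, h) :=
          mul_le_mul' (mul_le_mul' (ENNReal.ofReal_le_ofReal hK4) le_rfl) le_rfl
  · intro (h : R.Hist)
    obtain ⟨n, hn, ho⟩ := hR.opt_ent s hs
    obtain ⟨n1, hn1, ho1⟩ := hR.opt_ent s1 hs1
    obtain ⟨n2, hn2, ho2⟩ := hR.opt_ent s2 hs2
    obtain ⟨np, hnp, hop⟩ := hR.opt_pt U1 hM U1 hr
    obtain ⟨L, hL, hLn⟩ := ho (A, h)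
    obtain ⟨L1, hL1, hLn1⟩ := ho1 (A, h)
    obtain ⟨L2, hL2, hLn2⟩ := ho2 (A, h)
    obtain ⟨Lp, hLp, hLnp⟩ := hop (A, h)
    have z0 := k6a1_opt_null R.lam0 R.st (R.ent s) (A, h) L hLn
    have z1 := k6a1_opt_null R.lam0 R.st (R.ent s1) (A, h) L1 hLn1
    have z2 := k6a1_opt_null R.lam0 R.st (R.ent s2) (A, h) L2 hLn2
    have zp := k6a1_opt_null R.lam0 R.st (R.pt U1 U1) (A, h) Lp hLnp
    rw [k6a1_lam0_apply R hR] at z0 z1 z2 zp
    let φ : R.Ent × R.Ent × R.Ent × (ℤ × (Fin v.j → ℤ) × ℤ) → (k6aOf R A s s1 s2).Lb × K6aWc v.j :=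
      fun x => ((R.eLab x.1, R.eLab x.2.1, R.eLab x.2.2.1), ((x.2.2.2.1, x.2.2.2.2.1), x.2.2.2.2.2))
    refine ⟨(L ×ˢ L1 ×ˢ L2 ×ˢ Lp).image φ, ?_, ?_⟩
    · have c1 : (((L ×ˢ L1 ×ˢ L2 ×ˢ Lp).image φ).card : ℝ) ≤ ((L.card * (L1.card * (L2.card * Lp.card)) : ℕ) : ℝ) := by
        refine Nat.cast_le.2 (Finset.card_image_le.trans ?_)
        rw [Finset.card_product, Finset.card_product, Finset.card_product]
      have b0 : (L.card : ℝ) ≤ K := (Nat.cast_le.2 hL).trans hn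
      have b1 : (L1.card : ℝ) ≤ K := (Nat.cast_le.2 hL1).trans hn1
      have b2 : (L2.card : ℝ) ≤ K := (Nat.cast_le.2 hL2).trans hn2
      have bp : (Lp.card : ℝ) ≤ K := (Nat.cast_le.2 hLp).trans hnp
      refine c1.trans ?_
      push_cast
      calc (L.card : ℝ) * ((L1.card : ℝ) * ((L2.card : ℝ) * (Lp.card : ℝ))) ≤ K * (K * (K * K)) := by gcongr
        _ = K ^ 4 := by ring
    · refine measure_mono_null ?_ (measure_union_null (measure_union_null z0 z1) (measure_union_null z2 zp))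
      rintro e ⟨⟨he0, heh⟩, heF⟩
      have hst : e ∈ R.st ⁻¹' {(A, h)} := by
        show (R.par e.1, R.hist e) = (A, h)
        rw [hA.par e he0, show R.hist e = h from heh]
      by_contra hcon
      have c0 : R.ent s e ∈ L := by
        by_contra hc
        exact hcon (Or.inl (Or.inl ⟨he0, hst, hc⟩))
      have c1 : R.ent s1 e ∈ L1 := by
        by_contra hc
        exact hcon (Or.inl (Or.inr ⟨he0, hst, hc⟩))
      have c2 : R.ent s2 e ∈ L2 := by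
        by_contra hc
        exact hcon (Or.inr (Or.inl ⟨he0, hst, hc⟩))
      have cp : R.pt U1 U1 e ∈ Lp := by
        by_contra hc
        exact hcon (Or.inr (Or.inr ⟨he0, hst, hc⟩))
      apply heF
      refine Finset.mem_image.2 ⟨(R.ent s e, R.ent s1 e, R.ent s2 e, R.pt U1 U1 e), ?_, ?_⟩
      · simp only [Finset.mem_product]
        exact ⟨c0, c1, c2, cp⟩
      · show ((R.eLab (R.ent s e), R.eLab (R.ent s1 e), R.eLab (R.ent s2 e)), (((R.pt U1 U1 e).1, (R.pt U1 U1 e).2.1), (R.pt U1 U1 e).2.2))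
          = ((k6aOf R A s s1 s2).lab e, (k6aOf R A s s1 s2).wc (k6a1Lev (R.a U1)) e)
        rw [k6a1_of_pt R A s s1 s2 hR (hSp e he0) hU]
        rfl

/-! ## 5. nodes -/

/-- the common time level of a depth -/
theorem k6a1_of_lev (R : KsRef v) {K : ℝ} (hR : R.Ok K) (σ : ℝ) : ∃ lv : ℕ, ∀ Q, R.dep Q = σ → R.lev Q = lv := by
  by_cases h : ∃ Q0, R.dep Q0 = σ
  · obtain ⟨Q0, h0⟩ := h
    exact ⟨R.lev Q0, fun Q hQ => hR.lev_dep Q Q0 (hQ.trans h0.symm)⟩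
  · exact ⟨0, fun Q hQ => absurd ⟨Q, hQ⟩ h⟩

theorem k6a1_pk_asg_pos (R : KsRef v) (A : R.Par) (s s1 s2 σ : ℝ) (lv : ℕ) (pick : R.Lab × R.Lab × R.Lab → R.Lab) (Q : R.Lab)
    (h : R.dep Q = σ ∧ R.lev Q = lv) : (k6aPkOf R A s s1 s2 σ lv pick).asg Q = R.asg Q := if_pos h

theorem k6a1_pk_asg_neg (R : KsRef v) (A : R.Par) (s s1 s2 σ : ℝ) (lv : ℕ) (pick : R.Lab × R.Lab × R.Lab → R.Lab) (Q : R.Lab)
    (h : ¬ (R.dep Q = σ ∧ R.lev Q = lv)) : (k6aPkOf R A s s1 s2 σ lv pick).asg Q = ∅ := if_neg h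

theorem k6a1_pk_gen (R : KsRef v) (A : R.Par) (s s1 s2 σ : ℝ) (lv : ℕ) (pick : R.Lab × R.Lab × R.Lab → R.Lab) (Q : R.Lab)
    (l : R.L) (hl : l ∈ (k6aPkOf R A s s1 s2 σ lv pick).asg Q) : (R.dep Q = σ ∧ R.lev Q = lv) ∧ l ∈ R.asg Q := by
  by_cases h : R.dep Q = σ ∧ R.lev Q = lv
  · rw [k6a1_pk_asg_pos R A s s1 s2 σ lv pick Q h] at hl
    exact ⟨h, hl⟩
  · rw [k6a1_pk_asg_neg R A s s1 s2 σ lv pick Q h] at hl
    exact absurd hl (Set.notMem_empty l)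

theorem k6a1_pk_blk (R : KsRef v) (A : R.Par) (s s1 s2 σ : ℝ) (lv : ℕ) (pick : R.Lab × R.Lab × R.Lab → R.Lab) (Q : R.Lab)
    (h : R.lev Q = lv) : (k6aPkOf R A s s1 s2 σ lv pick).blk Q = R.blk Q := by
  show {t : ℝ | k6aBin lv t = (R.iv Q : ℤ)} = kbI (R.lev Q) (R.iv Q)
  rw [h, k6a1_kbI]

theorem k6a1_pk_inc (R : KsRef v) (A : R.Par) (s s1 s2 σ : ℝ) (lv : ℕ) (pick : R.Lab × R.Lab × R.Lab → R.Lab) (Q : R.Lab)
    (h : R.dep Q = σ ∧ R.lev Q = lv) : (k6aPkOf R A s s1 s2 σ lv pick).inc Q = R.inc Q := by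
  show (k6aPkOf R A s s1 s2 σ lv pick).asg Q ×ˢ (k6aPkOf R A s s1 s2 σ lv pick).blk Q = R.asg Q ×ˢ R.blk Q
  rw [k6a1_pk_asg_pos R A s s1 s2 σ lv pick Q h, k6a1_pk_blk R A s s1 s2 σ lv pick Q h.2]
  rfl

theorem k6a1_pk_mulVec {m : ℕ} (D : Matrix (Fin m) (Fin m) ℝ) (x : Fin m → ℝ) : ‖D.mulVec x‖ ≤ kbMn D * ‖x‖ := by
  have hn : 0 ≤ kbMn D * ‖x‖ :=
    mul_nonneg (Finset.sum_nonneg fun i _ => Finset.sum_nonneg fun k _ => abs_nonneg _) (norm_nonneg _)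
  rw [pi_norm_le_iff_of_nonneg hn]
  intro i
  rw [Real.norm_eq_abs]
  calc |D.mulVec x i| = |∑ k, D i k * x k| := rfl
    _ ≤ ∑ k, |D i k * x k| := Finset.abs_sum_le_sum_abs _ _
    _ ≤ ∑ k, |D i k| * ‖x‖ := by
        refine Finset.sum_le_sum fun k _ => ?_
        rw [abs_mul]
        exact mul_le_mul_of_nonneg_left (norm_le_pi_norm x k) (abs_nonneg _)
    _ = (∑ k, |D i k|) * ‖x‖ := by rw [Finset.sum_mul]
    _ ≤ kbMn D * ‖x‖ := by
        refine mul_le_mul_of_nonneg_right ?_ (norm_nonneg _)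
        exact Finset.single_le_sum (f := fun i => ∑ k, |D i k|)
          (fun i _ => Finset.sum_nonneg fun k _ => abs_nonneg _) (Finset.mem_univ i)

/-- the moving box in parent coordinates -/
theorem k6a1_pk_box {R : KsRef v} {K : ℝ} (hR : R.Ok K) (Q : R.Lab) (l : R.L) (hl : l ∈ R.asg Q) (t : ℝ) (ht : t ∈ R.blk Q) :
    ‖R.y l t - (R.ch Q).yc t‖ ≤ K ^ 2 * R.q Q := by
  have hK0 : (0 : ℝ) ≤ K := by linarith [hR.K_ge]
  have hq := ksl8_q_pos R Q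
  have hD : (R.ch Q).D.mulVec (R.unit Q (t, R.y l t)).2 = R.y l t - (R.ch Q).yc t := by
    show (R.ch Q).D.mulVec ((R.ch Q).Di.mulVec (R.y l t - (R.ch Q).yc t)) = _
    rw [Matrix.mulVec_mulVec, hR.inv Q, Matrix.one_mulVec]
  rw [← hD]
  calc ‖(R.ch Q).D.mulVec (R.unit Q (t, R.y l t)).2‖ ≤ kbMn (R.ch Q).D * ‖(R.unit Q (t, R.y l t)).2‖ := k6a1_pk_mulVec _ _
    _ ≤ (K * R.q Q) * K := mul_le_mul (hR.D_hi Q) (hR.box_mem Q l hl t ht) (norm_nonneg _) (by positivity)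
    _ = K ^ 2 * R.q Q := by ring

/-- the velocity of the moving centre -/
theorem k6a1_pk_cen {R : KsRef v} {K : ℝ} (hR : R.Ok K) (Q : R.Lab) (l : R.L) (hl : l ∈ R.asg Q) : ‖(R.ch Q).y1‖ ≤ 5 * K ^ 2 := by
  have hK := hR.K_ge
  have hq := ksl8_q_pos R Q
  have hq' : R.q Q = kbQ (R.lev Q) := rfl
  have m1 : (R.iv Q : ℝ) * kbQ (R.lev Q) ∈ R.blk Q := by
    refine ⟨le_refl _, ?_⟩
    rw [← hq']
    nlinarith
  have m2 : (R.iv Q : ℝ) * kbQ (R.lev Q) + R.q Q / 2 ∈ R.blk Q := by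
    refine ⟨?_, ?_⟩
    · linarith
    · rw [← hq']
      nlinarith
  have b1 := k6a1_pk_box hR Q l hl _ m1
  have b2 := k6a1_pk_box hR Q l hl _ m2
  have e : (R.q Q / 2) • (R.V l - (R.ch Q).y1)
      = (R.y l ((R.iv Q : ℝ) * kbQ (R.lev Q) + R.q Q / 2) - (R.ch Q).yc ((R.iv Q : ℝ) * kbQ (R.lev Q) + R.q Q / 2))
        - (R.y l ((R.iv Q : ℝ) * kbQ (R.lev Q)) - (R.ch Q).yc ((R.iv Q : ℝ) * kbQ (R.lev Q))) := by
    have y1 : ∀ t, R.y l t = (R.co l).1 + t • R.V l := fun _ => rfl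
    have c1 : ∀ t, (R.ch Q).yc t = (R.ch Q).y0 + t • (R.ch Q).y1 := fun _ => rfl
    rw [y1, y1, c1, c1]
    module
  have h1 : ‖(R.q Q / 2) • (R.V l - (R.ch Q).y1)‖ ≤ K ^ 2 * R.q Q + K ^ 2 * R.q Q := by
    rw [e]
    exact (norm_sub_le _ _).trans (add_le_add b2 b1)
  rw [norm_smul, Real.norm_eq_abs, abs_of_pos (by positivity : 0 < R.q Q / 2)] at h1
  have h2 : ‖R.V l - (R.ch Q).y1‖ ≤ 4 * K ^ 2 := by
    have : R.q Q * ‖R.V l - (R.ch Q).y1‖ ≤ R.q Q * (4 * K ^ 2) := by nlinarith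
    exact le_of_mul_le_mul_left this hq
  have h3 := hR.V_bd l (hR.asg_Sp Q hl)
  have h4 : ‖(R.ch Q).y1‖ ≤ ‖R.V l‖ + ‖R.V l - (R.ch Q).y1‖ := by
    have : (R.ch Q).y1 = R.V l - (R.V l - (R.ch Q).y1) := by abel
    calc ‖(R.ch Q).y1‖ = ‖R.V l - (R.V l - (R.ch Q).y1)‖ := by rw [← this]
      _ ≤ _ := norm_sub_le _ _
  nlinarith

/-- `H^j ≤ K J ≤ K² H^j` in the isotropic case -/
theorem k6a1_pk_J {R : KsRef v} {K : ℝ} (hR : R.Ok K) (hell : R.ell = 0) (Q : R.Lab) :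
    R.q Q ^ v.j ≤ K * R.J Q ∧ R.J Q ≤ K * R.q Q ^ v.j := by
  have h1 := hR.J_lo Q
  have h2 := hR.J_hi Q
  rw [hell, zero_mul, k6a1_a_zero hR, mul_one] at h1 h2
  exact ⟨h1, h2⟩

/-- **item (1) of the tangent data in the language of `K6a1PkRaw`**, slack `5 K²`.
PLAN (`Q` genuine = `dep Q = σ`, then `lev Q = lv`; for the others `asg = ∅`): `H = kbQ lv = R.q Q`.   A genuine label exists (`hne`, `hR.lab`).   `H_lo`, `H_hi`: `q_lo`, `q_hi`, `a_σ^k = a (k σ)` (`k6a1_a_rpow`).   `J`: `J_lo`, `J_hi` with `a (ℓ σ) = a 0 = 1`.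
`ν_lo`: a participating label has `lpar Q = A` (`asg_par`, `hA.par`), `pA = 1`; `a^d H^j ≤ K a^d J`, `hR.ν_lo`.   `ν_hi`: `pA ≤ 1`.   `disj`: `hR.disj`.   `cov`: `hR.lab`, `k6a1_kbI`.
`box`: `y - yc = D (Di (y - yc))` (`inv`, `Matrix.mulVec_mulVec`), `‖D x‖ ≤ kbMn D ‖x‖` (sup norm), `box_mem`, `D_hi`: `≤ K q K`.   `cen`: `l ∈ asg Q`, the times `t0`, `t0 + q/2` of the block: `(q/2) ‖V - y1‖ ≤ 2 K² q`, `V_bd`.
`capQ`: `hR.capQ`, `H^j ≤ K J`, `k6a1_lam0_apply`, `k6a1_of_base`. -/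
theorem k6a1_of_pkraw (R : KsRef v) (A : R.Par) (s s1 s2 K σ : ℝ) (lv : ℕ) (pick : R.Lab × R.Lab × R.Lab → R.Lab) (hR : R.Ok K) (hA : R.One A) (hell : R.ell = 0)
    (hσ : σ ∈ R.depths) (hlv : ∀ Q, R.dep Q = σ → R.lev Q = lv) (hne : R.Ev0.Nonempty) :
    K6a1PkRaw (k6aPkOf R A s s1 s2 σ lv pick) R.d R.k (5 * K ^ 2) R.Ev0 := by
  have hK := hR.K_ge
  have hK0 : (0 : ℝ) ≤ K := by linarith
  have hKK : K ≤ 5 * K ^ 2 := by nlinarith
  have hK2 : K ^ 2 ≤ 5 * K ^ 2 := by nlinarith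
  have ha : 0 < R.a σ := ksl8_a_pos hR σ
  have had : 0 ≤ R.a σ ^ R.d := (Real.rpow_pos_of_pos ha _).le
  have hH : ∀ Q, R.dep Q = σ → R.q Q = k6aW lv := by
    intro Q hQ
    show kbQ (R.lev Q) = _
    rw [hlv Q hQ]
    rfl
  have hHpos : 0 < k6aW lv := by
    unfold k6aW
    positivity
  have asgP := k6a1_pk_asg_pos R A s s1 s2 σ lv pick
  have asgN := k6a1_pk_asg_neg R A s s1 s2 σ lv pick
  have gen := k6a1_pk_gen R A s s1 s2 σ lv pick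
  obtain ⟨p0, hp0⟩ := hne
  have hQ0 := hR.lab σ hσ p0 hp0
  have hak : R.a σ ^ R.k = R.a (R.k * R.dep (R.labAt σ p0)) := by rw [k6a1_a_rpow hR, hQ0.1]
  have hprob := hR.prob
  refine
    { a_pos := ha
      H_lo := ?_
      H_hi := ?_
      asg_meas := ?_
      disj := ?_
      ν_lo := ?_
      ν_hi := ?_
      cov := ?_
      box := ?_
      cen := ?_
      capQ := ?_ }
  · show R.a σ ^ R.k ≤ 5 * K ^ 2 * k6aW lv
    rw [hak, ← hH _ hQ0.1]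
    exact (hR.q_lo _).trans (mul_le_mul_of_nonneg_right hKK (ksl8_q_pos R _).le)
  · show k6aW lv ≤ 5 * K ^ 2 * R.a σ ^ R.k
    rw [hak, ← hH _ hQ0.1]
    exact (hR.q_hi _).trans (mul_le_mul_of_nonneg_right hKK (ksl8_a_pos hR _).le)
  · intro Q
    by_cases h : R.dep Q = σ ∧ R.lev Q = lv
    · rw [asgP Q h]
      exact hR.m_asg Q
    · rw [asgN Q h]
      exact MeasurableSet.empty
  · intro Q Q' hne hiv
    by_cases h : R.dep Q = σ ∧ R.lev Q = lv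
    · by_cases h' : R.dep Q' = σ ∧ R.lev Q' = lv
      · rw [asgP Q h, asgP Q' h']
        have hiv' : ((R.iv Q : ℕ) : ℤ) = ((R.iv Q' : ℕ) : ℤ) := hiv
        exact hR.disj Q Q' (h.1.trans h'.1.symm) (by exact_mod_cast hiv') hne
      · rw [asgN Q' h']
        exact Set.disjoint_empty _
    · rw [asgN Q h]
      exact Set.empty_disjoint _
  · rintro Q ⟨e, he0, he⟩
    obtain ⟨hg, hl⟩ := gen Q e.1 he.1
    have hpar : R.lpar Q = A := by
      have h1 : R.par e.1 = R.lpar Q := hR.asg_par Q hl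
      rw [← h1]
      exact hA.par e he0
    have h1 := hR.ν_lo Q
    rw [hpar, hA.pA, one_mul, hg.1] at h1
    show ENNReal.ofReal (R.a σ ^ R.d * k6aW lv ^ v.j) ≤ ENNReal.ofReal (5 * K ^ 2) * R.ν ((k6aPkOf R A s s1 s2 σ lv pick).asg Q)
    rw [asgP Q hg]
    have hJ := (k6a1_pk_J hR hell Q).1
    rw [hH Q hg.1] at hJ
    calc ENNReal.ofReal (R.a σ ^ R.d * k6aW lv ^ v.j) ≤ ENNReal.ofReal (K * (R.a σ ^ R.d * R.J Q)) := by
          apply ENNReal.ofReal_le_ofReal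
          calc R.a σ ^ R.d * k6aW lv ^ v.j ≤ R.a σ ^ R.d * (K * R.J Q) := mul_le_mul_of_nonneg_left hJ had
            _ = K * (R.a σ ^ R.d * R.J Q) := by ring
      _ = ENNReal.ofReal K * ENNReal.ofReal (R.a σ ^ R.d * R.J Q) := ENNReal.ofReal_mul hK0
      _ ≤ ENNReal.ofReal K * (ENNReal.ofReal K * R.νQ Q) := mul_le_mul' le_rfl h1
      _ = ENNReal.ofReal (K ^ 2) * R.νQ Q := by rw [← mul_assoc, ← ENNReal.ofReal_mul hK0, sq]
      _ ≤ ENNReal.ofReal (5 * K ^ 2) * R.νQ Q := mul_le_mul' (ENNReal.ofReal_le_ofReal hK2) le_rfl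
  · intro Q
    show R.ν ((k6aPkOf R A s s1 s2 σ lv pick).asg Q) ≤ ENNReal.ofReal (5 * K ^ 2 * R.a σ ^ R.d * k6aW lv ^ v.j)
    by_cases hg : R.dep Q = σ ∧ R.lev Q = lv
    · rw [asgP Q hg]
      have h1 := hR.ν_hi Q
      rw [hg.1] at h1
      have hJ := (k6a1_pk_J hR hell Q).2
      rw [hH Q hg.1] at hJ
      have hpA : R.pA (R.lpar Q) ≤ 1 := prob_le_one
      calc R.ν (R.asg Q) ≤ ENNReal.ofReal K * (R.pA (R.lpar Q) * ENNReal.ofReal (R.a σ ^ R.d * R.J Q)) := h1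
        _ ≤ ENNReal.ofReal K * (1 * ENNReal.ofReal (R.a σ ^ R.d * R.J Q)) := mul_le_mul' le_rfl (mul_le_mul' hpA le_rfl)
        _ = ENNReal.ofReal (K * (R.a σ ^ R.d * R.J Q)) := by rw [one_mul, ENNReal.ofReal_mul hK0]
        _ ≤ ENNReal.ofReal (5 * K ^ 2 * R.a σ ^ R.d * k6aW lv ^ v.j) := by
          apply ENNReal.ofReal_le_ofReal
          have hW : 0 ≤ R.a σ ^ R.d * k6aW lv ^ v.j := mul_nonneg had (pow_pos hHpos _).le
          calc K * (R.a σ ^ R.d * R.J Q) ≤ K * (R.a σ ^ R.d * (K * k6aW lv ^ v.j)) :=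
                mul_le_mul_of_nonneg_left (mul_le_mul_of_nonneg_left hJ had) hK0
            _ = K ^ 2 * (R.a σ ^ R.d * k6aW lv ^ v.j) := by ring
            _ ≤ 5 * K ^ 2 * (R.a σ ^ R.d * k6aW lv ^ v.j) := mul_le_mul_of_nonneg_right hK2 hW
            _ = 5 * K ^ 2 * R.a σ ^ R.d * k6aW lv ^ v.j := by ring
    · rw [asgN Q hg]
      exact (le_of_eq (measure_empty (μ := R.ν))).trans zero_le
  · intro e he
    have h1 := hR.lab σ hσ e he
    refine ⟨R.labAt σ e, ?_⟩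
    rw [k6a1_pk_inc R A s s1 s2 σ lv pick _ ⟨h1.1, hlv _ h1.1⟩]
    exact h1.2
  · intro Q l hl t ht
    obtain ⟨hg, hl'⟩ := gen Q l hl
    rw [k6a1_pk_blk R A s s1 s2 σ lv pick Q hg.2] at ht
    have e1 : (k6aOf R A s s1 s2).y l t = R.y l t := k6a1_of_y R A s s1 s2 (hR.asg_Sp Q hl') t
    have e2 : (k6aPkOf R A s s1 s2 σ lv pick).yc0 Q + t • (k6aPkOf R A s s1 s2 σ lv pick).yc1 Q = (R.ch Q).yc t := by
      have a1 : (k6aPkOf R A s s1 s2 σ lv pick).yc0 Q = (R.ch Q).y0 := if_pos hg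
      have a2 : (k6aPkOf R A s s1 s2 σ lv pick).yc1 Q = (R.ch Q).y1 := if_pos hg
      rw [a1, a2]
      rfl
    rw [e1, e2]
    show _ ≤ 5 * K ^ 2 * k6aW lv
    rw [← hH Q hg.1]
    exact (k6a1_pk_box hR Q l hl' t ht).trans (mul_le_mul_of_nonneg_right hK2 (ksl8_q_pos R Q).le)
  · rintro Q ⟨l, hl⟩
    obtain ⟨hg, hl'⟩ := gen Q l hl
    have a2 : (k6aPkOf R A s s1 s2 σ lv pick).yc1 Q = (R.ch Q).y1 := if_pos hg
    rw [a2]
    exact k6a1_pk_cen hR Q l hl'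
  · intro Q U hU
    show ENNReal.ofReal (k6aW lv ^ v.j) * R.prior (R.Ev0 ∩ (k6aPkOf R A s s1 s2 σ lv pick).inc Q ∩ (k6aOf R A s s1 s2).base ⁻¹' U)
      ≤ ENNReal.ofReal (5 * K ^ 2) * R.ν ((k6aPkOf R A s s1 s2 σ lv pick).asg Q) * volume U
    by_cases hg : R.dep Q = σ ∧ R.lev Q = lv
    · rw [k6a1_pk_inc R A s s1 s2 σ lv pick Q hg, asgP Q hg]
      have hset : R.Ev0 ∩ R.inc Q ∩ (k6aOf R A s s1 s2).base ⁻¹' U = R.Ev0 ∩ (R.inc Q ∩ R.base ⁻¹' U) := by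
        ext e
        constructor
        · rintro ⟨⟨h1, h2⟩, h3⟩
          refine ⟨h1, h2, ?_⟩
          have := k6a1_of_base R A s s1 s2 (e := e) (hR.Ev0_sub h1).1
          show R.base e ∈ U
          rw [← this]
          exact h3
        · rintro ⟨h1, h2, h3⟩
          refine ⟨⟨h1, h2⟩, ?_⟩
          have := k6a1_of_base R A s s1 s2 (e := e) (hR.Ev0_sub h1).1
          show (k6aOf R A s s1 s2).base e ∈ U
          rw [this]
          exact h3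
      rw [hset, ← k6a1_lam0_apply R hR]
      have hJ := (k6a1_pk_J hR hell Q).1
      rw [hH Q hg.1] at hJ
      calc ENNReal.ofReal (k6aW lv ^ v.j) * R.lam0 (R.inc Q ∩ R.base ⁻¹' U)
          ≤ ENNReal.ofReal (K * R.J Q) * R.lam0 (R.inc Q ∩ R.base ⁻¹' U) := mul_le_mul' (ENNReal.ofReal_le_ofReal hJ) le_rfl
        _ = ENNReal.ofReal K * (ENNReal.ofReal (R.J Q) * R.lam0 (R.inc Q ∩ R.base ⁻¹' U)) := by
            rw [ENNReal.ofReal_mul hK0, mul_assoc]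
        _ ≤ ENNReal.ofReal K * (ENNReal.ofReal K * R.νQ Q * volume U) := mul_le_mul' le_rfl (hR.capQ Q U hU)
        _ = ENNReal.ofReal (K ^ 2) * R.νQ Q * volume U := by
            rw [sq, ENNReal.ofReal_mul hK0]
            ring
        _ ≤ ENNReal.ofReal (5 * K ^ 2) * R.νQ Q * volume U :=
            mul_le_mul' (mul_le_mul' (ENNReal.ofReal_le_ofReal hK2) le_rfl) le_rfl
    · have h0 : (k6aPkOf R A s s1 s2 σ lv pick).inc Q = ∅ := by
        show (k6aPkOf R A s s1 s2 σ lv pick).asg Q ×ˢ _ = ∅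
        rw [asgN Q hg, Set.empty_prod]
      have hz : R.prior (R.Ev0 ∩ (k6aPkOf R A s s1 s2 σ lv pick).inc Q ∩ (k6aOf R A s s1 s2).base ⁻¹' U) = 0 := by
        refine measure_mono_null (t := ∅) ?_ measure_empty
        rintro e ⟨⟨-, h2⟩, -⟩
        rw [h0] at h2
        exact h2
      rw [hz, mul_zero]
      exact zero_le

/-- the incidences of a genuine label of `k6aPkOf` -/
theorem k6a1_of_inc (R : KsRef v) (A : R.Par) (s s1 s2 σ : ℝ) (lv : ℕ) (pick : R.Lab × R.Lab × R.Lab → R.Lab) (Q : R.Lab) (hd : R.dep Q = σ) (hl : R.lev Q = lv) :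
    (k6aPkOf R A s s1 s2 σ lv pick).asg Q = R.asg Q ∧ (k6aPkOf R A s s1 s2 σ lv pick).blk Q = R.blk Q := by
  constructor
  · show (if R.dep Q = σ ∧ R.lev Q = lv then R.asg Q else ∅) = R.asg Q
    rw [if_pos ⟨hd, hl⟩]
  · show {t : ℝ | k6aBin lv t = (R.iv Q : ℤ)} = kbI (R.lev Q) (R.iv Q)
    rw [k6a1_kbI, hl]

/-- the true label is recorded in the path label -/
theorem k6a1_of_cov (R : KsRef v) (A : R.Par) (s s1 s2 K σ : ℝ) (lv : ℕ) (pick : R.Lab × R.Lab × R.Lab → R.Lab) (hR : R.Ok K) (hσ : σ ∈ R.depths)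
    (hlv : ∀ Q, R.dep Q = σ → R.lev Q = lv) (hpick : ∀ e, pick (R.labAt s e, R.labAt s1 e, R.labAt s2 e) = R.labAt σ e) :
    ∀ e ∈ R.Ev0, e ∈ (k6aPkOf R A s s1 s2 σ lv pick).inc ((k6aPkOf R A s s1 s2 σ lv pick).ofLab ((k6aOf R A s s1 s2).lab e)) := by
  intro e he
  have h := hR.lab σ hσ e he
  have e1 : (k6aPkOf R A s s1 s2 σ lv pick).ofLab ((k6aOf R A s s1 s2).lab e) = R.labAt σ e := hpick e
  rw [e1]
  obtain ⟨ha, hb⟩ := k6a1_of_inc R A s s1 s2 σ lv pick (R.labAt σ e) h.1 (hlv _ h.1)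
  show e ∈ (k6aPkOf R A s s1 s2 σ lv pick).asg (R.labAt σ e) ×ˢ (k6aPkOf R A s s1 s2 σ lv pick).blk (R.labAt σ e)
  rw [ha, hb]
  exact h.2

/-- a dyadic block inside another one is not longer -/
theorem k6a1_kbI_sub {n n' i i' : ℕ} (h : kbI n' i' ⊆ kbI n i) : n ≤ n' := by
  by_contra hlt
  rw [not_le] at hlt
  have hq : ∀ m : ℕ, 0 < kbQ m := fun m => by
    unfold kbQ
    positivity
  -- `kbQ n < kbQ n'`, in fact `2 kbQ n ≤ kbQ n'`
  have h2 : 2 * kbQ n ≤ kbQ n' := by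
    obtain ⟨c, rfl⟩ := Nat.exists_eq_add_of_lt hlt
    unfold kbQ
    have : ((1 : ℝ) / 2) ^ (n' + c + 1) = (1 / 2) ^ n' * (1 / 2) ^ c * (1 / 2) := by
      rw [pow_succ, pow_add]
    rw [this]
    have h1 : ((1 : ℝ) / 2) ^ c ≤ 1 := pow_le_one₀ (by norm_num) (by norm_num)
    have h0 : (0 : ℝ) < (1 / 2) ^ n' := by positivity
    nlinarith
  have ha : (i' : ℝ) * kbQ n' ∈ kbI n' i' := by
    unfold kbI
    refine ⟨le_rfl, ?_⟩
    nlinarith [hq n']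
  have hb : (i' : ℝ) * kbQ n' + kbQ n ∈ kbI n' i' := by
    unfold kbI
    refine ⟨by linarith [hq n], ?_⟩
    nlinarith [hq n', hq n]
  have ha' := h ha
  have hb' := h hb
  unfold kbI at ha' hb'
  have := ha'.1
  have := hb'.2
  nlinarith

/-- (`hR.nested`; `lev_le`: a genuine label `Q'` of the depth `σ'` exists (`hne`), `kbI lv' iv' ⊆ kbI lv iv` forces `kbQ lv' ≤ kbQ lv`) -/
theorem k6a1_of_below (R : KsRef v) (A : R.Par) (s s1 s2 K σ σ' : ℝ) (lv lv' : ℕ) (pick pick' : R.Lab × R.Lab × R.Lab → R.Lab) (hR : R.Ok K) (hσ : σ ∈ R.depths)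
    (hσ' : σ' ∈ R.depths) (hle : σ ≤ σ') (hlv : ∀ Q, R.dep Q = σ → R.lev Q = lv) (hlv' : ∀ Q, R.dep Q = σ' → R.lev Q = lv') (hne : R.Ev0.Nonempty) :
    (k6aPkOf R A s s1 s2 σ lv pick).Below (k6aPkOf R A s s1 s2 σ' lv' pick') := by
  have key : ∀ Q' : R.Lab, R.dep Q' = σ' → ∃ Q : R.Lab, R.dep Q = σ ∧ R.asg Q' ⊆ R.asg Q ∧ R.blk Q' ⊆ R.blk Q := by
    intro Q' hQ'
    obtain ⟨Q, hQ, hD⟩ := hR.nested Q' σ hσ (by rw [hQ']; exact hle)
    exact ⟨Q, hQ, hD.2.1, hD.2.2⟩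
  constructor
  · obtain ⟨e, he⟩ := hne
    have h := hR.lab σ' hσ' e he
    obtain ⟨Q, hQ, -, hb⟩ := key _ h.1
    have := k6a1_kbI_sub hb
    rw [hlv _ hQ, hlv' _ h.1] at this
    exact this
  · intro q' hq'
    have hgen : R.dep q' = σ' ∧ R.lev q' = lv' := by
      by_contra hn
      have : (k6aPkOf R A s s1 s2 σ' lv' pick').asg q' = ∅ := by
        show (if R.dep q' = σ' ∧ R.lev q' = lv' then R.asg q' else ∅) = ∅
        rw [if_neg hn]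
      rw [this] at hq'
      exact Set.not_nonempty_empty hq'
    obtain ⟨Q, hQ, ha, hb⟩ := key q' hgen.1
    obtain ⟨a1, b1⟩ := k6a1_of_inc R A s s1 s2 σ lv pick Q hQ (hlv _ hQ)
    obtain ⟨a2, b2⟩ := k6a1_of_inc R A s s1 s2 σ' lv' pick' q' hgen.1 hgen.2
    refine ⟨Q, ?_, ?_⟩
    · rw [a1, a2]
      exact ha
    · rw [b1, b2]
      exact hb

/-! ## 6. breadth -/

theorem k6a1r_brd_aux (R : KsRef v) (A : R.Par) (K κ κ' u ε : ℝ) (hR : R.Ok K) (hA : R.One A) (hB : R.Brd κ u ε) (hκ : κ ≤ κ') (hε : 0 ≤ ε) {S : Type}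
    (st : R.L × ℝ → S) (hdet : ∀ x ∈ R.Ev0, ∀ x' ∈ R.Ev0, R.fine x = R.fine x' → st x = st x') (V' : R.L → KbB v) (hV : ∀ l ∈ R.Sp, V' l = R.V l)
    (E' : Set (R.L × ℝ)) (hm : MeasurableSet E') (hsub' : E' ⊆ R.Ev0) :
    R.prior (E' ∩ {e | ∃ (n : KbB v) (c : ℝ), n ⬝ᵥ n = 1 ∧
      ENNReal.ofReal κ' * R.prior (E' ∩ st ⁻¹' {st e}) ≤ R.prior (E' ∩ st ⁻¹' {st e} ∩ {e | |n ⬝ᵥ V' e.1 - c| ≤ R.a u})}) ≤ ENNReal.ofReal (ε * (R.m0 A).toReal) := by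
  classical
  rcases E'.eq_empty_or_nonempty with he | ⟨x₀, _⟩
  · rw [he, Set.empty_inter, measure_empty]
    exact zero_le
  let C : R.Fine → S := fun f => if h : ∃ x ∈ R.Ev0, R.fine x = f then st h.choose else st x₀
  have hC : ∀ x ∈ R.Ev0, st x = C (R.fine x) := by
    intro x hx
    have hex : ∃ x' ∈ R.Ev0, R.fine x' = R.fine x := ⟨x, hx, rfl⟩
    show st x = if h : ∃ x' ∈ R.Ev0, R.fine x' = R.fine x then st h.choose else st x₀
    rw [dif_pos hex]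
    exact hdet x hx _ hex.choose_spec.1 hex.choose_spec.2.symm
  have h1 := hB A E' hm (fun x hx => ⟨hsub' hx, hA.par x (hsub' hx)⟩) S C
  have hfin : R.m0 A ≠ ⊤ := ne_top_of_le_ne_top ENNReal.one_ne_top (k6a1_m0_le R A hR)
  rw [ENNReal.ofReal_mul hε, ENNReal.ofReal_toReal hfin]
  refine le_trans (measure_mono ?_) h1
  rintro e ⟨he1, n, c, hn, hle⟩
  refine ⟨he1, n, c, hn, ?_⟩
  have e1 : E' ∩ (C ∘ R.fine) ⁻¹' {C (R.fine e)} = E' ∩ st ⁻¹' {st e} := by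
    ext x
    constructor
    · rintro ⟨hx1, hx2⟩
      refine ⟨hx1, ?_⟩
      show st x = st e
      rw [hC x (hsub' hx1), hC e (hsub' he1)]
      exact hx2
    · rintro ⟨hx1, hx2⟩
      refine ⟨hx1, ?_⟩
      show C (R.fine x) = C (R.fine e)
      rw [← hC x (hsub' hx1), ← hC e (hsub' he1)]
      exact hx2
  have e2 : E' ∩ st ⁻¹' {st e} ∩ {x | |n ⬝ᵥ R.V x.1 - c| ≤ R.a u} = E' ∩ st ⁻¹' {st e} ∩ {x | |n ⬝ᵥ V' x.1 - c| ≤ R.a u} := by
    ext x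
    constructor
    · rintro ⟨hx1, hx2⟩
      refine ⟨hx1, ?_⟩
      show |n ⬝ᵥ V' x.1 - c| ≤ R.a u
      rw [hV _ (hR.Ev0_sub (hsub' hx1.1)).1]
      exact hx2
    · rintro ⟨hx1, hx2⟩
      refine ⟨hx1, ?_⟩
      have hx2' : |n ⬝ᵥ V' x.1 - c| ≤ R.a u := hx2
      rw [hV _ (hR.Ev0_sub (hsub' hx1.1)).1] at hx2'
      exact hx2'
  rw [e1, e2]
  exact (mul_le_mul_left (ENNReal.ofReal_le_ofReal hκ) _).trans hle

/-- **breadth in the language of `K6aBrd`**, for every state which is determined by the finest prepared state.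
PLAN: by choice `∃ C : R.Fine → S, ∀ x ∈ Ev0, st x = C (fine x)` (if `Ev0 = ∅` everything is trivial).   For `E' ⊆ Ev0` measurable: `E' ∩ st ⁻¹' {a} = E' ∩ (C ∘ fine) ⁻¹' {a}`, `D.V = R.V` on `E'` (`Ev0_sub`, `k6a1_of_V`), so `K6aNarrow D E' st κ' w a → R.Narrow E' (C ∘ fine) κ w a`
(`κ ≤ κ'`); `hB A E'` (`hA.par`);   `ofReal ε * m0 A = ofReal (ε * (m0 A).toReal)` (`k6a1_m0_le`). -/
theorem k6a1_of_brd (R : KsRef v) (A : R.Par) (s s1 s2 K κ κ' u ε : ℝ) (hR : R.Ok K) (hA : R.One A) (hB : R.Brd κ u ε) (hκ : κ ≤ κ') (hε : 0 ≤ ε) {S : Type}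
    (st : R.L × ℝ → S) (hdet : ∀ x ∈ R.Ev0, ∀ x' ∈ R.Ev0, R.fine x = R.fine x' → st x = st x') :
    K6aBrd (k6aOf R A s s1 s2) R.Ev0 st κ' (R.a u) (ε * (R.m0 A).toReal) := by
  intro E' hm hsub
  exact k6a1r_brd_aux R A K κ κ' u ε hR hA hB hκ hε st hdet (k6aOf R A s s1 s2).V (fun l hl => k6a1_of_V R A s s1 s2 hl) E' hm hsub

theorem k6a1r_fine_ent {R : KsRef v} {x x' : R.L × ℝ} (h : R.fine x = R.fine x') {σ : ℝ} (hσ : σ ∈ R.depths) : R.ent σ x = R.ent σ x' :=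
  congrFun (congrArg (fun f : R.Fine => f.2.1) h) ⟨σ, hσ⟩

theorem k6a1r_fine_pt {R : KsRef v} {x x' : R.L × ℝ} (h : R.fine x = R.fine x') {M r : ℝ} (hM : M ∈ R.meshes) (hr : r ∈ R.widths) : R.pt M r x = R.pt M r x' :=
  congrFun (congrArg (fun f : R.Fine => f.2.2) h) (⟨M, hM⟩, ⟨r, hr⟩)

theorem k6a1r_fine_wc (R : KsRef v) (A : R.Par) (s s1 s2 K U1 : ℝ) (hR : R.Ok K) (hU : 0 ≤ U1) (hM : U1 ∈ R.meshes) (hr : U1 ∈ R.widths)
    {x x' : R.L × ℝ} (hx : x ∈ R.Ev0) (hx' : x' ∈ R.Ev0) (h : R.fine x = R.fine x') :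
    (k6aOf R A s s1 s2).wc (k6a1Lev (R.a U1)) x = (k6aOf R A s s1 s2).wc (k6a1Lev (R.a U1)) x' := by
  rw [k6a1_of_pt R A s s1 s2 hR (hR.Ev0_sub hx).1 hU, k6a1_of_pt R A s s1 s2 hR (hR.Ev0_sub hx').1 hU, k6a1r_fine_pt h hM hr]

/-- the master states are determined by the finest prepared state (`labAt = eLab ∘ ent`; `k6a1_of_pt`, `k6a1_wc_coarse`) -/
theorem k6a1_of_det_ms (R : KsRef v) (A : R.Par) (s s1 s2 K U1 : ℝ) (n0 : ℕ) (hR : R.Ok K) (hs : s ∈ R.depths) (hs1 : s1 ∈ R.depths) (hs2 : s2 ∈ R.depths) (hU : 0 ≤ U1)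
    (hM : U1 ∈ R.meshes) (hr : U1 ∈ R.widths) (hn : n0 ≤ k6a1Lev (R.a U1)) :
    ∀ x ∈ R.Ev0, ∀ x' ∈ R.Ev0, R.fine x = R.fine x' → (k6aOf R A s s1 s2).ms n0 x = (k6aOf R A s s1 s2).ms n0 x' := by
  intro x hx x' hx' h
  refine Prod.ext ?_ (k6a1_wc_coarse _ hn (k6a1r_fine_wc R A s s1 s2 K U1 hR hU hM hr hx hx' h))
  show (R.labAt s x, R.labAt s1 x, R.labAt s2 x) = (R.labAt s x', R.labAt s1 x', R.labAt s2 x')
  unfold KsRef.labAt
  rw [k6a1r_fine_ent h hs, k6a1r_fine_ent h hs1, k6a1r_fine_ent h hs2]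

/-- the states (entry of the depth `σ`, base bin) are determined by the finest prepared state -/
theorem k6a1_of_det_st (R : KsRef v) (A : R.Par) (s s1 s2 K U1 σ : ℝ) (hR : R.Ok K) (hσ : σ ∈ R.depths) (hU : 0 ≤ U1) (hM : U1 ∈ R.meshes) (hr : U1 ∈ R.widths) :
    ∀ x ∈ R.Ev0, ∀ x' ∈ R.Ev0, R.fine x = R.fine x' →
      (R.ent σ x, (k6aOf R A s s1 s2).zc (k6a1Lev (R.a U1)) x) = (R.ent σ x', (k6aOf R A s s1 s2).zc (k6a1Lev (R.a U1)) x') := by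
  intro x hx x' hx' h
  exact Prod.ext (k6a1r_fine_ent h hσ) (k6a1_zc_of_wc _ (k6a1r_fine_wc R A s s1 s2 K U1 hR hU hM hr hx hx' h))

end

end Claimed.Agent.R252
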