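import Claimed.Agent.R252.S6a.Phys.Ref

/-!
# ROW 252, unit S6a1, file 10: THE ADAPTOR, part 2: the graph entries of `KsRef` as members of the sqrt-sheet class (`K6a1En`, `Phys/Defs.lean`).   CONTRACT      (sub-architect helper11; prefix `k6a1_`)

* s1  ALGEBRA (no records): a root / the centre of a quadratic test `T`, inserted in a quadratic test `P`, in affine coordinates `u`, is `α + β √D / D^m` with polynomials of degree `≤ 5`, `m ≤ 2`, `D = T_w²` at the root.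
* s2  the affine chart: volume of preimages, inverse matrix.
* s3  `k6a1EnOf` : the entries of the depth `σ` as a `K6a1En`;  `k6a1_of_en` : its `Ok`.
Statements are frozen (defects: message to helper11).   Provers replace the `sorry`s IN PLACE, helper lemmas directly above.
LEAVES: L-252-P1-E1 (`k6a1_quad_poly`), E2 (`k6a1_sheet_root`), E3 (`k6a1_sheet_ctr`), E4 (`k6a1_vol_chart`), E5 (`k6a1_inv_bd`), E6 (`k6a1_rep`), E7 (s3 basics), E8 (`k6a1_of_en_cov`), E9 (`k6a1_of_en_ucap`), E10 (`k6a1_of_en_frz`), E11 (`k6a1_of_en`).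
-/

set_option autoImplicit false

namespace Claimed.Agent.R252

open MeasureTheory
open scoped ENNReal BigOperators

noncomputable section

variable {v : KbVer}

/-! ## 1. algebra -/

/-- a point of `ℝ × ℝ^j` as a vector of `ℝ^(j+1)` -/
def k6a1Vec {j : ℕ} (u : ℝ × (Fin j → ℝ)) : Fin (j + 1) → ℝ := Fin.cons u.1 u.2

/-- the affine map `u ↦ z` (= `KsRef.ofUnit`) : `t = t0 + q u₀`, `y = y0 + t y1 + Dm u'` -/
def k6a1Aff {j : ℕ} (t0 q : ℝ) (y0 y1 : Fin j → ℝ) (Dm : Matrix (Fin j) (Fin j) ℝ) (u : ℝ × (Fin j → ℝ)) : ℝ × (Fin j → ℝ) :=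
  (t0 + q * u.1, y0 + (t0 + q * u.1) • y1 + Dm.mulVec u.2)

theorem k6a1_refen_eqns_cite : True := by
  have := @k6a1Vec.eq_1
  have := @k6a1Aff.eq_1
  trivial

theorem k6a1_deg_add {σ : Type} {p r : MvPolynomial σ ℝ} {n : ℕ} (hp : p.totalDegree ≤ n) (hr : r.totalDegree ≤ n) : (p + r).totalDegree ≤ n :=
  (MvPolynomial.totalDegree_add p r).trans (max_le hp hr)

theorem k6a1_deg_sub {σ : Type} {p r : MvPolynomial σ ℝ} {n : ℕ} (hp : p.totalDegree ≤ n) (hr : r.totalDegree ≤ n) : (p - r).totalDegree ≤ n :=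
  (MvPolynomial.totalDegree_sub p r).trans (max_le hp hr)

theorem k6a1_deg_mul {σ : Type} {p r : MvPolynomial σ ℝ} {m n k : ℕ} (hp : p.totalDegree ≤ m) (hr : r.totalDegree ≤ n) (hk : m + n ≤ k) : (p * r).totalDegree ≤ k :=
  ((MvPolynomial.totalDegree_mul p r).trans (add_le_add hp hr)).trans hk

theorem k6a1_deg_C {σ : Type} (a : ℝ) (n : ℕ) : (MvPolynomial.C a : MvPolynomial σ ℝ).totalDegree ≤ n := by
  rw [MvPolynomial.totalDegree_C]
  exact Nat.zero_le n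

theorem k6a1_deg_C_mul {σ : Type} (a : ℝ) {p : MvPolynomial σ ℝ} {n : ℕ} (hp : p.totalDegree ≤ n) : (MvPolynomial.C a * p).totalDegree ≤ n :=
  k6a1_deg_mul (k6a1_deg_C a 0) hp (by omega)

theorem k6a1_deg_sum {σ ι : Type} (s : Finset ι) (f : ι → MvPolynomial σ ℝ) {n : ℕ} (h : ∀ i ∈ s, (f i).totalDegree ≤ n) : (∑ i ∈ s, f i).totalDegree ≤ n :=
  MvPolynomial.totalDegree_finsetSum_le h

theorem k6a1_deg_X {σ : Type} (i : σ) : (MvPolynomial.X i : MvPolynomial σ ℝ).totalDegree ≤ 1 := by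
  rw [MvPolynomial.totalDegree_X]

/-- **a quadratic test in affine coordinates**: `T (z(u), w) = c(u) + b(u) w + a w²` with polynomials `c` (degree `≤ 2`), `b` (degree `≤ 1`) and a constant `a`; `kbDw T = b + 2 a w`, `kbDww T = 2 a`.
PLAN: `Q : KbQuad` of `hT`.   `tP = C t0 + C q * X 0`, `yP i = C (y0 i) + C (y1 i) * tP + ∑ k, C (Dm i k) * X k.succ` (degree `≤ 1`); `a = cww`, `b = C cw + C ctw * tP + ∑ i, C (cyw i) * yP i`,
`c = C c0 + C ct * tP + ∑ C (cy i) * yP i + C ctt * tP^2 + tP * ∑ C (cty i) * yP i + ∑ i, ∑ k, C (cyy i k) * yP i * yP k`.   Evaluation: `simp [k6a1Vec, Fin.cons_zero, Fin.cons_succ, dotProduct, Matrix.mulVec]`, `Finset.mul_sum`, `ring`.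
Degrees: `MvPolynomial.totalDegree_add`, `_mul`, `_C`, `_X`, `totalDegree_finset_sum`. -/
theorem k6a1_quad_poly (T : KbTest v) (hT : KbIsQuad T) (t0 q : ℝ) (y0 y1 : KbB v) (Dm : Matrix (Fin v.j) (Fin v.j) ℝ) :
    ∃ (a : ℝ) (b c : MvPolynomial (Fin (v.j + 1)) ℝ), b.totalDegree ≤ 1 ∧ c.totalDegree ≤ 2 ∧ ∀ (u : ℝ × KbB v) (w : ℝ),
      T (k6a1Aff t0 q y0 y1 Dm u).1 (k6a1Aff t0 q y0 y1 Dm u).2 w = MvPolynomial.eval (k6a1Vec u) c + MvPolynomial.eval (k6a1Vec u) b * w + a * w ^ 2 ∧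
      kbDw T (k6a1Aff t0 q y0 y1 Dm u).1 (k6a1Aff t0 q y0 y1 Dm u).2 w = MvPolynomial.eval (k6a1Vec u) b + 2 * a * w ∧
      kbDww T (k6a1Aff t0 q y0 y1 Dm u).1 (k6a1Aff t0 q y0 y1 Dm u).2 w = 2 * a := by
  obtain ⟨Q, hQ⟩ := hT
  obtain ⟨tP, htP⟩ : ∃ tP : MvPolynomial (Fin (v.j + 1)) ℝ, tP = MvPolynomial.C t0 + MvPolynomial.C q * MvPolynomial.X 0 := ⟨_, rfl⟩
  obtain ⟨yP, hyP⟩ : ∃ yP : Fin v.j → MvPolynomial (Fin (v.j + 1)) ℝ,
      yP = fun i => MvPolynomial.C (y0 i) + MvPolynomial.C (y1 i) * tP + ∑ k, MvPolynomial.C (Dm i k) * MvPolynomial.X k.succ := ⟨_, rfl⟩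
  have dt : tP.totalDegree ≤ 1 := by
    rw [htP]
    exact k6a1_deg_add (k6a1_deg_C _ _) (k6a1_deg_C_mul _ (k6a1_deg_X _))
  have dy : ∀ i, (yP i).totalDegree ≤ 1 := by
    intro i
    rw [hyP]
    exact k6a1_deg_add (k6a1_deg_add (k6a1_deg_C _ _) (k6a1_deg_C_mul _ dt)) (k6a1_deg_sum _ _ fun k _ => k6a1_deg_C_mul _ (k6a1_deg_X _))
  have et : ∀ u : ℝ × KbB v, MvPolynomial.eval (k6a1Vec u) tP = (k6a1Aff t0 q y0 y1 Dm u).1 := by
    intro u
    rw [htP]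
    simp only [map_add, map_mul, MvPolynomial.eval_C, MvPolynomial.eval_X, k6a1Vec, Fin.cons_zero, k6a1Aff]
  have ey : ∀ (u : ℝ × KbB v) (i : Fin v.j), MvPolynomial.eval (k6a1Vec u) (yP i) = (k6a1Aff t0 q y0 y1 Dm u).2 i := by
    intro u i
    have h1 := et u
    rw [hyP]
    simp only [map_add, map_mul, map_sum, MvPolynomial.eval_C, MvPolynomial.eval_X, h1]
    simp only [k6a1Vec, Fin.cons_succ, k6a1Aff, Pi.add_apply, Pi.smul_apply, smul_eq_mul, Matrix.mulVec, dotProduct]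
    ring
  refine ⟨Q.cww, MvPolynomial.C Q.cw + MvPolynomial.C Q.ctw * tP + ∑ i, MvPolynomial.C (Q.cyw i) * yP i,
    MvPolynomial.C Q.c0 + MvPolynomial.C Q.ct * tP + ∑ i, MvPolynomial.C (Q.cy i) * yP i + MvPolynomial.C Q.ctt * (tP * tP)
      + tP * ∑ i, MvPolynomial.C (Q.cty i) * yP i + ∑ i, yP i * ∑ k, MvPolynomial.C (Q.cyy i k) * yP k, ?_, ?_, ?_⟩
  · exact k6a1_deg_add (k6a1_deg_add (k6a1_deg_C _ _) (k6a1_deg_C_mul _ dt)) (k6a1_deg_sum _ _ fun i _ => k6a1_deg_C_mul _ (dy i))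
  · refine k6a1_deg_add (k6a1_deg_add (k6a1_deg_add (k6a1_deg_add (k6a1_deg_add (k6a1_deg_C _ _) (k6a1_deg_C_mul _ (dt.trans (by norm_num))))
      (k6a1_deg_sum _ _ fun i _ => k6a1_deg_C_mul _ ((dy i).trans (by norm_num)))) (k6a1_deg_C_mul _ (k6a1_deg_mul dt dt le_rfl)))
      (k6a1_deg_mul dt (k6a1_deg_sum _ _ fun i _ => k6a1_deg_C_mul _ (dy i)) le_rfl))
      (k6a1_deg_sum _ _ fun i _ => k6a1_deg_mul (dy i) (k6a1_deg_sum _ _ fun k _ => k6a1_deg_C_mul _ (dy k)) le_rfl)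
  · intro u w
    have key : ∀ w : ℝ, T (k6a1Aff t0 q y0 y1 Dm u).1 (k6a1Aff t0 q y0 y1 Dm u).2 w
        = MvPolynomial.eval (k6a1Vec u) (MvPolynomial.C Q.c0 + MvPolynomial.C Q.ct * tP + ∑ i, MvPolynomial.C (Q.cy i) * yP i + MvPolynomial.C Q.ctt * (tP * tP)
            + tP * ∑ i, MvPolynomial.C (Q.cty i) * yP i + ∑ i, yP i * ∑ k, MvPolynomial.C (Q.cyy i k) * yP k)
          + MvPolynomial.eval (k6a1Vec u) (MvPolynomial.C Q.cw + MvPolynomial.C Q.ctw * tP + ∑ i, MvPolynomial.C (Q.cyw i) * yP i) * w + Q.cww * w ^ 2 := by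
      intro w
      rw [hQ]
      simp only [map_add, map_mul, map_sum, MvPolynomial.eval_C, et u, ey u]
      simp only [KbQuad.ev, dotProduct, Matrix.mulVec]
      ring
    refine ⟨key w, ?_, ?_⟩
    · unfold kbDw
      rw [key, key]
      ring
    · unfold kbDww
      rw [key, key, key]
      ring

theorem k6a1_root_real (a B Cc G K sg : ℝ) (hK : 1 ≤ K) (hsg : sg = 1 ∨ sg = -1) (h0 : Cc + B * G + a * G ^ 2 = 0)
    (h1 : 1 ≤ K * (sg * (B + 2 * a * G))) (h2 : |B + 2 * a * G| ≤ K) :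
    1 / K ^ 2 ≤ B ^ 2 - 4 * a * Cc ∧ B ^ 2 - 4 * a * Cc ≤ K ^ 2 ∧ Real.sqrt (B ^ 2 - 4 * a * Cc) = sg * (B + 2 * a * G) := by
  have hK0 : 0 < K := by linarith
  have hsg2 : sg * sg = 1 := by rcases hsg with rfl | rfl <;> norm_num
  obtain ⟨x, hx⟩ : ∃ x : ℝ, x = sg * (B + 2 * a * G) := ⟨_, rfl⟩
  have hΔ : B ^ 2 - 4 * a * Cc = x ^ 2 := by
    rw [hx]
    linear_combination (-4 * a) * h0 - (B + 2 * a * G) ^ 2 * hsg2
  have hx1 : 1 / K ≤ x := by
    rw [div_le_iff₀ hK0, hx]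
    linarith
  have hx0 : 0 < x := lt_of_lt_of_le (by positivity) hx1
  have hx2 : x ≤ K := by
    have : |x| = |B + 2 * a * G| := by
      rw [hx, abs_mul]
      rcases hsg with rfl | rfl <;> simp
    calc x ≤ |x| := le_abs_self x
      _ ≤ K := by rw [this]; exact h2
  rw [hΔ, ← hx]
  refine ⟨?_, ?_, Real.sqrt_sq hx0.le⟩
  · have : (1 / K) ^ 2 ≤ x ^ 2 := pow_le_pow_left₀ (by positivity) hx1 2
    rw [div_pow, one_pow] at this
    exact this
  · exact pow_le_pow_left₀ hx0.le hx2 2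

theorem k6a1_root_caseA (a B Cc G sg a' B' C' s : ℝ) (ha : a ≠ 0) (hsg2 : sg * sg = 1) (h0 : Cc + B * G + a * G ^ 2 = 0)
    (hs : s = sg * (B + 2 * a * G)) :
    C' + B' * G + a' * G ^ 2 = (C' - a' / a * Cc - 1 / (2 * a) * ((B' - a' / a * B) * B)) + sg / (2 * a) * (B' - a' / a * B) * s / 1 := by
  obtain ⟨r, hr⟩ : ∃ r : ℝ, r = a' / a := ⟨_, rfl⟩
  obtain ⟨k, hk⟩ : ∃ k : ℝ, k = 1 / (2 * a) := ⟨_, rfl⟩
  have hr' : r * a = a' := by rw [hr]; field_simp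
  have hk' : k * (2 * a) = 1 := by rw [hk]; field_simp
  have e1 : sg / (2 * a) = sg * k := by rw [hk]; ring
  rw [e1, ← hr, ← hk, hs, ← hr', div_one]
  linear_combination r * h0 - (k * (B' - r * B) * (B + 2 * a * G)) * hsg2 - ((B' - r * B) * G) * hk'

theorem k6a1_root_caseB (B Cc G sg a' B' C' : ℝ) (hB : B ≠ 0) (hsg2 : sg * sg = 1) (h0 : Cc + B * G = 0) (hs : Real.sqrt (B * B) = sg * B) :
    C' + B' * G + a' * G ^ 2
      = 0 + sg * B * (C' * (B * B) - B' * Cc * B + a' * (Cc * Cc)) * Real.sqrt (B * B) / (B * B) ^ 2 := by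
  have hG : G = -Cc / B := by
    field_simp
    linarith
  rw [hs, hG]
  have e : sg * B * (C' * (B * B) - B' * Cc * B + a' * (Cc * Cc)) * (sg * B)
      = (sg * sg) * (B * B * (C' * (B * B) - B' * Cc * B + a' * (Cc * Cc))) := by ring
  rw [e, hsg2]
  field_simp
  ring

/-- **a simple root of `T`, inserted in `P`, is a member of the class.**   `g u` = the root over `u`, `sg = ±1` the sign of `T_w` at the root.
PLAN: `(a, b, c)` of `T`, `(a', b', c')` of `P` (`k6a1_quad_poly`).   At `u ∈ S`: `τ = b + 2 a g`, `sg τ ≥ 1/K > 0`, `τ² = b² - 4 a c` (uses `c + b g + a g² = 0`), so `Δ := b² - 4 a c ∈ [1/K², K²]` and `√Δ = sg τ`.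
CASE `a ≠ 0`: `g = (sg √Δ - b) / (2 a)`, `g² = -(b g + c) / a`;   `m = 0`, `Dc = b² - C (4 a) c`, `be = C (sg / (2 a)) (b' - C (a'/a) b)`, `al = c' - C (a'/a) c - C (1/(2a)) (b' - C (a'/a) b) b`.
CASE `a = 0`: `Δ = b²`, `g = -c / b`, `sg b = |b| = √Δ`;   `P = (c' b² - b' c b + a' c²) / b²`;   `m = 2`, `Dc = b²`, `al = 0`, `be = C sg * b * (c' b² - b' c b + C a' c²)` (degree `≤ 5`): `be √Δ / Δ² = sg b |b| num / b⁴ = num / b²`. -/
theorem k6a1_sheet_root (T P : KbTest v) (hT : KbIsQuad T) (hP : KbIsQuad P) (t0 q : ℝ) (y0 y1 : KbB v) (Dm : Matrix (Fin v.j) (Fin v.j) ℝ) (S : Set (ℝ × KbB v))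
    (g : ℝ × KbB v → ℝ) (K sg : ℝ) (hK : 1 ≤ K) (hsg : sg = 1 ∨ sg = -1)
    (h : ∀ u ∈ S, T (k6a1Aff t0 q y0 y1 Dm u).1 (k6a1Aff t0 q y0 y1 Dm u).2 (g u) = 0 ∧
      1 ≤ K * (sg * kbDw T (k6a1Aff t0 q y0 y1 Dm u).1 (k6a1Aff t0 q y0 y1 Dm u).2 (g u)) ∧ |kbDw T (k6a1Aff t0 q y0 y1 Dm u).1 (k6a1Aff t0 q y0 y1 Dm u).2 (g u)| ≤ K) :
    ∃ (m : ℕ) (al be Dc : MvPolynomial (Fin (v.j + 1)) ℝ), m ≤ 2 ∧ al.totalDegree ≤ 5 ∧ be.totalDegree ≤ 5 ∧ Dc.totalDegree ≤ 5 ∧ ∀ u ∈ S,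
      P (k6a1Aff t0 q y0 y1 Dm u).1 (k6a1Aff t0 q y0 y1 Dm u).2 (g u) = sh2_val m al be Dc (k6a1Vec u) ∧
      1 / K ^ 2 ≤ MvPolynomial.eval (k6a1Vec u) Dc ∧ MvPolynomial.eval (k6a1Vec u) Dc ≤ K ^ 2 := by
  obtain ⟨a, b, c, db, dc, hTe⟩ := k6a1_quad_poly T hT t0 q y0 y1 Dm
  obtain ⟨a', b', c', db', dc', hPe⟩ := k6a1_quad_poly P hP t0 q y0 y1 Dm
  have hK0 : 0 < K := by linarith
  have hsg2 : sg * sg = 1 := by rcases hsg with rfl | rfl <;> norm_num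
  have fact : ∀ u ∈ S, MvPolynomial.eval (k6a1Vec u) c + MvPolynomial.eval (k6a1Vec u) b * g u + a * g u ^ 2 = 0 ∧
      1 / K ^ 2 ≤ MvPolynomial.eval (k6a1Vec u) b ^ 2 - 4 * a * MvPolynomial.eval (k6a1Vec u) c ∧
      MvPolynomial.eval (k6a1Vec u) b ^ 2 - 4 * a * MvPolynomial.eval (k6a1Vec u) c ≤ K ^ 2 ∧
      Real.sqrt (MvPolynomial.eval (k6a1Vec u) b ^ 2 - 4 * a * MvPolynomial.eval (k6a1Vec u) c)
        = sg * (MvPolynomial.eval (k6a1Vec u) b + 2 * a * g u) := by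
    intro u hu
    obtain ⟨h1, h2, h3⟩ := h u hu
    obtain ⟨e1, e2, -⟩ := hTe u (g u)
    rw [e1] at h1
    rw [e2] at h2 h3
    exact ⟨h1, k6a1_root_real a _ _ (g u) K sg hK hsg h1 h2 h3⟩
  by_cases ha : a = 0
  · refine ⟨2, 0, MvPolynomial.C sg * b * (c' * (b * b) - b' * c * b + MvPolynomial.C a' * (c * c)), b * b, le_rfl, by simp, ?_, ?_, ?_⟩
    · refine k6a1_deg_mul (k6a1_deg_C_mul _ db) (k6a1_deg_add (k6a1_deg_sub (k6a1_deg_mul dc' (k6a1_deg_mul db db le_rfl) le_rfl)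
        (k6a1_deg_mul (k6a1_deg_mul db' dc le_rfl) db le_rfl)) (k6a1_deg_C_mul _ (k6a1_deg_mul dc dc le_rfl))) le_rfl
    · exact k6a1_deg_mul db db (by norm_num)
    · intro u hu
      obtain ⟨f0, f1, f2, f3⟩ := fact u hu
      rw [ha] at f0 f1 f2 f3
      simp only [mul_zero, zero_mul, sub_zero, add_zero] at f0 f1 f2 f3
      have hBB : MvPolynomial.eval (k6a1Vec u) b ^ 2 = MvPolynomial.eval (k6a1Vec u) b * MvPolynomial.eval (k6a1Vec u) b := sq _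
      rw [hBB] at f1 f2 f3
      have hB : MvPolynomial.eval (k6a1Vec u) b ≠ 0 := by
        intro h0
        rw [h0, mul_zero] at f1
        have : 0 < 1 / K ^ 2 := by positivity
        linarith
      refine ⟨?_, ?_, ?_⟩
      · rw [(hPe u (g u)).1]
        unfold sh2_val
        simp only [map_mul, map_add, map_sub, map_zero, MvPolynomial.eval_C]
        exact k6a1_root_caseB _ _ (g u) sg a' _ _ hB hsg2 f0 f3
      · rw [map_mul]
        exact f1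
      · rw [map_mul]
        exact f2
  · refine ⟨0, c' - MvPolynomial.C (a' / a) * c - MvPolynomial.C (1 / (2 * a)) * ((b' - MvPolynomial.C (a' / a) * b) * b),
      MvPolynomial.C (sg / (2 * a)) * (b' - MvPolynomial.C (a' / a) * b), b * b - MvPolynomial.C (4 * a) * c, by norm_num, ?_, ?_, ?_, ?_⟩
    · refine le_trans (k6a1_deg_sub (k6a1_deg_sub dc' (k6a1_deg_C_mul _ dc)) (k6a1_deg_C_mul _ (k6a1_deg_mul (k6a1_deg_sub db' (k6a1_deg_C_mul _ db)) db le_rfl))) (by norm_num)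
    · exact le_trans (k6a1_deg_C_mul _ (k6a1_deg_sub db' (k6a1_deg_C_mul _ db))) (by norm_num)
    · exact le_trans (k6a1_deg_sub (k6a1_deg_mul db db le_rfl) (k6a1_deg_C_mul _ dc)) (by norm_num)
    · intro u hu
      obtain ⟨f0, f1, f2, f3⟩ := fact u hu
      have eD : MvPolynomial.eval (k6a1Vec u) (b * b - MvPolynomial.C (4 * a) * c)
          = MvPolynomial.eval (k6a1Vec u) b ^ 2 - 4 * a * MvPolynomial.eval (k6a1Vec u) c := by
        simp only [map_mul, map_sub, MvPolynomial.eval_C]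
        ring
      refine ⟨?_, by rw [eD]; exact f1, by rw [eD]; exact f2⟩
      rw [(hPe u (g u)).1]
      unfold sh2_val
      rw [eD, pow_zero]
      simp only [map_mul, map_sub, MvPolynomial.eval_C]
      exact k6a1_root_caseA a _ _ (g u) sg a' _ _ _ ha hsg2 f0 f3

theorem k6a1_dww_const {T : KbTest v} (hT : KbIsQuad T) (t t' : ℝ) (y y' : KbB v) (w w' : ℝ) : kbDww T t y w = kbDww T t' y' w' := by
  obtain ⟨Q, hQ⟩ := hT
  unfold kbDww
  simp only [hQ, KbQuad.ev]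
  ring

/-- **the centre of `T` (`T_ww ≠ 0`), inserted in `P`, is a polynomial**: `g = -b / (2 a)`; `m = 0`, `be = 0`, `Dc = 1`, `al = c' - C (1/(2a)) b' b + C (a'/(4a²)) b²`. -/
theorem k6a1_sheet_ctr (T P : KbTest v) (hT : KbIsQuad T) (hP : KbIsQuad P) (t0 q : ℝ) (y0 y1 : KbB v) (Dm : Matrix (Fin v.j) (Fin v.j) ℝ) (S : Set (ℝ × KbB v))
    (g : ℝ × KbB v → ℝ) (hww : kbDww T 0 0 0 ≠ 0) (h : ∀ u ∈ S, kbDw T (k6a1Aff t0 q y0 y1 Dm u).1 (k6a1Aff t0 q y0 y1 Dm u).2 (g u) = 0) :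
    ∃ al : MvPolynomial (Fin (v.j + 1)) ℝ, al.totalDegree ≤ 5 ∧ ∀ u ∈ S,
      P (k6a1Aff t0 q y0 y1 Dm u).1 (k6a1Aff t0 q y0 y1 Dm u).2 (g u) = sh2_val 0 al 0 1 (k6a1Vec u) := by
  obtain ⟨a, b, c, db, dc, hTe⟩ := k6a1_quad_poly T hT t0 q y0 y1 Dm
  obtain ⟨a', b', c', db', dc', hPe⟩ := k6a1_quad_poly P hP t0 q y0 y1 Dm
  have ha : a ≠ 0 := by
    intro h0
    apply hww
    rw [k6a1_dww_const hT 0 (k6a1Aff t0 q y0 y1 Dm 0).1 0 (k6a1Aff t0 q y0 y1 Dm 0).2 0 0, (hTe 0 0).2.2, h0, mul_zero]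
  refine ⟨c' - MvPolynomial.C (1 / (2 * a)) * (b' * b) + MvPolynomial.C (a' / (4 * a ^ 2)) * (b * b), ?_, ?_⟩
  · exact le_trans (k6a1_deg_add (k6a1_deg_sub dc' (k6a1_deg_C_mul _ (k6a1_deg_mul db' db le_rfl))) (k6a1_deg_C_mul _ (k6a1_deg_mul db db le_rfl))) (by norm_num)
  · intro u hu
    have h1 := h u hu
    rw [(hTe u (g u)).2.1] at h1
    have hG : g u = -MvPolynomial.eval (k6a1Vec u) b / (2 * a) := by
      field_simp
      linarith
    rw [(hPe u (g u)).1]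
    unfold sh2_val
    simp only [map_mul, map_add, map_sub, map_zero, MvPolynomial.eval_C, zero_mul, zero_div, add_zero]
    rw [hG]
    field_simp
    ring

/-! ## 2. the affine chart -/

/-- the chart `z ↦ u` (= `k6a1Vec ∘ KsRef.unit`) -/
def k6a1Chart {j : ℕ} (t0 q : ℝ) (y0 y1 : Fin j → ℝ) (Di : Matrix (Fin j) (Fin j) ℝ) (z : ℝ × (Fin j → ℝ)) : Fin (j + 1) → ℝ :=
  Fin.cons ((z.1 - t0) / q) (Di.mulVec (z.2 - (y0 + z.1 • y1)))

theorem k6a1_refen_eqns_cite2 : True := by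
  have := @k6a1Chart.eq_1
  trivial

/-- `t ↦ (t - t0) / q` multiplies the volume by `q` -/
theorem k6a1_map_t (t0 q : ℝ) (hq : 0 < q) : Measure.map (fun t : ℝ => (t - t0) / q) volume = ENNReal.ofReal q • (volume : Measure ℝ) := by
  have h1 : (fun t : ℝ => (t - t0) / q) = (fun s : ℝ => q⁻¹ * s) ∘ (fun t : ℝ => t - t0) := by
    funext t
    simp only [Function.comp]
    rw [div_eq_inv_mul]
  rw [h1, ← Measure.map_map (measurable_const_mul _) (measurable_sub_const _), map_sub_right_eq_self, Real.map_volume_mul_left (inv_ne_zero hq.ne'), inv_inv, abs_of_pos hq]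

theorem k6a1_map_y {j : ℕ} (D Di : Matrix (Fin j) (Fin j) ℝ) (h : D * Di = 1) (c : Fin j → ℝ) :
    Measure.map (fun y : Fin j → ℝ => Di.mulVec (y - c)) volume = ENNReal.ofReal |D.det| • (volume : Measure (Fin j → ℝ)) := by
  have hd : D.det * Di.det = 1 := by rw [← Matrix.det_mul, h, Matrix.det_one]
  have hDi : Di.det ≠ 0 := right_ne_zero_of_mul_eq_one hd
  have h1 : (fun y : Fin j → ℝ => Di.mulVec (y - c)) = (Matrix.toLin' Di) ∘ (fun y : Fin j → ℝ => y - c) := by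
    funext y
    simp only [Function.comp, Matrix.toLin'_apply]
  have hm : Measurable (Matrix.toLin' Di) := (LinearMap.continuous_of_finiteDimensional _).measurable
  rw [h1, ← Measure.map_map hm (measurable_sub_const _), map_sub_right_eq_self, Real.map_matrix_volume_pi_eq_smul_volume_pi hDi, eq_inv_of_mul_eq_one_left hd]

theorem k6a1_cons_pres (j : ℕ) : MeasurePreserving (fun u : ℝ × (Fin j → ℝ) => (Fin.cons u.1 u.2 : Fin (j + 1) → ℝ)) volume volume := by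
  have h := (volume_preserving_piFinSuccAbove (fun _ : Fin (j + 1) => ℝ) 0).symm
  have he : (fun u : ℝ × (Fin j → ℝ) => (Fin.cons u.1 u.2 : Fin (j + 1) → ℝ)) = (MeasurableEquiv.piFinSuccAbove (fun _ : Fin (j + 1) => ℝ) 0).symm := by
    funext u
    exact (Fin.insertNth_zero' u.1 u.2).symm
  rw [he]
  exact h

/-- **change of variables**: `vol (chart ⁻¹' U) = q |det Dm| vol U`.
PLAN: `e = MeasurableEquiv.piFinSuccAbove (fun _ => ℝ) 0` is measure preserving (`volume_preserving_piFinSuccAbove`): `vol U = vol (U')`, `U' = {(a, x) | Fin.cons a x ∈ U} ⊆ ℝ × ℝ^j`.   `Measure.volume_eq_prod`, `Measure.prod_apply`: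
`vol (chart ⁻¹' U) = ∫⁻ t, vol {y | Di (y - yc t) ∈ U'_{(t - t0)/q}}`;   for fixed `t`: translation (`measure_preimage_add_right` / `measure_preimage_sub_right`..) and `Measure.addHaar_preimage_linearMap` for `Matrix.toLin' Di`
(`LinearMap.det_toLin'`, `det Di = (det Dm)⁻¹` from `Dm * Di = 1`): `= |det Dm| vol (U'_{(t-t0)/q})`;   then `lintegral` under `t ↦ (t - t0)/q` (`lintegral_comp_mul..` or `Real.map_volume_mul_left`, `MeasurePreserving`): factor `q`. -/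
theorem k6a1_vol_chart {j : ℕ} (t0 q : ℝ) (hq : 0 < q) (y0 y1 : Fin j → ℝ) (Dm Di : Matrix (Fin j) (Fin j) ℝ) (hinv : Dm * Di = 1) (U : Set (Fin (j + 1) → ℝ)) (hU : MeasurableSet U) :
    MeasurableSet (k6a1Chart t0 q y0 y1 Di ⁻¹' U) ∧ volume (k6a1Chart t0 q y0 y1 Di ⁻¹' U) = ENNReal.ofReal (q * |Dm.det|) * volume U := by
  have hgm : Measurable (Function.uncurry fun (t : ℝ) (y : Fin j → ℝ) => Di.mulVec (y - (y0 + t • y1))) := by
    have hc : Continuous (Function.uncurry fun (t : ℝ) (y : Fin j → ℝ) => Di.mulVec (y - (y0 + t • y1))) := by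
      unfold Function.uncurry
      refine Continuous.matrix_mulVec continuous_const ?_
      fun_prop
    exact hc.measurable
  have hf : MeasurePreserving (fun t : ℝ => (t - t0) / q) volume (ENNReal.ofReal q • (volume : Measure ℝ)) :=
    ⟨by fun_prop, k6a1_map_t _ _ hq⟩
  have hsk : MeasurePreserving (fun z : ℝ × (Fin j → ℝ) => ((z.1 - t0) / q, Di.mulVec (z.2 - (y0 + z.1 • y1)))) ((volume : Measure ℝ).prod (volume : Measure (Fin j → ℝ)))
      ((ENNReal.ofReal q • (volume : Measure ℝ)).prod (ENNReal.ofReal |Dm.det| • (volume : Measure (Fin j → ℝ)))) :=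
    MeasurePreserving.skew_product hf hgm (Filter.Eventually.of_forall fun t => k6a1_map_y _ _ hinv _)
  have hB : MeasurableSet ((fun u : ℝ × (Fin j → ℝ) => (Fin.cons u.1 u.2 : Fin (j + 1) → ℝ)) ⁻¹' U) := (k6a1_cons_pres j).measurable hU
  have h1 : k6a1Chart t0 q y0 y1 Di ⁻¹' U
      = (fun z : ℝ × (Fin j → ℝ) => ((z.1 - t0) / q, Di.mulVec (z.2 - (y0 + z.1 • y1)))) ⁻¹' ((fun u : ℝ × (Fin j → ℝ) => (Fin.cons u.1 u.2 : Fin (j + 1) → ℝ)) ⁻¹' U) := rfl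
  refine ⟨?_, ?_⟩
  · rw [h1]
    exact hsk.measurable hB
  · rw [h1, Measure.volume_eq_prod, hsk.measure_preimage hB.nullMeasurableSet, Measure.prod_smul_left, Measure.prod_smul_right, Measure.smul_apply, Measure.smul_apply,
      ← Measure.volume_eq_prod, (k6a1_cons_pres j).measure_preimage hU.nullMeasurableSet, smul_eq_mul, smul_eq_mul, ← mul_assoc, ENNReal.ofReal_mul hq.le]

theorem k6a1_inv_bd_entry {m : ℕ} (D : Matrix (Fin m) (Fin m) ℝ) (i k : Fin m) : |D i k| ≤ kbMn D := by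
  unfold kbMn
  exact (Finset.single_le_sum (f := fun k => |D i k|) (fun _ _ => abs_nonneg _) (Finset.mem_univ k)).trans
    (Finset.single_le_sum (f := fun i => ∑ k, |D i k|) (fun _ _ => Finset.sum_nonneg fun _ _ => abs_nonneg _) (Finset.mem_univ i))

theorem k6a1_inv_bd_adj {m : ℕ} (hm : m = 1 ∨ m = 2) (Dm : Matrix (Fin m) (Fin m) ℝ) (i k : Fin m) :
    |Dm.adjugate i k| ≤ kbMn Dm ^ (m - 1) := by
  rcases hm with rfl | rfl
  · rw [Matrix.adjugate_fin_one Dm]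
    have hik : i = k := Subsingleton.elim _ _
    rw [hik, Matrix.one_apply_eq]
    simp
  · rw [Matrix.adjugate_fin_two Dm]
    have h2 : kbMn Dm ^ (2 - 1) = kbMn Dm := by norm_num
    rw [h2]
    fin_cases i <;> fin_cases k <;> simp <;> exact k6a1_inv_bd_entry Dm _ _

/-- **the inverse frame**: `|Di i k| ≤ kbMn Dm ^ (j-1) / |det Dm|`, `j ∈ {1, 2}`.   (`cases v`; `Di = Dm⁻¹` (`Matrix.inv_eq_right_inv`), `Matrix.inv_def`, `Matrix.adjugate_fin_two`, `Matrix.adjugate_fin_one`; every entry of `Dm` is `≤ kbMn Dm`.) -/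
theorem k6a1_inv_bd (Dm Di : Matrix (Fin v.j) (Fin v.j) ℝ) (hinv : Dm * Di = 1) (i k : Fin v.j) : |Di i k| ≤ kbMn Dm ^ (v.j - 1) / |Dm.det| := by
  have hDi : Di = Dm⁻¹ := (Matrix.inv_eq_right_inv hinv).symm
  have hdet : Dm.det * Di.det = 1 := by rw [← Matrix.det_mul, hinv, Matrix.det_one]
  have hD0 : Dm.det ≠ 0 := left_ne_zero_of_mul_eq_one hdet
  have hpos : 0 < |Dm.det| := abs_pos.2 hD0
  have hval : Di i k = (Dm.det)⁻¹ * Dm.adjugate i k := by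
    rw [hDi, Matrix.inv_def, Matrix.smul_apply, smul_eq_mul, Ring.inverse_eq_inv']
  rw [hval, abs_mul, abs_inv, le_div_iff₀ hpos, mul_comm, ← mul_assoc, mul_inv_cancel₀ hpos.ne', one_mul]
  exact k6a1_inv_bd_adj (by cases v <;> simp [KbVer.j]) Dm i k

/-! ## 3. the entries of one depth -/

/-- a representation of the predictions: `(m, α, β, D)` for every entry -/
abbrev K6a1Rep (v : KbVer) (Ent : Type) := Ent → ℕ × MvPolynomial (Fin (v.j + 1)) ℝ × MvPolynomial (Fin (v.j + 1)) ℝ × MvPolynomial (Fin (v.j + 1)) ℝ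

/-- the properties of a representation: degrees, stability on the used interiors, and (for the entries which carry a retained incidence) the prediction `eF` in unit coordinates is the member of the class -/
def K6a1RepOk (R : KsRef v) (K : ℝ) (rep : K6a1Rep v R.Ent) : Prop := ∀ e,
    (rep e).1 ≤ 2 ∧ (rep e).2.1.totalDegree ≤ 5 ∧ (rep e).2.2.1.totalDegree ≤ 5 ∧ (rep e).2.2.2.totalDegree ≤ 5 ∧
    (∀ u ∈ R.eInt e, 1 / K ^ 2 ≤ MvPolynomial.eval (k6a1Vec u) (rep e).2.2.2 ∧ MvPolynomial.eval (k6a1Vec u) (rep e).2.2.2 ≤ K ^ 2) ∧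
    ((R.Ev0 ∩ R.eOn e).Nonempty → ∀ u ∈ R.eInt e, R.eF e u = sh2_val (rep e).1 (rep e).2.1 (rep e).2.2.1 (rep e).2.2.2 (k6a1Vec u))

theorem k6a1_rep_dw (T : KbTest v) (hT : KbIsQuad T) (h0 : kbDww T 0 0 0 = 0) (t : ℝ) (y : KbB v) (w w' : ℝ) :
    kbDw T t y w = kbDw T t y w' := by
  obtain ⟨Q, hQ⟩ := hT
  have h1 : Q.cww = 0 := by
    unfold kbDww at h0
    simp only [hQ, KbQuad.ev] at h0
    simp at h0
    linarith
  unfold kbDw
  simp only [hQ, KbQuad.ev, h1]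
  ring

theorem k6a1_rep_back (R : KsRef v) {K : ℝ} (hR : R.Ok K) (Q : R.Lab) (z : ℝ × KbB v) : R.ofUnit Q (R.unit Q z) = z := by
  have hq : R.q Q ≠ 0 := by
    unfold KsRef.q kbQ
    positivity
  unfold KsRef.ofUnit KsRef.unit
  have h1 : R.t0 Q + R.q Q * ((z.1 - R.t0 Q) / R.q Q) = z.1 := by
    field_simp
    ring
  refine Prod.ext h1 ?_
  show (R.ch Q).yc (R.t0 Q + R.q Q * ((z.1 - R.t0 Q) / R.q Q)) + (R.ch Q).D.mulVec ((R.ch Q).Di.mulVec (z.2 - (R.ch Q).yc z.1)) = z.2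
  rw [h1, Matrix.mulVec_mulVec, hR.inv Q, Matrix.one_mulVec]
  abel

theorem k6a1_rep_one (R : KsRef v) {K : ℝ} (hR : R.Ok K) (e : R.Ent) :
    ∃ x : ℕ × MvPolynomial (Fin (v.j + 1)) ℝ × MvPolynomial (Fin (v.j + 1)) ℝ × MvPolynomial (Fin (v.j + 1)) ℝ,
    x.1 ≤ 2 ∧ x.2.1.totalDegree ≤ 5 ∧ x.2.2.1.totalDegree ≤ 5 ∧ x.2.2.2.totalDegree ≤ 5 ∧
    (∀ u ∈ R.eInt e, 1 / K ^ 2 ≤ MvPolynomial.eval (k6a1Vec u) x.2.2.2 ∧ MvPolynomial.eval (k6a1Vec u) x.2.2.2 ≤ K ^ 2) ∧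
    ((R.Ev0 ∩ R.eOn e).Nonempty → ∀ u ∈ R.eInt e, R.eF e u = sh2_val x.1 x.2.1 x.2.2.1 x.2.2.2 (k6a1Vec u)) := by
  have hK : 1 ≤ K := hR.K_ge
  have hK2 : 1 ≤ K ^ 2 := one_le_pow₀ hK
  have hone : ∀ u : ℝ × KbB v, 1 / K ^ 2 ≤ MvPolynomial.eval (k6a1Vec u) (1 : MvPolynomial (Fin (v.j + 1)) ℝ) ∧
      MvPolynomial.eval (k6a1Vec u) (1 : MvPolynomial (Fin (v.j + 1)) ℝ) ≤ K ^ 2 := by
    intro u
    rw [map_one]
    exact ⟨(div_le_one (by positivity)).2 hK2, hK2⟩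
  by_cases hk : R.eKind e = KsKind.centre
  · by_cases hne : (R.Ev0 ∩ R.eOn e).Nonempty
    · obtain ⟨x, hx0, hxe⟩ := hne
      have hxe' : R.ent (R.dep (R.eLab e)) x = e := hxe
      have hcov := (hR.ent_cov _ (hR.dep_mem (R.eLab e)) x hx0).1
      rw [hxe'] at hcov
      have hrad : 0 < R.eRad e := by
        have := hR.ent_rad e
        by_contra hcon
        rw [not_lt] at hcon
        nlinarith
      have hu : R.unit (R.eLab e) (R.base x) ∈ R.eInt e := by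
        have h1 : dist (R.unit (R.eLab e) (R.base x)) (R.eCtr e) ≤ R.eRad e := hcov.2
        show dist (R.unit (R.eLab e) (R.base x)) (R.eCtr e) < 2 * R.eRad e
        linarith
      have hww : kbDww (R.tst (R.eLab e)) 0 0 0 ≠ 0 := by
        intro h0
        have h1 := hR.ent_ctr e hk _ hu
        unfold KsRef.onG at h1
        rw [k6a1_rep_back R hR] at h1
        have h2 := hR.tst_lo (R.eLab e) x ⟨hx0, hcov.1⟩
        have h3 : R.ev (kbDw (R.tst (R.eLab e))) x.1 x.2 = 0 := by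
          rw [← h1]
          exact k6a1_rep_dw _ (hR.tst_adm _).1 h0 _ _ _ _
        rw [h3, abs_zero, mul_zero] at h2
        linarith
      obtain ⟨al, hal, hval⟩ := k6a1_sheet_ctr (R.tst (R.eLab e)) (R.nat (R.lpar (R.eLab e))) (hR.tst_adm _).1 (hR.nat_adm _).1
        (R.t0 (R.eLab e)) (R.q (R.eLab e)) (R.ch (R.eLab e)).y0 (R.ch (R.eLab e)).y1 (R.ch (R.eLab e)).D (R.eInt e)
        (fun u => R.eG e (R.ofUnit (R.eLab e) u)) hww (fun u hu => hR.ent_ctr e hk u hu)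
      refine ⟨(0, al, 0, 1), by norm_num, hal, by simp, by simp, fun u _ => hone u, fun _ u hu => hval u hu⟩
    · exact ⟨(0, 0, 0, 1), by norm_num, by simp, by simp, by simp, fun u _ => hone u, fun h => absurd h hne⟩
  · have hsg : (R.eKind e).sgn = 1 ∨ (R.eKind e).sgn = -1 := by
      cases hkk : R.eKind e with
      | plus => exact Or.inl rfl
      | minus => exact Or.inr rfl
      | centre => exact absurd hkk hk
    obtain ⟨m, al, be, Dc, hm, h1, h2, h3, h4⟩ := k6a1_sheet_root (R.tst (R.eLab e)) (R.nat (R.lpar (R.eLab e))) (hR.tst_adm _).1 (hR.nat_adm _).1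
      (R.t0 (R.eLab e)) (R.q (R.eLab e)) (R.ch (R.eLab e)).y0 (R.ch (R.eLab e)).y1 (R.ch (R.eLab e)).D (R.eInt e)
      (fun u => R.eG e (R.ofUnit (R.eLab e) u)) K (R.eKind e).sgn hK hsg (fun u hu => hR.ent_root e hk u hu)
    exact ⟨(m, al, be, Dc), hm, h1, h2, h3, fun u hu => (h4 u hu).2, fun _ u hu => (h4 u hu).1⟩

/-- **the representation exists.**   For the entries without retained incidences: `(0, 0, 0, 1)`.
PLAN: by choice it is enough to treat one entry `e`, `Q = eLab e`; `R.ofUnit Q = k6a1Aff (t0 Q) (q Q) (ch Q).y0 (ch Q).y1 (ch Q).D` (`rfl`), `g u = eG e (ofUnit Q u)`, `T = tst Q`, `P = nat (lpar Q)` (`tst_adm`, `nat_adm`), `S = eInt e`.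
`eKind e ≠ centre`: `k6a1_sheet_root` with `ent_root` (`sgn = ±1`).   `eKind e = centre`: `k6a1_sheet_ctr` with `ent_ctr`;   `T_ww ≠ 0`: otherwise `T_w` does not depend on `w` (`k6a1_quad_poly`), it vanishes at `u = unit Q (base x) ∈ eInt e` for the retained
incidence `x` (`x ∈ eOn e` means `ent (dep Q) x = e`; `dep_mem`, `ent_cov`: the base lies in the core; `ofUnit (unit z) = z`), against `tst_lo`. -/
theorem k6a1_rep (R : KsRef v) {K : ℝ} (hR : R.Ok K) : ∃ rep : K6a1Rep v R.Ent, K6a1RepOk R K rep := by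
  choose rep hrep using k6a1_rep_one R hR
  exact ⟨rep, hrep⟩

/-- **the entries of the depth `σ`** -/
def k6a1EnOf (R : KsRef v) (A : R.Par) (s s1 s2 σ : ℝ) (lv : ℕ) (pick : R.Lab × R.Lab × R.Lab → R.Lab) (rep : K6a1Rep v R.Ent) :
    K6a1En (k6aOf R A s s1 s2) (k6aPkOf R A s s1 s2 σ lv pick) where
  En := R.Ent
  fEn := R.fEnt
  pk := R.eLab
  en := R.ent σ
  c0 := fun e => Fin.cons (-(R.t0 (R.eLab e)) / R.q (R.eLab e)) ((R.ch (R.eLab e)).Di.mulVec (-(R.ch (R.eLab e)).y0))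
  ct := fun e => Fin.cons (1 / R.q (R.eLab e)) ((R.ch (R.eLab e)).Di.mulVec (-(R.ch (R.eLab e)).y1))
  cy := fun e a => Fin.cons 0 (fun i => (R.ch (R.eLab e)).Di i a)
  lo := fun e => Fin.cons ((R.eCtr e).1 - R.eRad e) (fun i => (R.eCtr e).2 i - R.eRad e)
  hi := fun e => Fin.cons ((R.eCtr e).1 + R.eRad e) (fun i => (R.eCtr e).2 i + R.eRad e)
  m := fun e => (rep e).1
  al := fun e => (rep e).2.1
  be := fun e => (rep e).2.2.1
  Dc := fun e => (rep e).2.2.2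

theorem k6a1_refen_eqns_cite3 : True := by
  have := @k6a1EnOf.eq_1
  have := @K6a1RepOk.eq_1
  trivial

section en

variable (R : KsRef v) (A : R.Par) (s s1 s2 σ : ℝ) (lv : ℕ) (pick : R.Lab × R.Lab × R.Lab → R.Lab) (rep : K6a1Rep v R.Ent)

/-- the chart of an entry is `unit` of its label -/
theorem k6a1_en_u (e : R.Ent) (z : ℝ × KbB v) : (k6a1EnOf R A s s1 s2 σ lv pick rep).u e z = k6a1Vec (R.unit (R.eLab e) z) := by
  funext i
  simp only [K6a1En.u, K6a1En.dir, k6a1EnOf, k6a1Vec, KsRef.unit, KbChart.yc, Pi.add_apply, Pi.smul_apply, Finset.sum_apply, smul_eq_mul]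
  refine Fin.cases ?_ (fun i => ?_) i
  · simp only [Fin.cons_zero, mul_zero, Finset.sum_const_zero, add_zero]
    ring
  · simp only [Fin.cons_succ, Matrix.mulVec, dotProduct, Pi.neg_apply, Pi.sub_apply, Pi.add_apply, Pi.smul_apply, smul_eq_mul]
    rw [Finset.mul_sum, ← Finset.sum_add_distrib, ← Finset.sum_add_distrib]
    refine Finset.sum_congr rfl fun k _ => ?_
    ring

theorem k6a1_en_u_chart (e : R.Ent) : (k6a1EnOf R A s s1 s2 σ lv pick rep).u e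
    = k6a1Chart (R.t0 (R.eLab e)) (R.q (R.eLab e)) (R.ch (R.eLab e)).y0 (R.ch (R.eLab e)).y1 (R.ch (R.eLab e)).Di := by
  funext z
  rw [k6a1_en_u]
  rfl

/-- the box of an entry is its core (sup distances of `ℝ × (Fin j → ℝ)`: `Prod.dist_eq`, `dist_pi_le_iff`, `Real.dist_eq`, `abs_le`; `Fin.cases`) -/
theorem k6a1_en_box (e : R.Ent) (u : ℝ × KbB v) : k6a1Vec u ∈ Set.Icc ((k6a1EnOf R A s s1 s2 σ lv pick rep).lo e) ((k6a1EnOf R A s s1 s2 σ lv pick rep).hi e) ↔ dist u (R.eCtr e) ≤ R.eRad e := by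
  have hlo : (k6a1EnOf R A s s1 s2 σ lv pick rep).lo e = Fin.cons ((R.eCtr e).1 - R.eRad e) (fun i => (R.eCtr e).2 i - R.eRad e) := rfl
  have hhi : (k6a1EnOf R A s s1 s2 σ lv pick rep).hi e = Fin.cons ((R.eCtr e).1 + R.eRad e) (fun i => (R.eCtr e).2 i + R.eRad e) := rfl
  rw [hlo, hhi, Set.mem_Icc, Pi.le_def, Pi.le_def, Prod.dist_eq, max_le_iff, Real.dist_eq, abs_le]
  unfold k6a1Vec
  constructor
  · rintro ⟨h1, h2⟩
    have h10 := h1 0
    have h20 := h2 0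
    simp only [Fin.cons_zero] at h10 h20
    have hr : 0 ≤ R.eRad e := by linarith
    refine ⟨⟨by linarith, by linarith⟩, ?_⟩
    rw [dist_pi_le_iff hr]
    intro i
    have h1i := h1 i.succ
    have h2i := h2 i.succ
    simp only [Fin.cons_succ] at h1i h2i
    rw [Real.dist_eq, abs_le]
    exact ⟨by linarith, by linarith⟩
  · rintro ⟨⟨h1, h2⟩, h3⟩
    have hr : 0 ≤ R.eRad e := by linarith
    rw [dist_pi_le_iff hr] at h3
    constructor
    · intro i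
      refine Fin.cases ?_ (fun i => ?_) i
      · simp only [Fin.cons_zero]; linarith
      · simp only [Fin.cons_succ]
        have := h3 i
        rw [Real.dist_eq, abs_le] at this
        linarith [this.1]
    · intro i
      refine Fin.cases ?_ (fun i => ?_) i
      · simp only [Fin.cons_zero]; linarith
      · simp only [Fin.cons_succ]
        have := h3 i
        rw [Real.dist_eq, abs_le] at this
        linarith [this.2]

theorem k6a1_en_dom (e : R.Ent) : (k6a1EnOf R A s s1 s2 σ lv pick rep).dom e = R.core e := by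
  ext z
  simp only [K6a1En.dom, KsRef.core, Set.mem_ofPred_eq]
  rw [k6a1_en_u, k6a1_en_box]

/-- every vector is a `k6a1Vec` -/
theorem k6a1_vec_surj {j : ℕ} (x : Fin (j + 1) → ℝ) : ∃ u : ℝ × (Fin j → ℝ), k6a1Vec u = x :=
  ⟨(x 0, fun i => x i.succ), by unfold k6a1Vec; exact Fin.cons_self_tail x⟩

theorem k6a1_q_pos (Q : R.Lab) : 0 < R.q Q := by
  unfold KsRef.q kbQ
  positivity

/-- (`inv`: `D (Di x) = x`; `0 < q`) -/
theorem k6a1_ofUnit_unit {K : ℝ} (hR : R.Ok K) (Q : R.Lab) (z : ℝ × KbB v) : R.ofUnit Q (R.unit Q z) = z := by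
  have hq := (k6a1_q_pos R Q).ne'
  have h1 : R.t0 Q + R.q Q * ((z.1 - R.t0 Q) / R.q Q) = z.1 := by
    field_simp
    ring
  unfold KsRef.ofUnit KsRef.unit
  simp only
  rw [h1, Matrix.mulVec_mulVec, hR.inv Q, Matrix.one_mulVec]
  ext <;> simp

/-- (`J_lo`, `ℓ = 0`) -/
theorem k6a1_J_lo {K : ℝ} (hR : R.Ok K) (hell : R.ell = 0) (Q : R.Lab) : R.q Q ^ v.j ≤ K * R.J Q := by
  have h := hR.J_lo Q
  rw [hell, zero_mul, k6a1_a_zero hR, mul_one] at h
  exact h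

/-- a quadratic test: exact second order expansion in the hidden variable -/
theorem k6a1_quad_expand (T : KbTest v) (hT : KbIsQuad T) (t : ℝ) (y : KbB v) (w w' : ℝ) :
    T t y w - T t y w' = kbDw T t y w * (w - w') - kbDww T t y w * (w - w') ^ 2 / 2 := by
  obtain ⟨Q, hQ⟩ := hT
  unfold kbDw kbDww
  simp only [hQ, KbQuad.ev]
  ring

/-- **cover.**   PLAN: `e = ent σ x`, `Q = eLab e = labAt σ x`: `hR.lab` (genuine label: `dep Q = σ`, `lev Q = lv`), `ent_cov`: `x ∈ inc Q`, `base x ∈ core e` (`k6a1_en_dom`, `k6a1_of_base`).   Prediction: `f e z = F e (u e z) = eF e (unit Q z)` (`hrep`, the core lies in `eInt`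
as `0 < eRad`) `= nat (z, eG e z)` (`k6a1_ofUnit_unit`; `lpar Q = par x.1`: `asg_par`);   `X = nat (z, w)`;   for a quadratic `P(w) - P(w') = P_w(w) (w - w') - P_ww (w - w')² / 2` (`k6a1_quad_poly` or `KbQuad.ev`), `nat_w`, `nat_ww`, `|w - eG| ≤ K a ≤ K`:
`|X - f| ≤ K K a + K (K a)² / 2 ≤ 2 K³ a`. -/
theorem k6a1_of_en_cov {K : ℝ} (hR : R.Ok K) (hσ : σ ∈ R.depths) (hσ0 : 0 ≤ σ) (hlv : ∀ Q, R.dep Q = σ → R.lev Q = lv)
    (hrep : K6a1RepOk R K rep) :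
    ∀ x ∈ R.Ev0, x ∈ (k6aPkOf R A s s1 s2 σ lv pick).inc (R.eLab (R.ent σ x)) ∧ (k6aOf R A s s1 s2).base x ∈ (k6a1EnOf R A s s1 s2 σ lv pick rep).dom (R.ent σ x) ∧
      |(k6aOf R A s s1 s2).X x.1 x.2 - (k6a1EnOf R A s s1 s2 σ lv pick rep).f (R.ent σ x) ((k6aOf R A s s1 s2).base x)| ≤ 2 * K ^ 3 * R.a σ := by
  intro x hx
  have hK : 1 ≤ K := hR.K_ge
  obtain ⟨hdep, hinc⟩ : R.dep (R.eLab (R.ent σ x)) = σ ∧ x ∈ R.inc (R.eLab (R.ent σ x)) := hR.lab σ hσ x hx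
  obtain ⟨hcore, hw⟩ := hR.ent_cov σ hσ x hx
  have hSp : x.1 ∈ R.Sp := (hR.Ev0_sub hx).1
  have ht : x.2 ∈ Set.Icc (0 : ℝ) 1 := (hR.Ev0_sub hx).2
  have hlev := hlv _ hdep
  have hbase := k6a1_of_base R A s s1 s2 hSp
  have hc : R.base x ∈ R.core (R.ent σ x) := hcore.2
  refine ⟨?_, ?_, ?_⟩
  · refine ⟨?_, ?_⟩
    · show x.1 ∈ (if R.dep (R.eLab (R.ent σ x)) = σ ∧ R.lev (R.eLab (R.ent σ x)) = lv then R.asg (R.eLab (R.ent σ x)) else ∅)
      rw [if_pos ⟨hdep, hlev⟩]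
      exact hinc.1
    · have h2 : x.2 ∈ kbI (R.lev (R.eLab (R.ent σ x))) (R.iv (R.eLab (R.ent σ x))) := hinc.2
      rw [k6a1_kbI, hlev] at h2
      exact h2
  · rw [hbase, k6a1_en_dom]
    exact hc
  · rw [hbase, k6a1_of_X R A s s1 s2 hR hSp]
    have hrad : 0 < R.eRad (R.ent σ x) := by
      have := hR.ent_rad (R.ent σ x)
      by_contra hneg
      have : K * R.eRad (R.ent σ x) ≤ 0 := mul_nonpos_of_nonneg_of_nonpos (by linarith) (not_lt.1 hneg)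
      linarith
    have hint : R.unit (R.eLab (R.ent σ x)) (R.base x) ∈ R.eInt (R.ent σ x) := by
      have h1 : dist (R.unit (R.eLab (R.ent σ x)) (R.base x)) (R.eCtr (R.ent σ x)) ≤ R.eRad (R.ent σ x) := hc
      show dist _ _ < _
      linarith
    have hne : (R.Ev0 ∩ R.eOn (R.ent σ x)).Nonempty := by
      refine ⟨x, hx, ?_⟩
      show R.ent (R.dep (R.eLab (R.ent σ x))) x = R.ent σ x
      rw [hdep]
    have hF := (hrep (R.ent σ x)).2.2.2.2.2 hne _ hint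
    have hf : (k6a1EnOf R A s s1 s2 σ lv pick rep).f (R.ent σ x) (R.base x) = R.eF (R.ent σ x) (R.unit (R.eLab (R.ent σ x)) (R.base x)) := by
      rw [hF]
      show sh2_val _ _ _ _ ((k6a1EnOf R A s s1 s2 σ lv pick rep).u (R.ent σ x) (R.base x)) = _
      rw [k6a1_en_u]
      rfl
    have hpar : R.par x.1 = R.lpar (R.eLab (R.ent σ x)) := hR.asg_par _ hinc.1
    have hF2 : R.eF (R.ent σ x) (R.unit (R.eLab (R.ent σ x)) (R.base x))
        = R.nat (R.par x.1) x.2 (kbY (R.co x.1) x.2) (R.eG (R.ent σ x) (R.base x)) := by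
      unfold KsRef.eF KsRef.onG
      rw [k6a1_ofUnit_unit R hR, hpar]
      rfl
    rw [hf, hF2]
    have hX : R.X x.1 x.2 = R.nat (R.par x.1) x.2 (kbY (R.co x.1) x.2) (R.w x.1 x.2) := rfl
    rw [hX, k6a1_quad_expand _ (hR.nat_adm _).1]
    have h1 : |kbDw (R.nat (R.par x.1)) x.2 (kbY (R.co x.1) x.2) (R.w x.1 x.2)| ≤ K := hR.nat_w x.1 hSp x.2 ht
    have h2 := hR.nat_ww (R.par x.1) x.2 (kbY (R.co x.1) x.2) (R.w x.1 x.2)
    have ha0 := (k6a1_a_pos hR σ).le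
    have ha1 := k6a1_a_le_one hR hσ0
    set δ := R.w x.1 x.2 - R.eG (R.ent σ x) (R.base x) with hδ
    set a := R.a σ with ha
    have h3 : |kbDw (R.nat (R.par x.1)) x.2 (kbY (R.co x.1) x.2) (R.w x.1 x.2) * δ| ≤ K * (K * a) := by
      rw [abs_mul]
      exact mul_le_mul h1 hw (abs_nonneg _) (by linarith)
    have h4 : |kbDww (R.nat (R.par x.1)) x.2 (kbY (R.co x.1) x.2) (R.w x.1 x.2) * δ ^ 2 / 2| ≤ K * (K * a) ^ 2 / 2 := by
      rw [abs_div, abs_mul, abs_pow, abs_two]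
      have : |δ| ^ 2 ≤ (K * a) ^ 2 := pow_le_pow_left₀ (abs_nonneg _) hw 2
      have := mul_le_mul h2 this (by positivity) (by linarith)
      linarith
    have h5 := abs_sub (kbDw (R.nat (R.par x.1)) x.2 (kbY (R.co x.1) x.2) (R.w x.1 x.2) * δ)
      (kbDww (R.nat (R.par x.1)) x.2 (kbY (R.co x.1) x.2) (R.w x.1 x.2) * δ ^ 2 / 2)
    have h6 : K * (K * a) + K * (K * a) ^ 2 / 2 ≤ 2 * K ^ 3 * a := by
      have hK2 : K ^ 2 ≤ K ^ 3 := pow_le_pow_right₀ hK (by norm_num)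
      have haa : a ^ 2 ≤ a := by nlinarith
      have hK3 : 0 ≤ K ^ 3 := by positivity
      have e1 : K * (K * a) = K ^ 2 * a := by ring
      have e2 : K * (K * a) ^ 2 / 2 = K ^ 3 * a ^ 2 / 2 := by ring
      rw [e1, e2]
      nlinarith [mul_le_mul_of_nonneg_right hK2 ha0, mul_le_mul_of_nonneg_left haa hK3]
    linarith

/-- E9 helper -/
theorem k6a1_e9_cancel {a x y : ℝ≥0∞} (h0 : a ≠ 0) (ht : a ≠ ⊤) (h : a * x ≤ a * y) : x ≤ y := by
  exact (ENNReal.mul_le_mul_iff_right h0 ht).1 h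

/-- **(a03:packet-base-cap) in the chart.**   PLAN: if `dep (eLab e) ≠ σ` the event is empty (`hR.lab`).   Otherwise `Q = eLab e` is genuine; the event lies in `Ev0 ∩ inc Q ∩ base ⁻¹' (chart ⁻¹' U)` (`ent_cov`, `k6a1_en_u_chart`, `k6a1_of_base`);
`hR.capQ`: `J * mass ≤ K ν_Q vol (chart ⁻¹' U) = K ν_Q q J vol U` (`k6a1_vol_chart`, `J = |det D| > 0`: `k6a1_J_lo`); divide by `J` (`ENNReal.mul_le_mul_left`-type cancellation, `J ≠ 0, ∞`). -/
theorem k6a1_of_en_ucap {K : ℝ} (hR : R.Ok K) (hell : R.ell = 0) (hσ : σ ∈ R.depths) (hlv : ∀ Q, R.dep Q = σ → R.lev Q = lv) (e : R.Ent) (U : Set (Fin (v.j + 1) → ℝ))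
    (hU : MeasurableSet U) :
    (k6aOf R A s s1 s2).prior (R.Ev0 ∩ R.ent σ ⁻¹' {e} ∩ {x | (k6a1EnOf R A s s1 s2 σ lv pick rep).u e ((k6aOf R A s s1 s2).base x) ∈ U})
      ≤ ENNReal.ofReal (K * (k6aPkOf R A s s1 s2 σ lv pick).H) * (k6aPkOf R A s s1 s2 σ lv pick).νQ (R.eLab e) * volume U := by
  by_cases hdep : R.dep (R.eLab e) = σ
  · have hlev : R.lev (R.eLab e) = lv := hlv _ hdep
    have hH : (k6aPkOf R A s s1 s2 σ lv pick).H = R.q (R.eLab e) := by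
      show k6aW lv = kbQ (R.lev (R.eLab e))
      rw [hlev]; rfl
    have hν : (k6aPkOf R A s s1 s2 σ lv pick).νQ (R.eLab e) = R.νQ (R.eLab e) := by
      show R.ν (if R.dep (R.eLab e) = σ ∧ R.lev (R.eLab e) = lv then R.asg (R.eLab e) else ∅) = R.ν (R.asg (R.eLab e))
      rw [if_pos ⟨hdep, hlev⟩]
    rw [hH, hν, k6a1_of_prior]
    have hq : 0 < R.q (R.eLab e) := k6a1_q_pos R _
    have hK0 : 0 < K := by linarith [hR.K_ge]
    have hJ : 0 < R.J (R.eLab e) := by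
      have h1 := k6a1_J_lo R hR hell (R.eLab e)
      have h2 : 0 < R.q (R.eLab e) ^ v.j := by positivity
      by_contra hneg
      rw [not_lt] at hneg
      nlinarith
    obtain ⟨hm, hvol⟩ := k6a1_vol_chart (R.t0 (R.eLab e)) (R.q (R.eLab e)) hq (R.ch (R.eLab e)).y0 (R.ch (R.eLab e)).y1 (R.ch (R.eLab e)).D (R.ch (R.eLab e)).Di (hR.inv _) U hU
    have hcap := hR.capQ (R.eLab e) _ hm
    rw [hvol, k6a1_lam0_apply R hR] at hcap
    have hsub : R.Ev0 ∩ R.ent σ ⁻¹' {e} ∩ {x | (k6a1EnOf R A s s1 s2 σ lv pick rep).u e ((k6aOf R A s s1 s2).base x) ∈ U}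
        ⊆ R.Ev0 ∩ (R.inc (R.eLab e) ∩ R.base ⁻¹' (k6a1Chart (R.t0 (R.eLab e)) (R.q (R.eLab e)) (R.ch (R.eLab e)).y0 (R.ch (R.eLab e)).y1 (R.ch (R.eLab e)).Di ⁻¹' U)) := by
      rintro x ⟨⟨hx0, hxe⟩, hxU⟩
      have hxe' : R.ent σ x = e := hxe
      have hc := (hR.ent_cov σ hσ x hx0).1
      rw [hxe'] at hc
      refine ⟨hx0, hc.1, ?_⟩
      have hxU' : (k6a1EnOf R A s s1 s2 σ lv pick rep).u e ((k6aOf R A s s1 s2).base x) ∈ U := hxU
      rw [k6a1_en_u_chart, k6a1_of_base R A s s1 s2 (hR.Ev0_sub hx0).1] at hxU'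
      exact hxU'
    refine (measure_mono hsub).trans ?_
    refine k6a1_e9_cancel (a := ENNReal.ofReal (R.J (R.eLab e))) (by simpa using hJ) ENNReal.ofReal_ne_top (hcap.trans (le_of_eq ?_))
    have hJd : |(R.ch (R.eLab e)).D.det| = R.J (R.eLab e) := rfl
    rw [hJd, ENNReal.ofReal_mul hq.le, ENNReal.ofReal_mul hK0.le]
    ring
  · have hemp : R.Ev0 ∩ R.ent σ ⁻¹' {e} ∩ {x | (k6a1EnOf R A s s1 s2 σ lv pick rep).u e ((k6aOf R A s s1 s2).base x) ∈ U} = ∅ := by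
      rw [Set.eq_empty_iff_forall_notMem]
      rintro x ⟨⟨hx0, hxe⟩, -⟩
      have hxe' : R.ent σ x = e := hxe
      have h1 := (hR.lab σ hσ x hx0).1
      unfold KsRef.labAt at h1
      rw [hxe'] at h1
      exact hdep h1
    refine le_trans (le_of_eq ?_) zero_le
    rw [k6a1_of_prior]
    exact (congrArg R.prior hemp).trans measure_empty

end en

/-- E10 helper: the dimension -/
theorem k6a1_e10_j (v : KbVer) : 1 ≤ v.j ∧ v.j ≤ 2 := by
  cases v <;> exact ⟨by decide, by decide⟩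

/-- E10 helper: the entries of the inverse frame -/
theorem k6a1_e10_Di (R : KsRef v) {K : ℝ} (hR : R.Ok K) (hell : R.ell = 0) (Q : R.Lab) (i k : Fin v.j) : |(R.ch Q).Di i k| ≤ K ^ 2 / R.q Q := by
  obtain ⟨hj1, hj2⟩ := k6a1_e10_j v
  have hK : 1 ≤ K := hR.K_ge
  have hq : 0 < R.q Q := k6a1_q_pos R Q
  have h1 := k6a1_inv_bd (R.ch Q).D (R.ch Q).Di (hR.inv Q) i k
  have hJlo := k6a1_J_lo R hR hell Q
  have hJd : |(R.ch Q).D.det| = R.J Q := rfl
  rw [hJd] at h1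
  have hJ : 0 < R.J Q := by
    have h2 : 0 < R.q Q ^ v.j := by positivity
    by_contra hneg
    rw [not_lt] at hneg
    nlinarith
  have hMn0 : 0 ≤ kbMn (R.ch Q).D := by
    unfold kbMn
    exact Finset.sum_nonneg fun _ _ => Finset.sum_nonneg fun _ _ => abs_nonneg _
  refine h1.trans ?_
  rw [div_le_div_iff₀ hJ hq]
  have h3 : kbMn (R.ch Q).D ^ (v.j - 1) ≤ (K * R.q Q) ^ (v.j - 1) := pow_le_pow_left₀ hMn0 (hR.D_hi Q) _
  have h4 : R.q Q ^ (v.j - 1) * R.q Q = R.q Q ^ v.j := by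
    rw [← pow_succ]; congr 1; omega
  have h5 : K ^ (v.j - 1) * K ≤ K ^ 2 := by
    rw [← pow_succ]
    exact pow_le_pow_right₀ hK (by omega)
  calc kbMn (R.ch Q).D ^ (v.j - 1) * R.q Q ≤ (K * R.q Q) ^ (v.j - 1) * R.q Q := mul_le_mul_of_nonneg_right h3 hq.le
    _ = K ^ (v.j - 1) * R.q Q ^ v.j := by rw [mul_pow, mul_assoc, h4]
    _ ≤ K ^ (v.j - 1) * (K * R.J Q) := mul_le_mul_of_nonneg_left hJlo (by positivity)
    _ = (K ^ (v.j - 1) * K) * R.J Q := by ring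
    _ ≤ K ^ 2 * R.J Q := mul_le_mul_of_nonneg_right h5 hJ.le

/-- E10 helper: the inverse frame applied to a vector -/
theorem k6a1_e10_mulVec (R : KsRef v) {K : ℝ} (hR : R.Ok K) (hell : R.ell = 0) (Q : R.Lab) (w : KbB v) (i : Fin v.j) :
    |(R.ch Q).Di.mulVec w i| ≤ 2 * (K ^ 2 / R.q Q) * ‖w‖ := by
  obtain ⟨hj1, hj2⟩ := k6a1_e10_j v
  have hq : 0 < R.q Q := k6a1_q_pos R Q
  have hK : 1 ≤ K := hR.K_ge
  have hB : 0 ≤ K ^ 2 / R.q Q := by positivity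
  calc |(R.ch Q).Di.mulVec w i| = |∑ k, (R.ch Q).Di i k * w k| := rfl
    _ ≤ ∑ k, |(R.ch Q).Di i k * w k| := Finset.abs_sum_le_sum_abs _ _
    _ ≤ ∑ _k : Fin v.j, (K ^ 2 / R.q Q) * ‖w‖ := by
        refine Finset.sum_le_sum fun k _ => ?_
        rw [abs_mul]
        exact mul_le_mul (k6a1_e10_Di R hR hell Q i k) (norm_le_pi_norm w k) (abs_nonneg _) hB
    _ = (v.j : ℝ) * ((K ^ 2 / R.q Q) * ‖w‖) := by
        rw [Finset.sum_const, Finset.card_univ, Fintype.card_fin, nsmul_eq_mul]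
    _ ≤ 2 * ((K ^ 2 / R.q Q) * ‖w‖) := by
        have : (v.j : ℝ) ≤ 2 := by exact_mod_cast hj2
        exact mul_le_mul_of_nonneg_right this (by positivity)
    _ = 2 * (K ^ 2 / R.q Q) * ‖w‖ := by ring

/-- **the base bins of the level `nf` freeze the gradients.**
PLAN: `C₀` of `k6a1_frz v.j 5` (`Phys/Node.lean`); `C` with `k6a1K C₀ (10 K^4) ≤ k6a1K C K` (`k6a1_K_comp`, `k6a1_K_of_pow`).   `x, x' ∈ Ev0` with the same state: `e = ent σ x = ent σ x'`, `Q = eLab e` genuine with a nonempty assignment;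
`‖base x - base x'‖ ≤ W_nf` (`k6a1_bin_diam`, `k6a1_vbin_diam`), both bases in `dom e` (`k6a1_of_en_cov`).   Hypotheses of `k6a1_frz` with the slack `K' = 10 K^4`: sides `2 eRad ≥ 2 / K` (`ent_rad`);   stability with `D0 = 1`, `kap = K²` (`k6a1_en_box`, `k6a1_vec_surj`,
the core lies in `eInt`);   `|F| ≤ K` on the box: `F (k6a1Vec u) = eF e u` (`hrep`) and `ent_der` with `i = 0` (`norm_iteratedFDeriv_zero`);
`|ct|, |cy| ≤ K' / H`: `|Di i k| ≤ (K q)^(j-1) K / q^j = K^j / q` (`k6a1_inv_bd`, `D_hi`, `k6a1_J_lo`, `j ≤ 2`), `‖y1‖ ≤ 5 K²` (`K6a1PkRaw.cen` of `k6a1_of_pkraw`), `|(Di y1) i| ≤ j K^j 5 K² / q`. -/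
theorem k6a1_of_en_frz (v : KbVer) : ∃ C : ℕ, ∀ (R : KsRef v) (A : R.Par) (s s1 s2 σ : ℝ) (lv : ℕ) (pick : R.Lab × R.Lab × R.Lab → R.Lab) (rep : K6a1Rep v R.Ent) (K : ℝ) (nf : ℕ),
    R.Ok K → R.One A → R.ell = 0 → σ ∈ R.depths → 0 ≤ σ → (∀ Q, R.dep Q = σ → R.lev Q = lv) → K6a1RepOk R K rep → k6a1K C K * k6aW nf ≤ k6aW lv ^ 2 →
    ∀ x ∈ R.Ev0, ∀ x' ∈ R.Ev0, (k6a1EnOf R A s s1 s2 σ lv pick rep).st nf x = (k6a1EnOf R A s s1 s2 σ lv pick rep).st nf x' →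
      |(k6a1EnOf R A s s1 s2 σ lv pick rep).gt (R.ent σ x) ((k6aOf R A s s1 s2).base x) - (k6a1EnOf R A s s1 s2 σ lv pick rep).gt (R.ent σ x) ((k6aOf R A s s1 s2).base x')| ≤ 1 ∧
      ∀ a, |(k6a1EnOf R A s s1 s2 σ lv pick rep).gy (R.ent σ x) a ((k6aOf R A s s1 s2).base x) - (k6a1EnOf R A s s1 s2 σ lv pick rep).gy (R.ent σ x) a ((k6aOf R A s s1 s2).base x')| ≤ 1 := by
  obtain ⟨C₀, hC₀⟩ := k6a1_frz v.j 5
  refine ⟨C₀ * 14 ^ C₀ + 14 * C₀, fun R A s s1 s2 σ lv pick rep K nf hR hA hell hσ hσ0 hlv hrep hmesh x hx x' hx' hst => ?_⟩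
  have hK : 1 ≤ K := hR.K_ge
  have hK0 : 0 < K := by linarith
  obtain ⟨e, he⟩ : ∃ e, e = R.ent σ x := ⟨_, rfl⟩
  have he' : R.ent σ x' = e := by
    rw [he]; exact (congrArg Prod.fst hst).symm
  rw [← he]
  obtain ⟨Q, hQ⟩ : ∃ Q, Q = R.eLab e := ⟨_, rfl⟩
  have hlab := hR.lab σ hσ x hx
  have hdep : R.dep Q = σ := by
    rw [hQ, he]; exact hlab.1
  have hlev : R.lev Q = lv := hlv Q hdep
  have hxinc : x ∈ R.inc Q := by
    rw [hQ, he]; exact hlab.2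
  have hqH : R.q Q = k6aW lv := by
    show kbQ (R.lev Q) = k6aW lv
    rw [hlev]; rfl
  have hq : 0 < R.q Q := k6a1_q_pos R Q
  -- powers of K
  have hK2 : K ^ 2 ≤ 10 * K ^ 4 := by
    have : K ^ 2 ≤ K ^ 4 := pow_le_pow_right₀ hK (by norm_num)
    have h0 : 0 ≤ K ^ 4 := by positivity
    linarith
  have hK1 : K ≤ 10 * K ^ 4 := by
    have : K ^ 1 ≤ K ^ 4 := pow_le_pow_right₀ hK (by norm_num)
    have h0 : 0 ≤ K ^ 4 := by positivity
    rw [pow_one] at this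
    linarith
  have hK' : 1 ≤ 10 * K ^ 4 := hK.trans hK1
  have hrad : 0 < R.eRad e := by
    have := hR.ent_rad e
    by_contra hneg
    rw [not_lt] at hneg
    nlinarith
  obtain ⟨hm, hd1, hd2, hd3, hstab, hval⟩ := hrep e
  have hne : (R.Ev0 ∩ R.eOn e).Nonempty := by
    refine ⟨x, hx, ?_⟩
    show R.ent (R.dep (R.eLab e)) x = e
    rw [← hQ, hdep, he]
  have hval' := hval hne
  -- the box lies in the used interior
  have hbox : ∀ u ∈ Set.Icc ((k6a1EnOf R A s s1 s2 σ lv pick rep).lo e) ((k6a1EnOf R A s s1 s2 σ lv pick rep).hi e), ∃ u' ∈ R.eInt e, k6a1Vec u' = u := by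
    intro u hu
    obtain ⟨u', rfl⟩ := k6a1_vec_surj u
    refine ⟨u', ?_, rfl⟩
    have := (k6a1_en_box R A s s1 s2 σ lv pick rep e u').1 hu
    show dist u' (R.eCtr e) < 2 * R.eRad e
    linarith
  have hy1 : ‖(R.ch Q).y1‖ ≤ 5 * K ^ 2 := by
    have hraw := k6a1_of_pkraw R A s s1 s2 K σ lv pick hR hA hell hσ hlv ⟨x, hx⟩
    have h1 := hraw.cen Q (by
      show (if R.dep Q = σ ∧ R.lev Q = lv then R.asg Q else ∅ : Set R.L).Nonempty
      rw [if_pos ⟨hdep, hlev⟩]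
      exact ⟨x.1, hxinc.1⟩)
    have h2 : (k6aPkOf R A s s1 s2 σ lv pick).yc1 Q = (R.ch Q).y1 := by
      show (if R.dep Q = σ ∧ R.lev Q = lv then (R.ch Q).y1 else 0) = (R.ch Q).y1
      rw [if_pos ⟨hdep, hlev⟩]
    rw [h2] at h1
    exact h1
  have hH : (k6aPkOf R A s s1 s2 σ lv pick).H = R.q Q := hqH.symm
  have hlt : ∀ a, (k6a1EnOf R A s s1 s2 σ lv pick rep).lo e a < (k6a1EnOf R A s s1 s2 σ lv pick rep).hi e a := by
    intro a
    refine Fin.cases ?_ (fun i => ?_) a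
    · show (R.eCtr e).1 - R.eRad e < (R.eCtr e).1 + R.eRad e
      linarith
    · show (R.eCtr e).2 i - R.eRad e < (R.eCtr e).2 i + R.eRad e
      linarith
  have hside : ∀ a, 1 ≤ 10 * K ^ 4 * ((k6a1EnOf R A s s1 s2 σ lv pick rep).hi e a - (k6a1EnOf R A s s1 s2 σ lv pick rep).lo e a) := by
    intro a
    have h0 : (k6a1EnOf R A s s1 s2 σ lv pick rep).hi e a - (k6a1EnOf R A s s1 s2 σ lv pick rep).lo e a = 2 * R.eRad e := by
      refine Fin.cases ?_ (fun i => ?_) a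
      · show (R.eCtr e).1 + R.eRad e - ((R.eCtr e).1 - R.eRad e) = 2 * R.eRad e
        ring
      · show (R.eCtr e).2 i + R.eRad e - ((R.eCtr e).2 i - R.eRad e) = 2 * R.eRad e
        ring
    rw [h0]
    have h1 := hR.ent_rad e
    have h2 : K * R.eRad e ≤ 10 * K ^ 4 * R.eRad e := mul_le_mul_of_nonneg_right hK1 hrad.le
    nlinarith
  have hstab' : sh2Stable (10 * K ^ 4) ((k6a1EnOf R A s s1 s2 σ lv pick rep).Dc e) ((k6a1EnOf R A s s1 s2 σ lv pick rep).lo e) ((k6a1EnOf R A s s1 s2 σ lv pick rep).hi e) := by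
    refine ⟨1, one_pos, fun u hu => ?_⟩
    obtain ⟨u', hu', rfl⟩ := hbox u hu
    obtain ⟨h1, h2⟩ := hstab u' hu'
    constructor
    · refine le_trans ?_ h1
      exact one_div_le_one_div_of_le (by positivity) hK2
    · rw [mul_one]
      exact h2.trans hK2
  have hF : ∀ u ∈ Set.Icc ((k6a1EnOf R A s s1 s2 σ lv pick rep).lo e) ((k6a1EnOf R A s s1 s2 σ lv pick rep).hi e), |(k6a1EnOf R A s s1 s2 σ lv pick rep).F e u| ≤ 10 * K ^ 4 := by
    intro u hu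
    obtain ⟨u', hu', rfl⟩ := hbox u hu
    have h1 : (k6a1EnOf R A s s1 s2 σ lv pick rep).F e (k6a1Vec u') = R.eF e u' := (hval' u' hu').symm
    rw [h1]
    have h2 := hR.ent_der e u' hu' 0 (Nat.zero_le _)
    rw [norm_iteratedFDeriv_zero, Real.norm_eq_abs] at h2
    exact h2.trans hK1
  have hct : ∀ a, |(k6a1EnOf R A s s1 s2 σ lv pick rep).ct e a| ≤ 10 * K ^ 4 / (k6aPkOf R A s s1 s2 σ lv pick).H := by
    intro a
    rw [hH]
    refine Fin.cases ?_ (fun i => ?_) a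
    · show |1 / R.q (R.eLab e)| ≤ 10 * K ^ 4 / R.q Q
      rw [← hQ, abs_of_pos (by positivity)]
      exact div_le_div_of_nonneg_right hK' hq.le
    · show |(R.ch (R.eLab e)).Di.mulVec (-(R.ch (R.eLab e)).y1) i| ≤ 10 * K ^ 4 / R.q Q
      rw [← hQ]
      refine (k6a1_e10_mulVec R hR hell Q _ i).trans ?_
      rw [norm_neg]
      calc 2 * (K ^ 2 / R.q Q) * ‖(R.ch Q).y1‖ ≤ 2 * (K ^ 2 / R.q Q) * (5 * K ^ 2) :=
            mul_le_mul_of_nonneg_left hy1 (by positivity)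
        _ = 10 * K ^ 4 / R.q Q := by ring
  have hcy : ∀ b a, |(k6a1EnOf R A s s1 s2 σ lv pick rep).cy e b a| ≤ 10 * K ^ 4 / (k6aPkOf R A s s1 s2 σ lv pick).H := by
    intro b a
    rw [hH]
    refine Fin.cases ?_ (fun i => ?_) a
    · show |(0 : ℝ)| ≤ 10 * K ^ 4 / R.q Q
      rw [abs_zero]; positivity
    · show |(R.ch (R.eLab e)).Di i b| ≤ 10 * K ^ 4 / R.q Q
      rw [← hQ]
      exact (k6a1_e10_Di R hR hell Q i b).trans (div_le_div_of_nonneg_right hK2 hq.le)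
  have hmesh' : k6a1K C₀ (10 * K ^ 4) * k6aW nf ≤ (k6aPkOf R A s s1 s2 σ lv pick).H ^ 2 := by
    refine le_trans ?_ hmesh
    refine mul_le_mul_of_nonneg_right ?_ (k6a1_W_pos nf).le
    have h1 : (10 : ℝ) * K ^ 4 ≤ k6a1K 14 K := by
      have := k6a1_K_of_pow 10 4 hK
      simpa using this
    exact (k6a1_K_mono le_rfl hK' h1).trans (k6a1_K_comp C₀ 14 hK)
  have hcov := k6a1_of_en_cov R A s s1 s2 σ lv pick rep hR hσ hσ0 hlv hrep
  have hz : (k6aOf R A s s1 s2).base x ∈ (k6a1EnOf R A s s1 s2 σ lv pick rep).dom e := by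
    have := (hcov x hx).2.1
    rw [← he] at this
    exact this
  have hz' : (k6aOf R A s s1 s2).base x' ∈ (k6a1EnOf R A s s1 s2 σ lv pick rep).dom e := by
    have := (hcov x' hx').2.1
    rw [he'] at this
    exact this
  have hzz : ‖(k6aOf R A s s1 s2).base x - (k6aOf R A s s1 s2).base x'‖ ≤ k6aW nf := by
    have hzc : (k6aOf R A s s1 s2).zc nf x = (k6aOf R A s s1 s2).zc nf x' := congrArg Prod.snd hst
    have h1 : k6aBin nf x.2 = k6aBin nf x'.2 := congrArg Prod.fst hzc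
    have h2 : k6aVBin nf ((k6aOf R A s s1 s2).y x.1 x.2) = k6aVBin nf ((k6aOf R A s s1 s2).y x'.1 x'.2) := congrArg Prod.snd hzc
    rw [Prod.norm_def]
    refine max_le ?_ ?_
    · exact k6a1_bin_diam nf h1
    · exact k6a1_vbin_diam nf h2
  exact hC₀ (k6aOf R A s s1 s2) (k6aPkOf R A s s1 s2 σ lv pick) (k6a1EnOf R A s s1 s2 σ lv pick rep) (10 * K ^ 4) nf e hK'
    (hm.trans (by norm_num)) ⟨hd1, hd2, hd3⟩ hlt hside hstab' hF (k6a1_W_pos lv) hct hcy hmesh' _ hz _ hz' hzz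

/-- **the entries of one depth are `Ok`** (assembly; slack `k6a1K C K ≥ 2 K³, K², 8`).
`m_en` = `m_ent`;   `card` = `ent_card` (`Set.ncard` of a finite set, `Set.toFinset`);   `m_le`, `deg` = `hrep`;   `lt`: `0 < eRad` (`ent_rad`);   `vol`: `Real.volume_Icc_pi`, `∏ 2 eRad ≤ 2^(j+1) ≤ 8` (`ent_rad_le`);
`stab`: `D0 = 1`, `kap ≥ K²`;   `cov`, `ucap`, `frz` = the three lemmas above. -/
theorem k6a1_of_en (v : KbVer) : ∃ C : ℕ, ∀ (R : KsRef v) (A : R.Par) (s s1 s2 σ : ℝ) (lv : ℕ) (pick : R.Lab × R.Lab × R.Lab → R.Lab) (rep : K6a1Rep v R.Ent) (K : ℝ) (nf : ℕ),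
    R.Ok K → R.One A → R.ell = 0 → σ ∈ R.depths → 0 ≤ σ → (∀ Q, R.dep Q = σ → R.lev Q = lv) → K6a1RepOk R K rep → k6a1K C K * k6aW nf ≤ k6aW lv ^ 2 →
    (k6a1EnOf R A s s1 s2 σ lv pick rep).Ok 5 (k6a1K C K) nf R.Ev0 := by
  obtain ⟨C₀, hfrz⟩ := k6a1_of_en_frz v
  refine ⟨C₀ + 8, ?_⟩
  intro R A s s1 s2 σ lv pick rep K nf hR hOne hell hσ hσ0 hlv hrep hfine
  have hK1 : 1 ≤ K := hR.K_ge
  have hK0 : 0 < K := by linarith
  have hKK : K ≤ k6a1K (C₀ + 8) K := k6a1_K_ge (by omega) hK1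
  have hK8 : (8 : ℝ) ≤ k6a1K (C₀ + 8) K := by
    have h1 := k6a1_K_of_pow 8 0 hK1
    have h2 : k6a1K (8 + 0) K ≤ k6a1K (C₀ + 8) K := k6a1_K_mono (by omega) hK1 le_rfl
    simpa using h1.trans h2
  have hK2 : K ^ 2 ≤ k6a1K (C₀ + 8) K := by
    have h1 := k6a1_K_of_pow 1 2 hK1
    have h2 : k6a1K (1 + 2) K ≤ k6a1K (C₀ + 8) K := k6a1_K_mono (by omega) hK1 le_rfl
    simpa using h1.trans h2
  have hK3 : 2 * K ^ 3 ≤ k6a1K (C₀ + 8) K := by
    have h1 := k6a1_K_of_pow 2 3 hK1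
    have h2 : k6a1K (2 + 3) K ≤ k6a1K (C₀ + 8) K := k6a1_K_mono (by omega) hK1 le_rfl
    simpa using h1.trans h2
  have hKp : 0 < k6a1K (C₀ + 8) K := by linarith
  have hrad : ∀ e, 0 < R.eRad e := fun e => by
    by_contra hcon
    have h1 := hR.ent_rad e
    have h2 : K * R.eRad e ≤ 0 := mul_nonpos_of_nonneg_of_nonpos hK0.le (not_lt.1 hcon)
    linarith
  have hj : v.j + 1 ≤ 3 := by cases v <;> simp [KbVer.j]
  refine
    { m_en := fun e => hR.m_ent σ e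
      card := fun q => ?_
      m_le := fun e => (hrep e).1.trans (by norm_num)
      deg := fun e => ⟨(hrep e).2.1, (hrep e).2.2.1, (hrep e).2.2.2.1⟩
      lt := fun e a => ?_
      vol := fun e => ?_
      stab := fun e => ?_
      cov := fun x hx => ?_
      ucap := fun e U hU => ?_
      frz := fun x hx x' hx' hst => ?_ }
  · classical
    refine ⟨Finset.univ.filter fun e : R.Ent => R.eLab e = q, ?_, fun e he => ?_⟩
    · have h1 := hR.ent_card q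
      have h2 : Set.ncard {e | R.eLab e = q} = (Finset.univ.filter fun e : R.Ent => R.eLab e = q).card := by
        rw [← Set.ncard_coe_finset]
        congr 1
        ext e
        simp
      rw [h2] at h1
      exact h1.trans hKK
    · exact Finset.mem_filter.2 ⟨Finset.mem_univ _, he⟩
  · have h := hrad e
    refine Fin.cases ?_ (fun i => ?_) a
    · show (R.eCtr e).1 - R.eRad e < (R.eCtr e).1 + R.eRad e
      linarith
    · show (R.eCtr e).2 i - R.eRad e < (R.eCtr e).2 i + R.eRad e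
      linarith
  · rw [Real.volume_Icc_pi]
    have h1 : ∀ a : Fin (v.j + 1), ENNReal.ofReal ((k6a1EnOf R A s s1 s2 σ lv pick rep).hi e a - (k6a1EnOf R A s s1 s2 σ lv pick rep).lo e a) ≤ 2 := by
      intro a
      have h2 : (k6a1EnOf R A s s1 s2 σ lv pick rep).hi e a - (k6a1EnOf R A s s1 s2 σ lv pick rep).lo e a = 2 * R.eRad e := by
        refine Fin.cases ?_ (fun i => ?_) a
        · show (R.eCtr e).1 + R.eRad e - ((R.eCtr e).1 - R.eRad e) = 2 * R.eRad e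
          ring
        · show (R.eCtr e).2 i + R.eRad e - ((R.eCtr e).2 i - R.eRad e) = 2 * R.eRad e
          ring
      rw [h2, ← ENNReal.ofReal_ofNat 2]
      exact ENNReal.ofReal_le_ofReal (by linarith [hR.ent_rad_le e])
    calc ∏ a : Fin (v.j + 1), ENNReal.ofReal ((k6a1EnOf R A s s1 s2 σ lv pick rep).hi e a - (k6a1EnOf R A s s1 s2 σ lv pick rep).lo e a)
        ≤ ∏ _a : Fin (v.j + 1), (2 : ℝ≥0∞) := Finset.prod_le_prod' fun a _ => h1 a
      _ = 2 ^ (v.j + 1) := by simp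
      _ ≤ 2 ^ 3 := pow_le_pow_right₀ (by norm_num) hj
      _ = ENNReal.ofReal 8 := by
          rw [← ENNReal.ofReal_ofNat 2, ← ENNReal.ofReal_pow (by norm_num)]
          norm_num
      _ ≤ ENNReal.ofReal (k6a1K (C₀ + 8) K) := ENNReal.ofReal_le_ofReal hK8
  · refine ⟨1, one_pos, fun u hu => ?_⟩
    obtain ⟨u', rfl⟩ := k6a1_vec_surj u
    have h1 : dist u' (R.eCtr e) ≤ R.eRad e := (k6a1_en_box R A s s1 s2 σ lv pick rep e u').1 hu
    have h2 : u' ∈ R.eInt e := by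
      show u' ∈ Metric.ball (R.eCtr e) (2 * R.eRad e)
      rw [Metric.mem_ball]
      linarith [hrad e]
    obtain ⟨h3, h4⟩ := (hrep e).2.2.2.2.1 u' h2
    refine ⟨le_trans ?_ h3, h4.trans (by rw [mul_one]; exact hK2)⟩
    exact one_div_le_one_div_of_le (by positivity) hK2
  · obtain ⟨h1, h2, h3⟩ := k6a1_of_en_cov R A s s1 s2 σ lv pick rep hR hσ hσ0 hlv hrep x hx
    refine ⟨h1, h2, h3.trans ?_⟩
    exact mul_le_mul_of_nonneg_right hK3 (Real.rpow_nonneg (by linarith [hR.N_ge]) _)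
  · refine (k6a1_of_en_ucap R A s s1 s2 σ lv pick rep hR hell hσ hlv e U hU).trans ?_
    refine mul_le_mul' (mul_le_mul' (ENNReal.ofReal_le_ofReal ?_) le_rfl) le_rfl
    refine mul_le_mul_of_nonneg_right hKK ?_
    show 0 ≤ k6aW lv
    unfold k6aW
    positivity
  · refine hfrz R A s s1 s2 σ lv pick rep K nf hR hOne hell hσ hσ0 hlv hrep ?_ x hx x' hx' hst
    refine le_trans (mul_le_mul_of_nonneg_right (k6a1_K_mono (by omega) hK1 le_rfl) ?_) hfine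
    unfold k6aW
    positivity

end

end Claimed.Agent.R252
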