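import Claimed.Agent.R252.S6a.Phys.RefEn

/-!
# ROW 252, unit S6a1, file 11: THE EXIT OF THE UNIT   `k6a_hub_phys : k6a_hub_phys_stmt`   (statement: `S6a/Adapt.lean`, helper234).   CONTRACT      (sub-architect helper11; prefix `k6a1_`)

* s1  requirement lists: grids of gap `g` of depths (down to `N^(-U0-1)`) and widths (down to `N^(-U1)`), ONE mesh `U1` (= level `n1` of the raw master states, of the time partition of (6.8), of the freezing base bins and of the velocity bins).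
* s2  `k6a1_entry` : ONE RECORD, no asymptotics: `R.Ok K` + lists + explicit smallness ⟹ `K6aEntry` with the slack `C X^C 2^(n0 ε₀)`, `X = K g (n0+1) (card + 1) / (δ w)`.
* s3  numerics and the choice of the exponents.
PAPER-FREE.   Black boxes: `Phys/Main.lean` (`k6a1_exit`), `Phys/Ref.lean`, `Phys/RefEn.lean` (usable while sorried).   Statements are frozen (defects: message to helper11).   Provers replace the `sorry`s IN PLACE, helper lemmas directly above.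
LEAVES: L-252-P1-X1 (s1), X2 (`k6a1_entry_mono`), X3 (`k6a1_entry`), X4 (`k6a1_num`), X5 (`k6a_hub_phys`).
-/

set_option autoImplicit false

namespace Claimed.Agent.R252

open MeasureTheory
open scoped ENNReal BigOperators

noncomputable section

variable {v : KbVer}

/-! ## 1. requirement lists -/

/-- the nodes: the depths `(m + 1) g`, `m ≤ Md`, and the three depths of the statement -/
def k6a1Nodes (s s1 s2 g : ℝ) (Md : ℕ) : Finset ℝ := (Finset.range (Md + 1)).image (fun m : ℕ => ((m : ℝ) + 1) * g) ∪ {s, s1, s2}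

/-- the requirement lists of S6a1 -/
def k6a1Req (s s1 s2 g U1 : ℝ) (Md Mw : ℕ) : KsReq where
  depths := k6a1Nodes s s1 s2 g Md ∪ {U1 + s2 + ((Mw : ℝ) + 1) * g + 1}
  widths := (Finset.range (Mw + 1)).image (fun m : ℕ => (m : ℝ) * g) ∪ {U1, s2}
  meshes := {U1}
  ord := 1
  U := U1

theorem k6a1_refmain_eqns_cite : True := by
  have := @k6a1Nodes.eq_1
  have := @k6a1Req.eq_1
  trivial

theorem k6a1_nodes_card (s s1 s2 g : ℝ) (Md : ℕ) : (k6a1Nodes s s1 s2 g Md).card ≤ Md + 4 := by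
  unfold k6a1Nodes
  refine (Finset.card_union_le _ _).trans ?_
  have h1 : ((Finset.range (Md + 1)).image (fun m : ℕ => ((m : ℝ) + 1) * g)).card ≤ Md + 1 :=
    Finset.card_image_le.trans (by rw [Finset.card_range])
  have h2 : ({s, s1, s2} : Finset ℝ).card ≤ 3 := Finset.card_le_three
  omega

theorem k6a1_nodes_pos (s s1 s2 g : ℝ) (Md : ℕ) (hs : 0 < s) (hs1 : s ≤ s1) (hs2 : s ≤ s2) (hg : 0 < g) : ∀ σ ∈ k6a1Nodes s s1 s2 g Md, 0 < σ := by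
  intro σ hσ
  unfold k6a1Nodes at hσ
  simp only [Finset.mem_union, Finset.mem_image, Finset.mem_range, Finset.mem_insert, Finset.mem_singleton] at hσ
  rcases hσ with ⟨m, -, rfl⟩ | rfl | rfl | rfl
  · positivity
  · exact hs
  · linarith
  · linarith

theorem k6a1_req_ok (s s1 s2 g U1 : ℝ) (Md Mw : ℕ) (hs : 0 < s) (hs1 : s ≤ s1) (hs2 : s ≤ s2) (hg : 0 < g) (hU : 0 ≤ U1) : (k6a1Req s s1 s2 g U1 Md Mw).Ok := by
  have hMw : (0 : ℝ) ≤ Mw := Nat.cast_nonneg _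
  have hdeep : U1 + s2 + ((Mw : ℝ) + 1) * g + 1 ∈ (k6a1Req s s1 s2 g U1 Md Mw).depths :=
    Finset.mem_union_right _ (Finset.mem_singleton_self _)
  refine ⟨⟨_, hdeep⟩, ?_, ?_, ?_, hU, ?_, le_rfl⟩
  · intro σ hσ
    rcases Finset.mem_union.1 hσ with h | h
    · exact k6a1_nodes_pos s s1 s2 g Md hs hs1 hs2 hg σ h
    · rw [Finset.mem_singleton.1 h]
      have : 0 ≤ ((Mw : ℝ) + 1) * g := by positivity
      linarith
  · intro r hr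
    have hr' : r ∈ (Finset.range (Mw + 1)).image (fun m : ℕ => (m : ℝ) * g) ∪ {U1, s2} := hr
    simp only [Finset.mem_union, Finset.mem_image, Finset.mem_range, Finset.mem_insert, Finset.mem_singleton] at hr'
    rcases hr' with ⟨m, -, rfl⟩ | rfl | rfl
    · positivity
    · exact hU
    · linarith
  · intro M hM
    have hM' : M ∈ ({U1} : Finset ℝ) := hM
    rw [Finset.mem_singleton.1 hM']
    exact hU
  · intro r hr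
    refine ⟨_, hdeep, ?_⟩
    have hr' : r ∈ (Finset.range (Mw + 1)).image (fun m : ℕ => (m : ℝ) * g) ∪ {U1, s2} := hr
    simp only [Finset.mem_union, Finset.mem_image, Finset.mem_range, Finset.mem_insert, Finset.mem_singleton] at hr'
    have h0 : 0 ≤ ((Mw : ℝ) + 1) * g := by positivity
    rcases hr' with ⟨m, hm, rfl⟩ | rfl | rfl
    · have hm' : (m : ℝ) ≤ (Mw : ℝ) + 1 := by
        have : (m : ℝ) < ((Mw + 1 : ℕ) : ℝ) := by exact_mod_cast hm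
        push_cast at this
        linarith
      have := mul_le_mul_of_nonneg_right hm' hg.le
      linarith
    · linarith
    · linarith

theorem k6a1_nodes_le (s s1 s2 g : ℝ) (Md : ℕ) (hs : 0 < s) (hs1 : s ≤ s1) (hs2 : s ≤ s2) (hg : 0 < g) : ∀ σ ∈ k6a1Nodes s s1 s2 g Md, σ ≤ ((Md : ℝ) + 1) * g + s1 + s2 := by
  intro σ hσ
  unfold k6a1Nodes at hσ
  simp only [Finset.mem_union, Finset.mem_image, Finset.mem_range, Finset.mem_insert, Finset.mem_singleton] at hσ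
  have h0 : 0 ≤ ((Md : ℝ) + 1) * g := by positivity
  rcases hσ with ⟨m, hm, rfl⟩ | rfl | rfl | rfl
  · have hm' : (m : ℝ) + 1 ≤ (Md : ℝ) + 1 := by
      have : (m : ℝ) ≤ (Md : ℝ) := by exact_mod_cast Nat.lt_succ_iff.1 hm
      linarith
    have := mul_le_mul_of_nonneg_right hm' hg.le
    linarith
  · linarith
  · linarith
  · linarith

/-- **a grid of exponents of gap `g` is `N^g`-dense**: `x = - logb N W ∈ [0, U]`, `m = ⌊x / g⌋₊` -/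
theorem k6a1_grid (N g U W : ℝ) (M : ℕ) (hN : 2 ≤ N) (hg : 0 < g) (hM : U ≤ M * g) (hW : N ^ (-U) ≤ W) (hW1 : W ≤ 1) :
    ∃ m ≤ M, N ^ (-(((m : ℝ) + 1) * g)) ≤ W ∧ W ≤ N ^ (-((m : ℝ) * g)) := by
  have hN1 : 1 < N := by linarith
  have hN0 : 0 < N := by linarith
  have hW0 : 0 < W := lt_of_lt_of_le (Real.rpow_pos_of_pos hN0 _) hW
  obtain ⟨x, hx⟩ : ∃ x : ℝ, x = -Real.logb N W := ⟨_, rfl⟩
  have hWx : W = N ^ (-x) := by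
    rw [hx, neg_neg, Real.rpow_logb hN0 hN1.ne' hW0]
  have hx0 : 0 ≤ x := by
    rw [hx, neg_nonneg]
    exact Real.logb_nonpos hN1 hW0.le hW1
  have hxU : x ≤ U := by
    rw [hWx, Real.rpow_le_rpow_left_iff hN1] at hW
    linarith
  have hxg : 0 ≤ x / g := div_nonneg hx0 hg.le
  by_cases hlt : ⌊x / g⌋₊ < M
  · refine ⟨⌊x / g⌋₊, hlt.le, ?_, ?_⟩
    · rw [hWx, Real.rpow_le_rpow_left_iff hN1, neg_le_neg_iff]
      have := (Nat.lt_floor_add_one (x / g)).le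
      rwa [div_le_iff₀ hg] at this
    · rw [hWx, Real.rpow_le_rpow_left_iff hN1, neg_le_neg_iff]
      have := Nat.floor_le hxg
      rwa [le_div_iff₀ hg] at this
  · rw [not_lt] at hlt
    have h1 : (M : ℝ) ≤ x / g := (Nat.cast_le.2 hlt).trans (Nat.floor_le hxg)
    rw [le_div_iff₀ hg] at h1
    refine ⟨M, le_rfl, ?_, ?_⟩
    · rw [hWx, Real.rpow_le_rpow_left_iff hN1, neg_le_neg_iff]
      nlinarith
    · rw [hWx, Real.rpow_le_rpow_left_iff hN1, neg_le_neg_iff]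
      exact h1

/-! ## 2. one record -/

/-- monotonicity of the exit record in the slack and in the error (`k6a1_wf_mono`, `k6a1_phys_mono`, `k6a1_pkok_mono`, `k6a1_brd_mono`) -/
theorem k6a1_entry_mono {R : KsRef v} {A : R.Par} {s s1 s2 K K' w κb δ δ' : ℝ} {n0 lv lv1 lv2 : ℕ} {E E' : Set (R.L × ℝ)} {Lc : Set R.L}
    {m0 : (R.Lab × R.Lab × R.Lab) × K6aWc v.j → ℝ≥0∞} (h : K6aEntry R A s s1 s2 K w κb δ n0 lv lv1 lv2 E E' Lc m0) (hK0 : 0 ≤ K) (hK : K ≤ K') (hδ : δ ≤ δ') :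
    K6aEntry R A s s1 s2 K' w κb δ' n0 lv lv1 lv2 E E' Lc m0 :=
  { sub := h.sub
    loss := h.loss.trans (add_le_add le_rfl (ENNReal.ofReal_le_ofReal hδ))
    wf := k6a1_wf_mono h.wf hK
    phys := k6a1_phys_mono h.phys h.phys.E_meas subset_rfl hK hK0
    pk := k6a1_pkok_mono h.pk subset_rfl hK hK0
    pk1 := k6a1_pkok_mono h.pk1 subset_rfl hK hK0
    pk2 := k6a1_pkok_mono h.pk2 subset_rfl hK hK0
    below1 := h.below1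
    below2 := h.below2
    brd := k6a1_brd_mono h.brd subset_rfl hδ
    lev := h.lev }

/-- monotonicity of the stability constant -/
theorem k6a1_x3_stab {n : ℕ} {kap kap' : ℝ} {D : MvPolynomial (Fin n) ℝ} {a b : Fin n → ℝ} (h : sh2Stable kap D a b) (h0 : 0 < kap) (hk : kap ≤ kap') :
    sh2Stable kap' D a b := by
  obtain ⟨D0, hD0, hD⟩ := h
  refine ⟨D0, hD0, fun u hu => ⟨le_trans ?_ (hD u hu).1, (hD u hu).2.trans ?_⟩⟩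
  · exact div_le_div_of_nonneg_left hD0.le h0 hk
  · exact mul_le_mul_of_nonneg_right hk hD0.le

/-- the entries are monotone in the slack -/
theorem k6a1_x3_en_mono {j : ℕ} {D : K6aDat j} {Pk : K6aPk D} {G : K6a1En D Pk} {dg nf : ℕ} {K K' : ℝ} {E0 : Set (D.L × ℝ)} (h : G.Ok dg K nf E0) (hne : E0.Nonempty) (hK : K ≤ K')
    (ha : 0 ≤ Pk.a) : G.Ok dg K' nf E0 := by
  have h0 : 0 < K := by
    obtain ⟨x, _⟩ := hne
    obtain ⟨F, hF, hmem⟩ := h.card (G.pk (G.en x))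
    have h1 : G.en x ∈ F := hmem (G.en x) rfl
    have h2 : 0 < F.card := Finset.card_pos.2 ⟨_, h1⟩
    have h3 : (0 : ℝ) < F.card := by exact_mod_cast h2
    linarith
  exact
  { m_en := h.m_en
    card := fun q => k6a1_cnt_mono (h.card q) subset_rfl hK
    m_le := h.m_le
    deg := h.deg
    lt := h.lt
    vol := fun e => (h.vol e).trans (ENNReal.ofReal_le_ofReal hK)
    stab := fun e => k6a1_x3_stab (h.stab e) h0 hK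
    cov := fun x hx => ⟨(h.cov x hx).1, (h.cov x hx).2.1, (h.cov x hx).2.2.trans (mul_le_mul_of_nonneg_right hK ha)⟩
    ucap := fun e U hU => (h.ucap e U hU).trans (by
      have hH : 0 ≤ Pk.H := (k6a1_W_pos _).le
      gcongr)
    frz := h.frz }

/-- the graph lists do not see `ofLab` -/
theorem k6a1_x3_graphs_pick (R : KsRef v) (A : R.Par) (s s1 s2 σ : ℝ) (lv : ℕ) (pick pick' : R.Lab × R.Lab × R.Lab → R.Lab) (K : ℝ) (E : Set (R.L × ℝ))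
    (h : K6a1Graphs (k6aPkOf R A s s1 s2 σ lv pick) K E) : K6a1Graphs (k6aPkOf R A s s1 s2 σ lv pick') K E := h

/-- the real numerics of `k6a1_entry` -/
theorem k6a1_x3_num (Cen Cex : ℕ) : ∃ C : ℕ, ∀ (K g δ w μ0 : ℝ) (n0 c : ℕ), 1 ≤ K → 1 ≤ g → 0 < δ → δ ≤ 1 → 0 < w → w ≤ 1 → 0 < μ0 → μ0 ≤ 1 → 1 ≤ K * μ0 →
    1 ≤ K * g * (n0 + 1) * (c + 1) / (δ * w) ∧
    k6a1K (Cen + 9) (K * g) ≤ k6a1K C (K * g * (n0 + 1) * (c + 1) / (δ * w)) ∧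
    k6a1K Cex (k6a1K (Cen + 9) (K * g) * (n0 + 1) * (c + 1) / (δ * μ0 / 2 * w)) ≤ k6a1K C (K * g * (n0 + 1) * (c + 1) / (δ * w)) ∧
    k6a1K Cen K * (25 * K ^ 4) ≤ k6a1K C (K * g * (n0 + 1) * (c + 1) / (δ * w)) := by
  set C0 := Cen + 9 with hC0
  set C1 := C0 * 2 + C0 + 2 with hC1
  set C2 := Cex * C1 ^ Cex + C1 * Cex with hC2
  set C3 := Cen * 29 + Cen + 29 with hC3
  refine ⟨C2 + C3 + C0, fun K g δ w μ0 n0 c hK hg hδ hδ1 hw hw1 hμ hμ1 hKμ => ?_⟩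
  have hKg : 1 ≤ K * g := by nlinarith
  have hδw : 0 < δ * w := by positivity
  have hδw1 : δ * w ≤ 1 := by nlinarith
  set Y : ℝ := ((n0 : ℝ) + 1) * ((c : ℝ) + 1) / (δ * w) with hY
  have hnc : (1 : ℝ) ≤ ((n0 : ℝ) + 1) * ((c : ℝ) + 1) := by
    have h1 : (0 : ℝ) ≤ n0 := Nat.cast_nonneg _
    have h2 : (0 : ℝ) ≤ c := Nat.cast_nonneg _
    nlinarith [mul_nonneg h1 h2]
  have hY1 : 1 ≤ Y := by
    rw [hY, le_div_iff₀ hδw]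
    linarith
  have hXe : K * g * (n0 + 1) * (c + 1) / (δ * w) = K * g * Y := by
    rw [hY]
    ring
  rw [hXe]
  set X : ℝ := K * g * Y with hX
  have hX1 : 1 ≤ X := by nlinarith
  have hKgX : K * g ≤ X := by nlinarith
  have hKX : K ≤ X := by nlinarith
  have hYX : Y ≤ X := by nlinarith
  have hK0X : k6a1K C0 (K * g) ≤ k6a1K C0 X := k6a1_K_mono le_rfl hKg hKgX
  have hK01 : 1 ≤ k6a1K C0 (K * g) := k6a1_K_one_le (by omega) hKg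
  refine ⟨hX1, hK0X.trans (k6a1_K_mono (by omega) hX1 le_rfl), ?_, ?_⟩
  · have e1 : k6a1K C0 (K * g) * (n0 + 1) * (c + 1) / (δ * μ0 / 2 * w) = k6a1K C0 (K * g) * (Y * (2 / μ0)) := by
      rw [hY]
      field_simp
    have hμK : 2 / μ0 ≤ 2 * K := by
      rw [div_le_iff₀ hμ]
      nlinarith
    have hμ2 : 1 ≤ 2 / μ0 := by
      rw [le_div_iff₀ hμ]
      linarith
    have h2 : Y * (2 / μ0) ≤ k6a1K 2 X := by
      have : k6a1K 2 X = 2 * X ^ 2 := by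
        unfold k6a1K
        norm_num
      rw [this]
      calc Y * (2 / μ0) ≤ X * (2 * X) := mul_le_mul hYX (hμK.trans (by linarith)) (by positivity) (by linarith)
        _ = 2 * X ^ 2 := by ring
    have h3 : k6a1K C0 (K * g) * (Y * (2 / μ0)) ≤ k6a1K C1 X :=
      (mul_le_mul hK0X h2 (by positivity) (k6a1_K_nonneg _ (by linarith))).trans (k6a1_K_mul C0 2 hX1)
    have h4 : 1 ≤ k6a1K C0 (K * g) * (Y * (2 / μ0)) := by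
      have : 1 ≤ Y * (2 / μ0) := by nlinarith
      nlinarith
    rw [e1]
    exact (k6a1_K_mono le_rfl h4 h3).trans ((k6a1_K_comp Cex C1 hX1).trans (k6a1_K_mono (by omega) hX1 le_rfl))
  · have h5 : (25 : ℝ) * K ^ 4 ≤ k6a1K 29 K := by
      have := k6a1_K_of_pow 25 4 hK
      simpa using this
    calc k6a1K Cen K * (25 * K ^ 4) ≤ k6a1K Cen K * k6a1K 29 K := mul_le_mul_of_nonneg_left h5 (k6a1_K_nonneg _ (by linarith))
      _ ≤ k6a1K C3 K := k6a1_K_mul Cen 29 hK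
      _ ≤ k6a1K (C2 + C3 + C0) X := k6a1_K_mono (by omega) hK hKX

theorem k6a1_x3_frz {A B W1 a H K : ℝ} (hK : 1 ≤ K) (hW : 0 ≤ W1) (ha : 0 ≤ a) (h1 : A * (25 * K ^ 4) ≤ B) (h2 : B * W1 ≤ a ^ 2) (h3 : a ≤ 5 * K ^ 2 * H) :
    A * W1 ≤ H ^ 2 := by
  have h4 : a ^ 2 ≤ (5 * K ^ 2 * H) ^ 2 := pow_le_pow_left₀ ha h3 2
  have h5 : A * (25 * K ^ 4) * W1 ≤ B * W1 := mul_le_mul_of_nonneg_right h1 hW
  have h6 : (25 * K ^ 4) * (A * W1) ≤ (25 * K ^ 4) * H ^ 2 := by nlinarith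
  exact le_of_mul_le_mul_left h6 (by positivity)

theorem k6a1_x3_small {c ε δ μ0 : ℝ} (hc : 0 ≤ c) (hε : 0 < ε) (hμ : 0 < μ0) (hμ1 : μ0 ≤ 1) (_hδ : 0 < δ) (hδ1 : δ ≤ 1) (h : (c + 4) * ε ≤ δ / 2) :
    ε ≤ δ ∧ δ * μ0 / 2 + c * (ε * μ0) ≤ δ * μ0 ∧ δ * μ0 / 2 ≤ 1 := by
  have h1 : 0 ≤ c * ε := mul_nonneg hc hε.le
  have h3 : c * ε ≤ δ / 2 := by nlinarith
  have h4 := mul_le_mul_of_nonneg_right h3 hμ.le
  refine ⟨by nlinarith, by nlinarith, by nlinarith⟩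

theorem k6a1_x3_Kg {K g : ℝ} (hK : 1 ≤ K) (hg : 1 ≤ g) : 1 ≤ K * g ∧ K ≤ K * g ∧ g ≤ K * g := by
  refine ⟨by nlinarith, by nlinarith, by nlinarith⟩

/-- **ONE RECORD.**   `Sg` = the nodes, `g` = density of the lists, `n1 = k6a1Lev (a U1)`, `w = a u`, `X = K g (n0 + 1) (card Sg + 1) / (δ w)`.
PLAN.   `D = k6aOf R A s s1 s2`, `E0 = R.Ev0` (nonempty: `KsSub.floor`, `k6a1_m0_eq`), `μ0 = (R.m0 A).toReal ∈ [1/K, 1]`, `ι = {σ // σ ∈ Sg}`, `lv σ` of `k6a1_of_lev`, `rep` of `k6a1_rep`,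
`Pk σ = k6aPkOf R A s s1 s2 σ (lv σ) pick_σ` (`pick` = the projection for `s, s1, s2` -- any choice for the others; take `pick_σ = fun x => x.1` except that the THREE output nodes are the ones of the statement: apply the results for `σ = s, s1, s2` with the three
projections separately: `K6a1PkRaw`, `K6a1Graphs` do not see `ofLab`, so transport along `rfl`/`Iff.rfl` or run `k6a1_exit` with `ι = {σ // σ ∈ Sg} ⊕ Fin 3`), `G σ = k6a1EnOf ..`, `nf = n1`.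
Raw slack `K₀ = k6a1K C₀ (K g)` : `k6a1_of_wf`, `k6a1_of_cap`, `k6a1_of_hist`, `k6a1_of_pkraw`, `k6a1_of_en` (freezing: `H = W_lv ≥ a^k / K ≥ a / K`, hypothesis `hfrz`), `k6a1_of_brd` with `κ' = 1` + `k6a1_of_det_st`, `εb = ε μ0`.
`k6a1_exit v.j 5` with `η = δ μ0 / 2`, `w = a u`: `1 / η ≤ 2 K / δ`.   Output `Ea, Lc`;   `E' = E ∩ Ea`;   loss `≤ η + card * ε μ0 ≤ δ μ0` (`hε`);   heredity: `k6a1_phys_mono`, `k6a1_graphs_mono`, `k6a1_pkraw_mono`, `k6a1_pk_ok` + `k6a1_of_cov`;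
`k6a1_of_below`;   `brd`: `k6a1_of_brd` with `κ' = κb` + `k6a1_of_det_ms`, `k6a1_brd_mono` (`ε μ0 ≤ δ μ0`).   All slacks `≤ k6a1K C X` (`k6a1_K_comp`, `k6a1_K_mono`). -/
theorem k6a1_entry (v : KbVer) (d k ε₀ : ℝ) (hd : 0 ≤ d) (hd1 : d < 1) (hk : k ≤ 1) (hε₀ : 0 < ε₀) : ∃ C : ℕ, ∀ (R : KsRef v) (A : R.Par) (E : Set (R.L × ℝ))
    (s s1 s2 K g U1 κ κb u ε δ ηs : ℝ) (n0 : ℕ) (Sg : Finset ℝ),
    R.d = d → R.k = k → R.ell = 0 → R.Ok K → R.One A → R.Brd κ u ε → KsSub R A E ηs K → 1 ≤ g → κ ≤ 1 → κ ≤ κb → 0 < u → 0 < ε → 0 < δ → δ ≤ 1 →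
    Sg ⊆ R.depths → s ∈ Sg → s1 ∈ Sg → s2 ∈ Sg → s ≤ s1 → s ≤ s2 → (∀ σ ∈ Sg, 0 < σ) → 0 ≤ U1 → U1 ∈ R.meshes → U1 ∈ R.widths → R.χ ≤ k6aW (k6a1Lev (R.a U1)) →
    (∀ i ≤ k6a1Lev (R.a U1), ∃ r ∈ R.widths, k6aW i ≤ R.a r ∧ R.a r ≤ g * k6aW i) → (∀ i ≤ n0, ∃ σ ∈ Sg, R.a σ ≤ k6aW i ∧ k6aW i ≤ g * R.a σ) → n0 ≤ k6a1Lev (R.a U1) →
    k6a1K C (K * g * (n0 + 1) * (Sg.card + 1) / (δ * R.a u)) * k6aW (k6a1Lev (R.a U1)) ≤ k6aW n0 →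
    (∀ σ ∈ Sg, k6a1K C (K * g * (n0 + 1) * (Sg.card + 1) / (δ * R.a u)) * k6aW (k6a1Lev (R.a U1)) ≤ R.a σ ^ 2) →
    ((Sg.card : ℝ) + 4) * ε ≤ δ / 2 →
    ∃ (lv lv1 lv2 : ℕ) (E' : Set (R.L × ℝ)) (Lc : Set R.L) (m0 : (R.Lab × R.Lab × R.Lab) × K6aWc v.j → ℝ≥0∞),
      K6aEntry R A s s1 s2 (k6a1K C (K * g * (n0 + 1) * (Sg.card + 1) / (δ * R.a u)) * ((2 : ℝ) ^ n0) ^ ε₀) (R.a u) κb (δ * (R.m0 A).toReal) n0 lv lv1 lv2 E E' Lc m0 := by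
  have hj : 1 ≤ v.j := by cases v <;> simp [KbVer.j]
  obtain ⟨Cen, hCen⟩ := k6a1_of_en v
  obtain ⟨Cex, hCex⟩ := k6a1_exit v.j 5 hj d k ε₀ hd hd1 hk hε₀
  obtain ⟨C, hC⟩ := k6a1_x3_num Cen Cex
  refine ⟨C, ?_⟩
  intro R A E s s1 s2 K g U1 κ κb u ε δ ηs n0 Sg hRd hRk hell hR hA hB hE hg hκ1 hκb hu hε hδ hδ1 hSg hs hs1 hs2 hss1 hss2 hpos hU1 hU1m hU1w hχ hgw hgd hn01 hfine hfrz hεδ
  -- masses
  have hK := hR.K_ge
  have hm1 : R.m0 A ≤ 1 := k6a1_m0_le R A hR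
  have hmT : R.m0 A ≠ ⊤ := ne_top_of_le_ne_top ENNReal.one_ne_top hm1
  have hm0 : R.m0 A ≠ 0 := by
    intro h0
    have h1 := hE.floor
    rw [h0, mul_zero] at h1
    exact absurd h1 (by simp)
  obtain ⟨μ0, hμ0⟩ : ∃ μ0 : ℝ, μ0 = (R.m0 A).toReal := ⟨_, rfl⟩
  rw [← hμ0]
  have hμpos : 0 < μ0 := hμ0 ▸ ENNReal.toReal_pos hm0 hmT
  have hμ1 : μ0 ≤ 1 := by
    have h1 := ENNReal.toReal_mono ENNReal.one_ne_top hm1
    rw [hμ0]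
    simpa using h1
  have hKμ : 1 ≤ K * μ0 := by
    have h1 := hE.floor
    rw [← ENNReal.ofReal_toReal hmT, ← ENNReal.ofReal_mul (by linarith), ← hμ0, ← ENNReal.ofReal_one] at h1
    exact (ENNReal.ofReal_le_ofReal_iff (by positivity)).1 h1
  have hne : R.Ev0.Nonempty := by
    by_contra hemp
    rw [Set.not_nonempty_iff_eq_empty] at hemp
    apply hm0
    rw [k6a1_m0_eq R A hA, hemp, measure_empty]
  obtain ⟨w, hw⟩ : ∃ w : ℝ, w = R.a u := ⟨_, rfl⟩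
  rw [← hw] at hfine hfrz ⊢
  have hw0 : 0 < w := hw ▸ k6a1_a_pos hR u
  have hw1 : w ≤ 1 := hw ▸ k6a1_a_le_one hR hu.le
  obtain ⟨hX1, hK0X, hexX, hfrzX⟩ := hC K g δ w μ0 n0 Sg.card hK hg hδ hδ1 hw0 hw1 hμpos hμ1 hKμ
  obtain ⟨X, hX⟩ : ∃ X : ℝ, X = K * g * (n0 + 1) * (Sg.card + 1) / (δ * w) := ⟨_, rfl⟩
  rw [← hX] at hfine hfrz hX1 hK0X hexX hfrzX ⊢
  obtain ⟨K0, hK0⟩ : ∃ K0 : ℝ, K0 = k6a1K (Cen + 9) (K * g) := ⟨_, rfl⟩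
  rw [← hK0] at hK0X hexX
  obtain ⟨n1, hn1⟩ : ∃ n1 : ℕ, n1 = k6a1Lev (R.a U1) := ⟨_, rfl⟩
  rw [← hn1] at hχ hgw hn01 hfine hfrz
  obtain ⟨hKg, hKKg, hgKg⟩ := k6a1_x3_Kg hK hg
  obtain ⟨hεδ', hlossn, hη1⟩ := k6a1_x3_small (Nat.cast_nonneg Sg.card) hε hμpos hμ1 hδ hδ1 hεδ
  have hK01 : 1 ≤ K0 := hK0 ▸ k6a1_K_one_le (by omega) hKg
  have b8 : 8 * K ≤ K0 := by
    have h1 := k6a1_K_of_pow 8 1 hK
    rw [hK0]
    calc 8 * K = ((8 : ℕ) : ℝ) * K ^ 1 := by norm_num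
      _ ≤ k6a1K (8 + 1) K := h1
      _ ≤ k6a1K (Cen + 9) (K * g) := k6a1_K_mono (by omega) hK hKKg
  have bg : K * g ≤ K0 := hK0 ▸ k6a1_K_ge (by omega) hKg
  have b4 : K ^ 4 ≤ K0 := by
    have h1 := k6a1_K_of_pow 1 4 hK
    rw [hK0]
    calc K ^ 4 = ((1 : ℕ) : ℝ) * K ^ 4 := by norm_num
      _ ≤ k6a1K (1 + 4) K := h1
      _ ≤ k6a1K (Cen + 9) (K * g) := k6a1_K_mono (by omega) hK hKKg
  have b5 : 5 * K ^ 2 ≤ K0 := by
    have h1 := k6a1_K_of_pow 5 2 hK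
    rw [hK0]
    calc 5 * K ^ 2 = ((5 : ℕ) : ℝ) * K ^ 2 := by norm_num
      _ ≤ k6a1K (5 + 2) K := h1
      _ ≤ k6a1K (Cen + 9) (K * g) := k6a1_K_mono (by omega) hK hKKg
  have ben : k6a1K Cen K ≤ K0 := hK0 ▸ k6a1_K_mono (by omega) hK hKKg
  have bgg : g ≤ K0 := hgKg.trans bg
  -- levels, representation
  choose lvf hlvf using fun σ : ℝ => k6a1_of_lev R hR σ
  obtain ⟨rep, hrep⟩ := k6a1_rep R hR
  have hraw : ∀ σ ∈ Sg, ∀ pick : R.Lab × R.Lab × R.Lab → R.Lab, K6a1PkRaw (k6aPkOf R A s s1 s2 σ (lvf σ) pick) d k K0 R.Ev0 := by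
    intro σ hσ pick
    have h1 := k6a1_of_pkraw R A s s1 s2 K σ (lvf σ) pick hR hA hell (hSg hσ) (hlvf σ) hne
    rw [hRd, hRk] at h1
    exact k6a1_pkraw_mono h1 subset_rfl b5 (by positivity)
  have hfz : ∀ σ ∈ Sg, k6a1K Cen K * k6aW n1 ≤ k6aW (lvf σ) ^ 2 := by
    intro σ hσ
    have h2 : R.a σ ^ R.k ≤ 5 * K ^ 2 * k6aW (lvf σ) :=
      (k6a1_of_pkraw R A s s1 s2 K σ (lvf σ) (fun x => x.1) hR hA hell (hSg hσ) (hlvf σ) hne).H_lo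
    have ha0 : 0 < R.a σ := k6a1_a_pos hR σ
    have ha1 : R.a σ ≤ 1 := k6a1_a_le_one hR (hpos σ hσ).le
    have h3 : R.a σ ≤ R.a σ ^ R.k := by
      calc R.a σ = R.a σ ^ (1 : ℝ) := (Real.rpow_one _).symm
        _ ≤ R.a σ ^ R.k := Real.rpow_le_rpow_of_exponent_ge ha0 ha1 (hRk ▸ hk)
    exact k6a1_x3_frz hK (k6a1_W_pos n1).le ha0.le hfrzX (hfrz σ hσ) (h3.trans h2)
  have hen : ∀ σ ∈ Sg, (k6a1EnOf R A s s1 s2 σ (lvf σ) (fun x => x.1) rep).Ok 5 K0 n1 R.Ev0 := by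
    intro σ hσ
    have h1 := hCen R A s s1 s2 σ (lvf σ) (fun x => x.1) rep K n1 hR hA hell (hSg hσ) (hpos σ hσ).le (hlvf σ) hrep (hfz σ hσ)
    exact k6a1_x3_en_mono h1 hne ben (k6a1_a_pos hR σ).le
  have hbr : ∀ σ ∈ Sg, K6aBrd (k6aOf R A s s1 s2) R.Ev0 ((k6a1EnOf R A s s1 s2 σ (lvf σ) (fun x => x.1) rep).st n1) 1 w (ε * μ0) := by
    intro σ hσ
    rw [hw, hμ0, hn1]
    exact k6a1_of_brd R A s s1 s2 K κ 1 u ε hR hA hB hκ1 hε.le _ (k6a1_of_det_st R A s s1 s2 K U1 σ hR (hSg hσ) hU1 hU1m hU1w)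
  have hwf : (k6aOf R A s s1 s2).WF K0 := k6a1_wf_mono (k6a1_of_wf R A s s1 s2 hR) b8
  have hcap : K6a1Cap (k6aOf R A s s1 s2) d K0 n1 R.Ev0 := by
    have h1 := k6a1_of_cap R A s s1 s2 K g n1 hR hA hg hgw
    rw [hRd] at h1
    exact k6a1_cap_mono h1 subset_rfl bg le_rfl
  have hhist : (k6a1HistOf R A s s1 s2).Ok K0 n1 R.Ev0 := by
    have h1 := k6a1_of_hist R A s s1 s2 K U1 hR hA hell (hSg hs) (hSg hs1) (hSg hs2) hU1 hU1m hU1w (hn1 ▸ hχ)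
    rw [← hn1] at h1
    exact k6a1_hist_mono h1 b4
  have hcard : Fintype.card {σ // σ ∈ Sg} = Sg.card := Fintype.card_coe Sg
  have hη0 : 0 < δ * μ0 / 2 := by positivity
  have hsubI : R.Ev0 ⊆ Set.univ ×ˢ Set.Icc (0 : ℝ) 1 := fun x hx => ⟨Set.mem_univ _, (hR.Ev0_sub hx).2⟩
  obtain ⟨Ea, Lc, hEa, hloss, hphys, hgr⟩ := hCex (k6aOf R A s s1 s2) (k6a1HistOf R A s s1 s2) {σ // σ ∈ Sg}
    (fun a => k6aPkOf R A s s1 s2 a.1 (lvf a.1) (fun x => x.1)) (fun a => k6a1EnOf R A s s1 s2 a.1 (lvf a.1) (fun x => x.1) rep)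
    K0 (δ * μ0 / 2) w (ε * μ0) n0 n1 (fun _ => n1) R.Ev0 hK01 hη0 hη1 hw0 hw1 (by positivity) hwf hR.m_Ev0 hsubI hn01
    (by rw [hcard]; exact (mul_le_mul_of_nonneg_right hexX (k6a1_W_pos n1).le).trans hfine)
    hcap hhist (fun a => k6a1_a_le_one hR (hpos a.1 a.2).le) (fun a => hraw a.1 a.2 _) (fun a => hen a.1 a.2) (fun a => hbr a.1 a.2)
    (by
      intro i hi
      obtain ⟨σ, hσ, h1, h2⟩ := hgd i hi
      exact ⟨⟨σ, hσ⟩, h1, h2.trans (mul_le_mul_of_nonneg_right bgg (k6a1_a_pos hR σ).le)⟩)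
  rw [hcard] at hloss hphys hgr
  have hE'M : MeasurableSet (E ∩ Ea) := hE.meas.inter hphys.E_meas
  have hE'0 : E ∩ Ea ⊆ R.Ev0 := fun x hx => hEa hx.2
  have h2n : 1 ≤ ((2 : ℝ) ^ n0) ^ ε₀ := Real.one_le_rpow (one_le_pow₀ (by norm_num)) hε₀.le
  have hCX1 : 1 ≤ k6a1K C X := hK01.trans hK0X
  have hCXS : k6a1K C X ≤ k6a1K C X * ((2 : ℝ) ^ n0) ^ ε₀ := le_mul_of_one_le_right (zero_le_one.trans hCX1) h2n
  have hK0S : K0 ≤ k6a1K C X * ((2 : ℝ) ^ n0) ^ ε₀ := hK0X.trans hCXS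
  have hex0 : 0 ≤ k6a1K Cex (K0 * (n0 + 1) * (Sg.card + 1) / (δ * μ0 / 2 * w)) := k6a1_K_nonneg _ (by positivity)
  have hpk : ∀ σ ∈ Sg, ∀ pick : R.Lab × R.Lab × R.Lab → R.Lab, (∀ e, pick (R.labAt s e, R.labAt s1 e, R.labAt s2 e) = R.labAt σ e) →
      (k6aPkOf R A s s1 s2 σ (lvf σ) pick).Ok R.d R.k (k6a1K C X * ((2 : ℝ) ^ n0) ^ ε₀) (E ∩ Ea) := by
    intro σ hσ pick hpick
    refine k6a1_pk_ok ?_ ?_ ?_
    · rw [hRd, hRk]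
      exact k6a1_pkraw_mono (hraw σ hσ pick) hE'0 hK0S (zero_le_one.trans hK01)
    · exact k6a1_graphs_mono (k6a1_x3_graphs_pick R A s s1 s2 σ (lvf σ) (fun x => x.1) pick _ _ (hgr ⟨σ, hσ⟩)) Set.inter_subset_right
        (hexX.trans hCXS) (k6a1_a_pos hR σ).le
    · intro e he
      exact k6a1_of_cov R A s s1 s2 K σ (lvf σ) pick hR (hSg hσ) (hlvf σ) hpick e (hE'0 he)
  refine ⟨lvf s, lvf s1, lvf s2, E ∩ Ea, Lc, fun s' => (k6aOf R A s s1 s2).prior (R.Ev0 ∩ (k6aOf R A s s1 s2).ms n0 ⁻¹' {s'}), ?_⟩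
  exact
  { sub := Set.inter_subset_left
    loss := by
      have h1 : E ⊆ (E ∩ Ea) ∪ (R.Ev0 \ Ea) := by
        intro x hx
        by_cases hxa : x ∈ Ea
        · exact Or.inl ⟨hx, hxa⟩
        · exact Or.inr ⟨(hE.sub hx).1, hxa⟩
      have h2 : R.prior (R.Ev0 \ Ea) ≤ ENNReal.ofReal (δ * μ0) := by
        exact le_trans hloss (ENNReal.ofReal_le_ofReal hlossn)
      exact (measure_mono h1).trans ((measure_union_le _ _).trans (add_le_add le_rfl h2))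
    wf := k6a1_wf_mono hwf hK0S
    phys := by
      rw [hRd]
      exact k6a1_phys_mono hphys hE'M Set.inter_subset_right (mul_le_mul_of_nonneg_right hexX (by positivity)) (by positivity)
    pk := hpk s hs _ (fun _ => rfl)
    pk1 := hpk s1 hs1 _ (fun _ => rfl)
    pk2 := hpk s2 hs2 _ (fun _ => rfl)
    below1 := k6a1_of_below R A s s1 s2 K s s1 (lvf s) (lvf s1) _ _ hR (hSg hs) (hSg hs1) hss1 (hlvf s) (hlvf s1) hne
    below2 := k6a1_of_below R A s s1 s2 K s s2 (lvf s) (lvf s2) _ _ hR (hSg hs) (hSg hs2) hss2 (hlvf s) (hlvf s2) hne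
    brd := by
      have h1 := k6a1_of_brd R A s s1 s2 K κ κb u ε hR hA hB hκb hε.le _
        (k6a1_of_det_ms R A s s1 s2 K U1 n0 hR (hSg hs) (hSg hs1) (hSg hs2) hU1 hU1m hU1w (hn1 ▸ hn01))
      rw [← hw, ← hμ0] at h1
      exact k6a1_brd_mono h1 hE'0 (mul_le_mul_of_nonneg_right hεδ' hμpos.le)
    lev := fun Q => ⟨hlvf s Q, hlvf s1 Q, hlvf s2 Q⟩ }

/-! ## 3. numerics, the choice of the exponents -/

/-- **subpower bookkeeping.**   PLAN: `2^n0 ≤ 2 N^U0`, so `n0 + 1 ≤ 2 + U0 logb 2 N`; `logb 2 N ≤ N^θ / (θ log 2)` (`Real.log_le_rpow_div` / `Real.add_one_le_exp`); for `N ≥ N₁`: `(n0 + 1) ≤ N^θ .. `, `c₁ ≤ N^θ`, `C ≤ N^θ`;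
the argument is `≤ N^(5θ)`, `k6a1K C (N^(5θ)) = C N^(5 θ C) ≤ N^(6 θ (C + 1))` (`Real.rpow_natCast`, `Real.rpow_mul`, `Real.rpow_add`). -/
theorem k6a1_num (C : ℕ) (θ c₁ U0 : ℝ) (hθ : 0 < θ) (hc : 0 ≤ c₁) (hU0 : 0 < U0) : ∃ N₁ : ℝ, 4 ≤ N₁ ∧ ∀ N : ℝ, N₁ ≤ N → ∀ n0 : ℕ, N ^ (-U0) ≤ 2 * k6aW n0 →
    k6a1K C (N ^ θ * N ^ θ * (n0 + 1) * c₁ / N ^ (-θ)) ≤ N ^ (6 * θ * (C + 1)) := by
  have hl2 : 0 < Real.log 2 := Real.log_pos (by norm_num)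
  obtain ⟨B, hB⟩ : ∃ B : ℝ, B = 2 + 2 * U0 / (θ * Real.log 2) := ⟨_, rfl⟩
  have hB2 : 2 ≤ B := by
    rw [hB]
    have : 0 ≤ 2 * U0 / (θ * Real.log 2) := by positivity
    linarith
  obtain ⟨M, hM⟩ : ∃ M : ℝ, M = max B (max (c₁ + 1) ((C : ℝ) + 1)) := ⟨_, rfl⟩
  have hMB : B ≤ M := by rw [hM]; exact le_max_left _ _
  have hMc : c₁ ≤ M := by
    have : c₁ + 1 ≤ M := by rw [hM]; exact le_trans (le_max_left _ _) (le_max_right _ _)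
    linarith
  have hMC : (C : ℝ) ≤ M := by
    have : (C : ℝ) + 1 ≤ M := by rw [hM]; exact le_trans (le_max_right _ _) (le_max_right _ _)
    linarith
  have hM1 : 1 ≤ M := by linarith
  refine ⟨max 4 (M ^ (2 / θ)), le_max_left _ _, ?_⟩
  intro N hN n0 hn0
  have hN4 : 4 ≤ N := le_trans (le_max_left _ _) hN
  have hN0 : 0 < N := by linarith
  have hN1 : 1 ≤ N := by linarith
  have hNM : M ^ (2 / θ) ≤ N := le_trans (le_max_right _ _) hN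
  -- N^(θ/2) ≥ M
  have hh : M ≤ N ^ (θ / 2) := by
    have h1 : (M ^ (2 / θ)) ^ (θ / 2) ≤ N ^ (θ / 2) := Real.rpow_le_rpow (by positivity) hNM (by positivity)
    rw [← Real.rpow_mul (by linarith)] at h1
    have : 2 / θ * (θ / 2) = 1 := by field_simp
    rw [this, Real.rpow_one] at h1
    exact h1
  have hsq : N ^ θ = N ^ (θ / 2) * N ^ (θ / 2) := by
    rw [← Real.rpow_add hN0]; congr 1; ring
  have hh1 : 1 ≤ N ^ (θ / 2) := by linarith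
  have hθM : M ≤ N ^ θ := by
    rw [hsq]; nlinarith
  -- bound of n0
  have hW : k6aW n0 * 2 ^ n0 = 1 := k6a1_W_mul n0
  have hpow : (2 : ℝ) ^ n0 ≤ 2 * N ^ U0 := by
    have h2 : (0 : ℝ) < 2 ^ n0 := by positivity
    have hNU : N ^ (-U0) * N ^ U0 = 1 := by
      rw [← Real.rpow_add hN0]; simp
    have hNU0 : 0 < N ^ U0 := Real.rpow_pos_of_pos hN0 _
    have : N ^ (-U0) * (2 ^ n0 * N ^ U0) ≤ 2 * k6aW n0 * (2 ^ n0 * N ^ U0) := mul_le_mul_of_nonneg_right hn0 (by positivity)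
    calc (2 : ℝ) ^ n0 = N ^ (-U0) * N ^ U0 * 2 ^ n0 := by rw [hNU, one_mul]
      _ = N ^ (-U0) * (2 ^ n0 * N ^ U0) := by ring
      _ ≤ 2 * k6aW n0 * (2 ^ n0 * N ^ U0) := this
      _ = 2 * (k6aW n0 * 2 ^ n0) * N ^ U0 := by ring
      _ = 2 * N ^ U0 := by rw [hW]; ring
  have hlog : (n0 : ℝ) * Real.log 2 ≤ Real.log 2 + U0 * Real.log N := by
    have h1 : Real.log ((2 : ℝ) ^ n0) ≤ Real.log (2 * N ^ U0) := Real.log_le_log (by positivity) hpow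
    rw [Real.log_pow, Real.log_mul (by norm_num) (Real.rpow_pos_of_pos hN0 _).ne', Real.log_rpow hN0] at h1
    exact h1
  have hlogN : Real.log N ≤ N ^ (θ / 2) / (θ / 2) := Real.log_le_rpow_div hN0.le (by positivity)
  have hn : (n0 : ℝ) + 1 ≤ N ^ θ := by
    have h1 : (n0 : ℝ) ≤ 1 + U0 * Real.log N / Real.log 2 := by
      rw [← sub_le_iff_le_add', le_div_iff₀ hl2]
      nlinarith
    have h2 : U0 * Real.log N / Real.log 2 ≤ (B - 2) * N ^ (θ / 2) := by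
      rw [hB]
      have : U0 * Real.log N ≤ U0 * (N ^ (θ / 2) / (θ / 2)) := mul_le_mul_of_nonneg_left hlogN hU0.le
      rw [div_le_iff₀ hl2]
      calc U0 * Real.log N ≤ U0 * (N ^ (θ / 2) / (θ / 2)) := this
        _ = (2 + 2 * U0 / (θ * Real.log 2) - 2) * N ^ (θ / 2) * Real.log 2 := by field_simp; ring
    have h3 : (n0 : ℝ) + 1 ≤ B * N ^ (θ / 2) := by nlinarith
    calc (n0 : ℝ) + 1 ≤ B * N ^ (θ / 2) := h3
      _ ≤ N ^ (θ / 2) * N ^ (θ / 2) := by nlinarith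
      _ = N ^ θ := hsq.symm
  have hNθ0 : 0 < N ^ θ := Real.rpow_pos_of_pos hN0 _
  have hY : N ^ θ * N ^ θ * (n0 + 1) * c₁ / N ^ (-θ) ≤ N ^ (5 * θ) := by
    have e1 : N ^ (-θ) = (N ^ θ)⁻¹ := Real.rpow_neg hN0.le _
    rw [e1, div_inv_eq_mul]
    have e5 : N ^ (5 * θ) = N ^ θ * N ^ θ * N ^ θ * N ^ θ * N ^ θ := by
      rw [← Real.rpow_add hN0, ← Real.rpow_add hN0, ← Real.rpow_add hN0, ← Real.rpow_add hN0]; congr 1; ring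
    rw [e5]
    have hc' : c₁ ≤ N ^ θ := hMc.trans hθM
    have h1 : ((n0 : ℝ) + 1) * c₁ ≤ N ^ θ * N ^ θ := mul_le_mul hn hc' hc hNθ0.le
    calc N ^ θ * N ^ θ * (n0 + 1) * c₁ * N ^ θ = (N ^ θ * N ^ θ * N ^ θ) * (((n0 : ℝ) + 1) * c₁) := by ring
      _ ≤ (N ^ θ * N ^ θ * N ^ θ) * (N ^ θ * N ^ θ) := mul_le_mul_of_nonneg_left h1 (by positivity)
      _ = _ := by ring
  have hY0 : 0 ≤ N ^ θ * N ^ θ * (n0 + 1) * c₁ / N ^ (-θ) := by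
    have : 0 < N ^ (-θ) := Real.rpow_pos_of_pos hN0 _
    positivity
  unfold k6a1K
  calc (C : ℝ) * (N ^ θ * N ^ θ * (n0 + 1) * c₁ / N ^ (-θ)) ^ C ≤ N ^ θ * (N ^ (5 * θ)) ^ C :=
        mul_le_mul (hMC.trans hθM) (pow_le_pow_left₀ hY0 hY C) (by positivity) hNθ0.le
    _ = N ^ (θ + 5 * θ * C) := by
        rw [← Real.rpow_natCast (N ^ (5 * θ)) C, ← Real.rpow_mul hN0.le, ← Real.rpow_add hN0]
    _ ≤ N ^ (6 * θ * (C + 1)) := by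
        apply Real.rpow_le_rpow_of_exponent_le hN1
        have : (0 : ℝ) ≤ C := Nat.cast_nonneg C
        nlinarith

theorem k6a1_x5_four {N x y : ℝ} (hN : 4 ≤ N) (h : x + 1 ≤ y) : 4 * N ^ (-y) ≤ N ^ (-x) := by
  have hN0 : 0 < N := by linarith
  have h1 : N ^ (-x) = N ^ (-y) * N ^ (y - x) := by
    rw [← Real.rpow_add hN0]
    congr 1
    ring
  have h2 : N ≤ N ^ (y - x) := by
    calc N = N ^ (1 : ℝ) := (Real.rpow_one N).symm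
      _ ≤ N ^ (y - x) := Real.rpow_le_rpow_of_exponent_le (by linarith) (by linarith)
  have h3 : 0 < N ^ (-y) := Real.rpow_pos_of_pos hN0 _
  rw [h1]
  nlinarith

theorem k6a1_x5_W_le {i i' : ℕ} (h : k6aW i' ≤ k6aW i) : i ≤ i' := by
  unfold k6aW at h
  exact (pow_le_pow_iff_right_of_lt_one₀ (by norm_num) (by norm_num)).1 h

theorem k6a1_x5_W_succ (i : ℕ) : k6aW (i + 1) = k6aW i / 2 := by
  unfold k6aW
  rw [pow_succ]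
  ring

theorem k6a1_x5_W_inv (i : ℕ) : (2 : ℝ) ^ i = 1 / k6aW i := by
  unfold k6aW
  rw [one_div_pow, one_div_one_div]

/-- the exponents -/
theorem k6a1_x5_ceil {a θ : ℝ} (ha : 0 ≤ a) (hθ : 0 < θ) : a ≤ (⌈a / θ⌉₊ : ℝ) * θ ∧ (⌈a / θ⌉₊ : ℝ) * θ ≤ a + θ := by
  constructor
  · have := Nat.le_ceil (a / θ)
    rwa [div_le_iff₀ hθ] at this
  · have := (Nat.ceil_lt_add_one (div_nonneg ha hθ.le)).le
    calc (⌈a / θ⌉₊ : ℝ) * θ ≤ (a / θ + 1) * θ := mul_le_mul_of_nonneg_right this hθ.le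
      _ = a + θ := by field_simp

theorem k6a1_x5_X1 {g n c δ a : ℝ} (hg : 1 ≤ g) (hn : 0 ≤ n) (hc : 0 ≤ c) (hδ : 0 < δ) (hδ1 : δ ≤ 1) (ha : 0 < a) (ha1 : a ≤ 1) :
    1 ≤ g * g * (n + 1) * (c + 1) / (δ * a) := by
  rw [le_div_iff₀ (by positivity)]
  have h3 : δ * a ≤ 1 := by nlinarith
  have h4 : 1 ≤ g * g := by nlinarith
  have h5 : (1 : ℝ) ≤ (n + 1) * (c + 1) := by nlinarith [mul_nonneg hn hc]
  have h6 : 1 ≤ g * g * ((n + 1) * (c + 1)) := by nlinarith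
  calc 1 * (δ * a) ≤ 1 := by linarith
    _ ≤ g * g * ((n + 1) * (c + 1)) := h6
    _ = g * g * (n + 1) * (c + 1) := by ring

theorem k6a1_x5_Xle {g n c M δ a : ℝ} (hg : 0 ≤ g) (hn : 0 ≤ n) (hcM : c ≤ M + 4) (hδ : 0 < δ) (ha : 0 < a) :
    g * g * (n + 1) * (c + 1) / (δ * a) ≤ g * g * (n + 1) * ((M + 5) / δ) / a := by
  have e1 : g * g * (n + 1) * (c + 1) / (δ * a) = g * g * (n + 1) * ((c + 1) / δ) / a := by
    field_simp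
  rw [e1]
  have h1 : (c + 1) / δ ≤ (M + 5) / δ := div_le_div_of_nonneg_right (by linarith) hδ.le
  have h2 : (0 : ℝ) ≤ g * g * (n + 1) := by positivity
  exact div_le_div_of_nonneg_right (mul_le_mul_of_nonneg_left h1 h2) ha.le

theorem k6a1_x5_two {N U0 W : ℝ} (hN : 4 ≤ N) (hW : 0 < W) (h : N ^ (-U0) ≤ 2 * W) : 1 / W ≤ N ^ (U0 + 1) := by
  have hN0 : 0 < N := by linarith
  rw [div_le_iff₀ hW]
  have h2 : N ^ (U0 + 1) * N ^ (-U0) = N := by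
    rw [← Real.rpow_add hN0]
    have : U0 + 1 + -U0 = 1 := by ring
    rw [this, Real.rpow_one]
  have h3 : 0 < N ^ (U0 + 1) := Real.rpow_pos_of_pos hN0 _
  nlinarith

theorem k6a1_x5_eps {c M δ : ℝ} (hc : c ≤ M + 4) (hM : 0 ≤ M) (hδ : 0 < δ) : (c + 4) * (δ / (2 * (M + 8))) ≤ δ / 2 := by
  have h1 : c + 4 ≤ M + 8 := by linarith
  have h2 : (0 : ℝ) < M + 8 := by positivity
  calc (c + 4) * (δ / (2 * (M + 8))) ≤ (M + 8) * (δ / (2 * (M + 8))) := mul_le_mul_of_nonneg_right h1 (by positivity)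
    _ = δ / 2 := by field_simp

/-- **THE EXIT OF S6a1.**
CHOICES.   `ε₀ = τ₁ / (4 (U0 + 1))`;   `C` of `k6a1_entry v p.d p.k ε₀`;   `θ = min 1 (τ₁ / (12 (C + 1)))`;   gap `g = θ`, `τ = u = θ`;   `Md = ⌈(U0 + 1) / θ⌉₊`;   `U1 = 2 (U0 + 4 + s1 + s2) + τ₁ + 2` (`≥ 2 σ + τ₁ + 2` for every node `σ ≤ (Md + 1) θ + s1 + s2 ≤ U0 + 3 + s1 + s2`);
`Mw = ⌈U1 / θ⌉₊`;   `G = k6a1Req s s1 s2 θ U1 Md Mw`;   `δ' = min δ 1`;   `κ = min κb 1`;   `ε = δ' / (2 (Md + 8))`;   `c₁ = (Md + 5) / δ'`;   `N₁` of `k6a1_num C θ c₁ U0`.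
For a record: `K = N^θ`, density `N^θ`, `Sg = k6a1Nodes ..`, `n0 = k6a1Lev (N^(-U0)) + 1` (`k6a1_lev_le`: `W_{n0} ≤ N^(-U0) ≤ 2 W_{n0}`), `n1 = k6a1Lev (a U1)`, `a U1 ≤ W_{n1} < 2 a U1`.   Lists: `Rich` + `k6a1_grid` (widths: `W_i ≥ W_{n1} ≥ N^(-U1)`; depths: `W_i ≥ W_{n0} ≥ N^(-U0-1)`).
`χ ≤ N^(-U1) ≤ W_{n1}`.   Slack: `S = k6a1K C X ≤ N^(τ₁/2)` (`k6a1_num`, monotone in `card Sg + 1 ≤ Md + 5`);   `(2^n0)^ε₀ ≤ (2 N^U0)^ε₀ ≤ N^(τ₁/4)`;   `S W_{n1} ≤ N^(τ₁/2) 2 N^(-U1) ≤ min (N^(-U0) / 2) (N^(-2σ))` as `4 ≤ N`.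
`k6a1_entry`, then `k6a1_entry_mono` (`S (2^n0)^ε₀ ≤ N^τ₁`, `δ' ≤ δ`). -/
theorem k6a_hub_phys : k6a_hub_phys_stmt := by
  intro v p hp hell s s1 s2 U0 hs hs1 hs2 hU0 η δ τ₁ κb hη hδ hτ₁ hκb
  obtain ⟨ε₀, hε₀e⟩ : ∃ ε₀ : ℝ, ε₀ = τ₁ / (4 * (U0 + 1)) := ⟨_, rfl⟩
  have hε₀ : 0 < ε₀ := by rw [hε₀e]; positivity
  obtain ⟨C, hC⟩ := k6a1_entry v p.d p.k ε₀ hp.d_nonneg hp.d_lt hp.k_le hε₀
  obtain ⟨θ, hθe⟩ : ∃ θ : ℝ, θ = min 1 (τ₁ / (12 * ((C : ℝ) + 1))) := ⟨_, rfl⟩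
  have hθ : 0 < θ := by
    rw [hθe]
    exact lt_min one_pos (by positivity)
  have hθ1 : θ ≤ 1 := hθe ▸ min_le_left _ _
  have hθC : 6 * θ * ((C : ℝ) + 1) ≤ τ₁ / 2 := by
    have h1 : θ ≤ τ₁ / (12 * ((C : ℝ) + 1)) := hθe ▸ min_le_right _ _
    rw [le_div_iff₀ (by positivity)] at h1
    linarith
  have hθτ : θ ≤ τ₁ := by
    have h1 : (0 : ℝ) ≤ C := Nat.cast_nonneg _
    nlinarith
  obtain ⟨Md, hMde⟩ : ∃ Md : ℕ, Md = ⌈(U0 + 1) / θ⌉₊ := ⟨_, rfl⟩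
  obtain ⟨hMd1, hMd2⟩ := k6a1_x5_ceil (a := U0 + 1) (by linarith) hθ
  rw [← hMde] at hMd1 hMd2
  obtain ⟨U1, hU1e⟩ : ∃ U1 : ℝ, U1 = 2 * (U0 + 4 + s1 + s2) + τ₁ + 2 := ⟨_, rfl⟩
  have hU1 : 0 ≤ U1 := by rw [hU1e]; linarith
  obtain ⟨Mw, hMwe⟩ : ∃ Mw : ℕ, Mw = ⌈U1 / θ⌉₊ := ⟨_, rfl⟩
  obtain ⟨hMw1, -⟩ := k6a1_x5_ceil hU1 hθ
  rw [← hMwe] at hMw1
  obtain ⟨δ', hδ'e⟩ : ∃ δ' : ℝ, δ' = min δ 1 := ⟨_, rfl⟩
  have hδ' : 0 < δ' := hδ'e ▸ lt_min hδ one_pos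
  have hδ'1 : δ' ≤ 1 := hδ'e ▸ min_le_right _ _
  have hδ'δ : δ' ≤ δ := hδ'e ▸ min_le_left _ _
  obtain ⟨c₁, hc₁e⟩ : ∃ c₁ : ℝ, c₁ = ((Md : ℝ) + 5) / δ' := ⟨_, rfl⟩
  have hc₁ : 0 ≤ c₁ := by rw [hc₁e]; positivity
  obtain ⟨N₁, hN₁4, hN₁⟩ := k6a1_num C θ c₁ U0 hθ hc₁ hU0
  refine ⟨k6a1Req s s1 s2 θ U1 Md Mw, k6a1_req_ok s s1 s2 θ U1 Md Mw hs hs1 hs2 hθ hU1, by simp [k6a1Req, k6a1Nodes], by simp [k6a1Req, k6a1Nodes],
    by simp [k6a1Req, k6a1Nodes], by simp [k6a1Req], min κb 1, θ, δ' / (2 * ((Md : ℝ) + 8)), θ, lt_min hκb one_pos, hθ, hθτ, by positivity, hθ, hθτ, N₁, ?_⟩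
  intro R A E hN hrich hR hA hB hE
  have hN4 : 4 ≤ R.N := hN₁4.trans hN
  have hN0 : 0 < R.N := by linarith
  have hN1 : 1 ≤ R.N := by linarith
  have hprm := hrich.prm
  have hRd : R.d = p.d := by rw [KsRef.d, hprm]
  have hRk : R.k = p.k := by rw [KsRef.k, hprm]
  have hRl : R.ell = 0 := by rw [KsRef.ell, hprm, hell]
  have ha : ∀ r : ℝ, R.a r = R.N ^ (-r) := fun _ => rfl
  -- the levels
  have hx0 : 0 < R.N ^ (-U0) := Real.rpow_pos_of_pos hN0 _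
  have hx1 : R.N ^ (-U0) ≤ 1 := Real.rpow_le_one_of_one_le_of_nonpos hN1 (by linarith)
  obtain ⟨hl1, hl2⟩ := k6a1_lev_le hx0 hx1
  obtain ⟨n0, hn0⟩ : ∃ n0 : ℕ, n0 = k6a1Lev (R.N ^ (-U0)) + 1 := ⟨_, rfl⟩
  have hW0 : k6aW n0 = k6aW (k6a1Lev (R.N ^ (-U0))) / 2 := by rw [hn0, k6a1_x5_W_succ]
  have hW0a : k6aW n0 ≤ R.N ^ (-U0) := by rw [hW0]; linarith
  have hW0b : R.N ^ (-U0) ≤ 2 * k6aW n0 := by rw [hW0]; linarith
  have hy0 : 0 < R.a U1 := k6a1_a_pos hR U1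
  have hy1 : R.a U1 ≤ 1 := k6a1_a_le_one hR hU1
  obtain ⟨hm1, hm2⟩ := k6a1_lev_le hy0 hy1
  obtain ⟨n1, hn1⟩ : ∃ n1 : ℕ, n1 = k6a1Lev (R.a U1) := ⟨_, rfl⟩
  rw [← hn1] at hm1 hm2
  -- the nodes
  obtain ⟨Sg, hSg⟩ : ∃ Sg : Finset ℝ, Sg = k6a1Nodes s s1 s2 θ Md := ⟨_, rfl⟩
  have hcard : (Sg.card : ℝ) ≤ (Md : ℝ) + 4 := by
    have := k6a1_nodes_card s s1 s2 θ Md
    rw [← hSg] at this
    exact_mod_cast this
  have hSgle : ∀ σ ∈ Sg, σ ≤ U0 + 3 + s1 + s2 := by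
    intro σ hσ
    have h1 := k6a1_nodes_le s s1 s2 θ Md hs hs1 hs2 hθ σ (hSg ▸ hσ)
    have e : ((Md : ℝ) + 1) * θ = Md * θ + θ := by ring
    linarith only [h1, e, hMd2, hθ1]
  have hSgd : Sg ⊆ R.depths := by
    refine subset_trans ?_ hrich.depths
    rw [hSg]
    exact Finset.subset_union_left
  -- the slack
  obtain ⟨g, hg⟩ : ∃ g : ℝ, g = R.N ^ θ := ⟨_, rfl⟩
  have hg1 : 1 ≤ g := hg ▸ Real.one_le_rpow hN1 hθ.le
  obtain ⟨X, hX⟩ : ∃ X : ℝ, X = g * g * (n0 + 1) * (Sg.card + 1) / (δ' * R.a θ) := ⟨_, rfl⟩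
  have haθ0 : 0 < R.a θ := k6a1_a_pos hR θ
  have haθ1 : R.a θ ≤ 1 := k6a1_a_le_one hR hθ.le
  have hX1 : 1 ≤ X := hX ▸ k6a1_x5_X1 hg1 (Nat.cast_nonneg n0) (Nat.cast_nonneg Sg.card) hδ' hδ'1 haθ0 haθ1
  have hXle : X ≤ R.N ^ θ * R.N ^ θ * (n0 + 1) * c₁ / R.N ^ (-θ) := by
    rw [hX, ← hg, hc₁e]
    exact k6a1_x5_Xle (zero_le_one.trans hg1) (Nat.cast_nonneg n0) hcard hδ' haθ0
  have hS : k6a1K C X ≤ R.N ^ (τ₁ / 2) :=
    (k6a1_K_mono le_rfl hX1 hXle).trans ((hN₁ R.N hN n0 hW0b).trans (Real.rpow_le_rpow_of_exponent_le hN1 hθC))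
  have hS0 : 0 ≤ k6a1K C X := k6a1_K_nonneg _ (by linarith)
  have hSW : k6a1K C X * k6aW n1 ≤ 2 * R.N ^ (-(U1 - τ₁ / 2)) := by
    have h1 : R.N ^ (-(U1 - τ₁ / 2)) = R.N ^ (τ₁ / 2) * R.N ^ (-U1) := by
      rw [← Real.rpow_add hN0]
      congr 1
      ring
    rw [h1]
    have h2 : k6aW n1 ≤ 2 * R.N ^ (-U1) := hm2.le
    calc k6a1K C X * k6aW n1 ≤ R.N ^ (τ₁ / 2) * (2 * R.N ^ (-U1)) := mul_le_mul hS h2 (k6a1_W_pos n1).le (Real.rpow_nonneg hN0.le _)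
      _ = 2 * (R.N ^ (τ₁ / 2) * R.N ^ (-U1)) := by ring
  have hpos' : 0 < R.N ^ (-(U1 - τ₁ / 2)) := Real.rpow_pos_of_pos hN0 _
  have hfine : k6a1K C X * k6aW n1 ≤ k6aW n0 := by
    have h1 := k6a1_x5_four (x := U0) (y := U1 - τ₁ / 2) hN4 (by rw [hU1e]; linarith)
    linarith
  have hfrz : ∀ σ ∈ Sg, k6a1K C X * k6aW n1 ≤ R.a σ ^ 2 := by
    intro σ hσ
    have h1 := k6a1_x5_four (x := 2 * σ) (y := U1 - τ₁ / 2) hN4 (by rw [hU1e]; linarith [hSgle σ hσ])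
    have h2 : R.a σ ^ 2 = R.N ^ (-(2 * σ)) := by
      rw [ha, ← Real.rpow_natCast, ← Real.rpow_mul hN0.le]
      congr 1
      push_cast
      ring
    rw [h2]
    linarith
  have hn01 : n0 ≤ n1 := by
    apply k6a1_x5_W_le
    have h1 := k6a1_x5_four (x := U0) (y := U1) hN4 (by rw [hU1e]; linarith)
    have h2 : k6aW n1 < 2 * R.N ^ (-U1) := hm2
    linarith
  -- the grids
  have hgw : ∀ i ≤ n1, ∃ r ∈ R.widths, k6aW i ≤ R.a r ∧ R.a r ≤ g * k6aW i := by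
    intro i hi
    have hWi : R.N ^ (-U1) ≤ k6aW i := hm1.trans (k6a1_W_anti hi)
    obtain ⟨m, hm, h1, h2⟩ := k6a1_grid R.N θ U1 (k6aW i) Mw (by linarith) hθ hMw1 hWi (k6a1_W_le_one i)
    refine ⟨(m : ℝ) * θ, hrich.widths ?_, h2, ?_⟩
    · simp only [k6a1Req, Finset.mem_union, Finset.mem_image, Finset.mem_range]
      exact Or.inl ⟨m, by omega, rfl⟩
    · rw [ha, hg]
      calc R.N ^ (-((m : ℝ) * θ)) = R.N ^ θ * R.N ^ (-(((m : ℝ) + 1) * θ)) := by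
            rw [← Real.rpow_add hN0]
            congr 1
            ring
        _ ≤ R.N ^ θ * k6aW i := mul_le_mul_of_nonneg_left h1 (Real.rpow_nonneg hN0.le _)
  have hgd : ∀ i ≤ n0, ∃ σ ∈ Sg, R.a σ ≤ k6aW i ∧ k6aW i ≤ g * R.a σ := by
    intro i hi
    have hWi : R.N ^ (-(U0 + 1)) ≤ k6aW i := by
      have h1 := k6a1_x5_four (x := U0) (y := U0 + 1) hN4 le_rfl
      have h2 := k6a1_W_anti hi
      have h3 : 0 < R.N ^ (-(U0 + 1)) := Real.rpow_pos_of_pos hN0 _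
      linarith
    obtain ⟨m, hm, h1, h2⟩ := k6a1_grid R.N θ (U0 + 1) (k6aW i) Md (by linarith) hθ hMd1 hWi (k6a1_W_le_one i)
    refine ⟨((m : ℝ) + 1) * θ, ?_, h1, ?_⟩
    · rw [hSg]
      simp only [k6a1Nodes, Finset.mem_union, Finset.mem_image, Finset.mem_range]
      exact Or.inl ⟨m, by omega, rfl⟩
    · rw [ha, hg]
      calc k6aW i ≤ R.N ^ (-((m : ℝ) * θ)) := h2
        _ = R.N ^ θ * R.N ^ (-(((m : ℝ) + 1) * θ)) := by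
            rw [← Real.rpow_add hN0]
            congr 1
            ring
  have hχ : R.χ ≤ k6aW n1 := (hrich.χ).trans hm1
  have hεδ : ((Sg.card : ℝ) + 4) * (δ' / (2 * ((Md : ℝ) + 8))) ≤ δ' / 2 := k6a1_x5_eps hcard (Nat.cast_nonneg Md) hδ'
  have hmem : s ∈ Sg ∧ s1 ∈ Sg ∧ s2 ∈ Sg := by
    rw [hSg]
    simp [k6a1Nodes]
  have hSgpos : ∀ σ ∈ Sg, 0 < σ := fun σ hσ => k6a1_nodes_pos s s1 s2 θ Md hs hs1 hs2 hθ σ (hSg ▸ hσ)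
  have hUm : U1 ∈ R.meshes := hrich.meshes (by simp [k6a1Req])
  have hUw : U1 ∈ R.widths := hrich.widths (by simp [k6a1Req])
  have hfin : k6a1K C X * ((2 : ℝ) ^ n0) ^ ε₀ ≤ R.N ^ τ₁ := by
    have h1 : (2 : ℝ) ^ n0 ≤ R.N ^ (U0 + 1) := by
      rw [k6a1_x5_W_inv]
      exact k6a1_x5_two hN4 (k6a1_W_pos n0) hW0b
    have h4 : ((2 : ℝ) ^ n0) ^ ε₀ ≤ R.N ^ (τ₁ / 4) := by
      calc ((2 : ℝ) ^ n0) ^ ε₀ ≤ (R.N ^ (U0 + 1)) ^ ε₀ := Real.rpow_le_rpow (by positivity) h1 hε₀.le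
        _ = R.N ^ ((U0 + 1) * ε₀) := (Real.rpow_mul hN0.le _ _).symm
        _ = R.N ^ (τ₁ / 4) := by
            congr 1
            rw [hε₀e]
            field_simp
    calc k6a1K C X * ((2 : ℝ) ^ n0) ^ ε₀ ≤ R.N ^ (τ₁ / 2) * R.N ^ (τ₁ / 4) := mul_le_mul hS h4 (by positivity) (Real.rpow_nonneg hN0.le _)
      _ = R.N ^ (τ₁ / 2 + τ₁ / 4) := (Real.rpow_add hN0 _ _).symm
      _ ≤ R.N ^ τ₁ := Real.rpow_le_rpow_of_exponent_le hN1 (by linarith)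
  subst hn1 hX
  rw [← hg] at hR hE
  obtain ⟨lv, lv1, lv2, E', Lc, m0, hent⟩ := hC R A E s s1 s2 g g U1 (min κb 1) κb θ (δ' / (2 * ((Md : ℝ) + 8))) δ' η n0 Sg hRd hRk hRl hR hA hB hE hg1
    (min_le_right _ _) (min_le_left _ _) hθ (by positivity) hδ' hδ'1 hSgd hmem.1 hmem.2.1 hmem.2.2 hs1 hs2 hSgpos hU1 hUm hUw hχ hgw hgd hn01 hfine hfrz hεδ
  refine ⟨n0, lv, lv1, lv2, E', Lc, m0, by linarith, hW0b, ?_⟩
  exact k6a1_entry_mono hent (by positivity) hfin (mul_le_mul_of_nonneg_right hδ'δ ENNReal.toReal_nonneg)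

end

end Claimed.Agent.R252
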