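import Claimed.Agent.R252.S6a.Phys.Defs

/-!
# ROW 252, unit S6a1, file 2: TOOLS (dyadic bins, counting, measurability of the labels of `K6aDat`, the two prunings).   CONTRACT      (sub-architect helper11; prefix `k6a1_`)

PAPER-FREE, Mathlib + `S6a/Layers.lean` only.   Statements are frozen (defects: message to helper11).   Provers replace the `sorry`s IN PLACE, helper lemmas directly above, prefix `k6a1_`.
LEAVES: L-252-P1-T1 (s0 slack, s1 bins), T2 (s2 counting), T3 (s3 measurability), T4 (`k6a1_prune_dur`), T5 (`k6a1_prune_light`).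
-/

set_option autoImplicit false

namespace Claimed.Agent.R252

open MeasureTheory
open scoped ENNReal BigOperators

noncomputable section

variable {j : ℕ}

/-! ## 0. the slack `k6a1K C K = C * K ^ C` -/

theorem k6a1_K_mono {C C' : ℕ} {K K' : ℝ} (hC : C ≤ C') (hK : 1 ≤ K) (hK' : K ≤ K') : k6a1K C K ≤ k6a1K C' K' := by
  unfold k6a1K
  have h0 : 0 ≤ K := by linarith
  have h1 : 1 ≤ K' := hK.trans hK'
  have hc : (C : ℝ) ≤ C' := by exact_mod_cast hC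
  apply mul_le_mul hc _ (by positivity) (by positivity)
  calc K ^ C ≤ K' ^ C := pow_le_pow_left₀ h0 hK' C
    _ ≤ K' ^ C' := pow_le_pow_right₀ h1 hC

theorem k6a1_K_ge {C : ℕ} {K : ℝ} (hC : 1 ≤ C) (hK : 1 ≤ K) : K ≤ k6a1K C K := by
  unfold k6a1K
  have hc : (1 : ℝ) ≤ C := by exact_mod_cast hC
  have h1 : K ≤ K ^ C := by
    calc K = K ^ 1 := (pow_one K).symm
      _ ≤ K ^ C := pow_le_pow_right₀ hK hC
  have h2 : 0 ≤ K ^ C := by positivity
  nlinarith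

theorem k6a1_K_one_le {C : ℕ} {K : ℝ} (hC : 1 ≤ C) (hK : 1 ≤ K) : 1 ≤ k6a1K C K := by
  exact hK.trans (k6a1_K_ge hC hK)

theorem k6a1_K_nonneg (C : ℕ) {K : ℝ} (hK : 0 ≤ K) : 0 ≤ k6a1K C K := by
  unfold k6a1K
  positivity

/-- (`C C' K^(C+C')`) -/
theorem k6a1_K_mul (C C' : ℕ) {K : ℝ} (hK : 1 ≤ K) : k6a1K C K * k6a1K C' K ≤ k6a1K (C * C' + C + C') K := by
  unfold k6a1K
  have h0 : 0 ≤ K := by linarith
  have e : (C : ℝ) * K ^ C * ((C' : ℝ) * K ^ C') = ((C * C' : ℕ) : ℝ) * K ^ (C + C') := by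
    push_cast
    ring
  rw [e]
  apply mul_le_mul _ (pow_le_pow_right₀ hK (by omega)) (by positivity) (by positivity)
  exact_mod_cast (by omega : C * C' ≤ C * C' + C + C')

/-- (`C (C' K^C')^C = C C'^C K^(C' C)`) -/
theorem k6a1_K_comp (C C' : ℕ) {K : ℝ} (hK : 1 ≤ K) : k6a1K C (k6a1K C' K) ≤ k6a1K (C * C' ^ C + C' * C) K := by
  unfold k6a1K
  have h0 : 0 ≤ K := by linarith
  have e : (C : ℝ) * ((C' : ℝ) * K ^ C') ^ C = ((C * C' ^ C : ℕ) : ℝ) * K ^ (C' * C) := by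
    push_cast
    rw [mul_pow, ← pow_mul]
    ring
  rw [e]
  apply mul_le_mul _ (pow_le_pow_right₀ hK (by omega)) (by positivity) (by positivity)
  exact_mod_cast Nat.le_add_right _ _

/-- a polynomial bound `c K^m` is a slack -/
theorem k6a1_K_of_pow (c m : ℕ) {K : ℝ} (hK : 1 ≤ K) : (c : ℝ) * K ^ m ≤ k6a1K (c + m) K := by
  unfold k6a1K
  have h0 : 0 ≤ K := by linarith
  apply mul_le_mul _ (pow_le_pow_right₀ hK (by omega)) (by positivity) (by positivity)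
  exact_mod_cast Nat.le_add_right _ _

/-! ## 1. dyadic bins -/

theorem k6a1_W_pos (i : ℕ) : 0 < k6aW i := by
  unfold k6aW
  positivity

theorem k6a1_W_le_one (i : ℕ) : k6aW i ≤ 1 := by
  unfold k6aW
  exact pow_le_one₀ (by norm_num) (by norm_num)

theorem k6a1_W_mul (i : ℕ) : k6aW i * 2 ^ i = 1 := by
  unfold k6aW
  rw [← mul_pow]
  norm_num

theorem k6a1_W_anti {i i' : ℕ} (h : i ≤ i') : k6aW i' ≤ k6aW i := by
  unfold k6aW
  exact pow_le_pow_of_le_one (by norm_num) (by norm_num) h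

theorem k6a1_W_sub {i i' : ℕ} (h : i ≤ i') : k6aW i = k6aW i' * 2 ^ (i' - i) := by
  obtain ⟨k, rfl⟩ := Nat.exists_eq_add_of_le h
  have e : i + k - i = k := by omega
  rw [e]
  have := k6a1_W_mul k
  unfold k6aW at this ⊢
  rw [pow_add, mul_assoc, this, mul_one]

theorem k6a1_bin_mem (i : ℕ) (x : ℝ) : (k6aBin i x : ℝ) * k6aW i ≤ x ∧ x < ((k6aBin i x : ℝ) + 1) * k6aW i := by
  have hp : (0 : ℝ) < 2 ^ i := by positivity
  have hW : k6aW i = (2 ^ i)⁻¹ := by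
    unfold k6aW
    rw [one_div, inv_pow]
  have h := (Int.floor_eq_iff (a := x * 2 ^ i) (z := k6aBin i x)).mp rfl
  rw [hW, ← div_eq_mul_inv, ← div_eq_mul_inv, div_le_iff₀ hp, lt_div_iff₀ hp]
  exact h

theorem k6a1_bin_iff (i : ℕ) (x : ℝ) (a : ℤ) : k6aBin i x = a ↔ (a : ℝ) * k6aW i ≤ x ∧ x < ((a : ℝ) + 1) * k6aW i := by
  have hp : (0 : ℝ) < 2 ^ i := by positivity
  have hW : k6aW i = (2 ^ i)⁻¹ := by
    unfold k6aW
    rw [one_div, inv_pow]
  unfold k6aBin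
  rw [Int.floor_eq_iff, hW, ← div_eq_mul_inv, ← div_eq_mul_inv, div_le_iff₀ hp, lt_div_iff₀ hp]

/-- the grids are nested (`⌊x 2^i⌋ = ⌊⌊x 2^i'⌋ / 2^(i'-i)⌋`, `Int.floor_div..` or directly from `k6a1_bin_iff`) -/
theorem k6a1_bin_coarse {i i' : ℕ} (h : i ≤ i') {x x' : ℝ} (hb : k6aBin i' x = k6aBin i' x') : k6aBin i x = k6aBin i x' := by
  obtain ⟨h1, h2⟩ := k6a1_bin_mem i' x
  obtain ⟨h1', h2'⟩ := k6a1_bin_mem i' x'
  rw [← hb] at h1' h2'
  obtain ⟨g1, g2⟩ := k6a1_bin_mem i x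
  symm
  rw [k6a1_bin_iff]
  have hW := k6a1_W_sub h
  have hW' := k6a1_W_pos i'
  rw [hW] at g1 g2 ⊢
  generalize k6aBin i' x = a at *
  generalize k6aBin i x = b at *
  generalize k6aW i' = w at *
  have c1 : (b : ℝ) * 2 ^ (i' - i) < a + 1 := by
    by_contra hcon
    push Not at hcon
    nlinarith
  have c1' : b * 2 ^ (i' - i) < a + 1 := by exact_mod_cast c1
  have c1'' : (b : ℝ) * 2 ^ (i' - i) ≤ a := by exact_mod_cast Int.lt_add_one_iff.mp c1'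
  have c2 : (a : ℝ) < ((b : ℝ) + 1) * 2 ^ (i' - i) := by
    by_contra hcon
    push Not at hcon
    nlinarith
  have c2' : a < (b + 1) * 2 ^ (i' - i) := by exact_mod_cast c2
  have c2'' : (a : ℝ) + 1 ≤ ((b : ℝ) + 1) * 2 ^ (i' - i) := by exact_mod_cast Int.add_one_le_iff.mpr c2'
  constructor
  · nlinarith
  · nlinarith

theorem k6a1_vbin_coarse {n : ℕ} {i i' : ℕ} (h : i ≤ i') {x x' : Fin n → ℝ} (hb : k6aVBin i' x = k6aVBin i' x') : k6aVBin i x = k6aVBin i x' := by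
  funext a
  exact k6a1_bin_coarse h (congrFun hb a)

theorem k6a1_bin_diam (i : ℕ) {x x' : ℝ} (hb : k6aBin i x = k6aBin i x') : |x - x'| ≤ k6aW i := by
  obtain ⟨h1, h2⟩ := k6a1_bin_mem i x
  obtain ⟨h1', h2'⟩ := k6a1_bin_mem i x'
  rw [← hb] at h1' h2'
  rw [abs_le]
  constructor <;> linarith

theorem k6a1_vbin_diam {n : ℕ} (i : ℕ) {x x' : Fin n → ℝ} (hb : k6aVBin i x = k6aVBin i x') : ‖x - x'‖ ≤ k6aW i := by
  rw [pi_norm_le_iff_of_nonneg (k6a1_W_pos i).le]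
  intro a
  rw [Pi.sub_apply, Real.norm_eq_abs]
  exact k6a1_bin_diam i (congrFun hb a)

/-- the bins of an interval of radius `r` -/
theorem k6a1_bin_range (i : ℕ) (x₀ r : ℝ) (hr : 0 ≤ r) : k6a1Cnt {x : ℝ | |x - x₀| ≤ r} (k6aBin i) (2 * r * 2 ^ i + 2) := by
  have hp : (0 : ℝ) < 2 ^ i := by positivity
  refine ⟨Finset.Icc ⌊(x₀ - r) * 2 ^ i⌋ ⌊(x₀ + r) * 2 ^ i⌋, ?_, ?_⟩
  · rw [Int.card_Icc]
    have hle : ⌊(x₀ - r) * 2 ^ i⌋ ≤ ⌊(x₀ + r) * 2 ^ i⌋ := by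
      apply Int.floor_le_floor
      apply mul_le_mul_of_nonneg_right _ hp.le
      linarith
    have hnn : 0 ≤ ⌊(x₀ + r) * 2 ^ i⌋ + 1 - ⌊(x₀ - r) * 2 ^ i⌋ := by omega
    have e : (((⌊(x₀ + r) * 2 ^ i⌋ + 1 - ⌊(x₀ - r) * 2 ^ i⌋).toNat : ℕ) : ℝ)
        = ((⌊(x₀ + r) * 2 ^ i⌋ + 1 - ⌊(x₀ - r) * 2 ^ i⌋ : ℤ) : ℝ) := by
      have := Int.toNat_of_nonneg hnn
      exact_mod_cast this
    rw [e]
    push_cast
    have a1 := Int.floor_le ((x₀ + r) * 2 ^ i)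
    have a2 := Int.lt_floor_add_one ((x₀ - r) * 2 ^ i)
    nlinarith
  · intro x hx
    have hx' : |x - x₀| ≤ r := hx
    rw [abs_le] at hx'
    rw [Finset.mem_Icc]
    constructor
    · apply Int.floor_le_floor
      apply mul_le_mul_of_nonneg_right _ hp.le
      linarith
    · apply Int.floor_le_floor
      apply mul_le_mul_of_nonneg_right _ hp.le
      linarith

/-- the bins of a cube of radius `r` (`Fintype.piFinset` of the lists of `k6a1_bin_range`) -/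
theorem k6a1_vbin_range {n : ℕ} (i : ℕ) (x₀ : Fin n → ℝ) (r : ℝ) (hr : 0 ≤ r) :
    k6a1Cnt {x : Fin n → ℝ | ‖x - x₀‖ ≤ r} (k6aVBin i) ((2 * r * 2 ^ i + 2) ^ n) := by
  choose F hF hm using fun a : Fin n => k6a1_bin_range i (x₀ a) r hr
  refine ⟨Fintype.piFinset F, ?_, ?_⟩
  · rw [Fintype.card_piFinset]
    push_cast
    calc ∏ a, ((F a).card : ℝ) ≤ ∏ _a : Fin n, (2 * r * 2 ^ i + 2) :=
          Finset.prod_le_prod (fun a _ => Nat.cast_nonneg _) (fun a _ => hF a)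
      _ = (2 * r * 2 ^ i + 2) ^ n := by
          rw [Finset.prod_const, Finset.card_univ, Fintype.card_fin]
  · intro x hx
    have hx' : ‖x - x₀‖ ≤ r := hx
    rw [Fintype.mem_piFinset]
    intro a
    apply hm a
    show |x a - x₀ a| ≤ r
    have := norm_le_pi_norm (x - x₀) a
    rw [Pi.sub_apply, Real.norm_eq_abs] at this
    exact this.trans hx'

/-- the time bins which meet `[0,1]` -/
theorem k6a1_bin_unit (i : ℕ) : k6a1Cnt (Set.Icc (0 : ℝ) 1) (k6aBin i) (2 ^ i + 1) := by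
  have hp : (0 : ℝ) < 2 ^ i := by positivity
  refine ⟨Finset.Icc 0 (2 ^ i), ?_, ?_⟩
  · rw [Int.card_Icc]
    have hnn : (0 : ℤ) ≤ 2 ^ i + 1 - 0 := by
      have h2 : (0 : ℤ) ≤ 2 ^ i := by positivity
      linarith
    have e : ((((2 : ℤ) ^ i + 1 - 0).toNat : ℕ) : ℝ) = (((2 : ℤ) ^ i + 1 - 0 : ℤ) : ℝ) := by
      have := Int.toNat_of_nonneg hnn
      exact_mod_cast this
    rw [e]
    push_cast
    linarith
  · intro x hx
    rw [Finset.mem_Icc]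
    unfold k6aBin
    constructor
    · apply Int.floor_nonneg.mpr
      exact mul_nonneg hx.1 hp.le
    · have : x * 2 ^ i ≤ (((2 : ℤ) ^ i : ℤ) : ℝ) := by
        push_cast
        nlinarith [hx.2]
      have h2 := Int.floor_le_floor this
      rwa [Int.floor_intCast] at h2

theorem k6a1_bin_set (i : ℕ) (a : ℤ) : {x : ℝ | k6aBin i x = a} = Set.Ico ((a : ℝ) * k6aW i) (((a : ℝ) + 1) * k6aW i) := by
  ext x
  exact k6a1_bin_iff i x a

theorem k6a1_bin_meas (i : ℕ) (a : ℤ) : MeasurableSet {x : ℝ | k6aBin i x = a} := by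
  rw [k6a1_bin_set]
  exact measurableSet_Ico

theorem k6a1_bin_vol (i : ℕ) (a : ℤ) : volume {x : ℝ | k6aBin i x = a} = ENNReal.ofReal (k6aW i) := by
  rw [k6a1_bin_set, Real.volume_Ico]
  congr 1
  ring

theorem k6a1_cube_set {n : ℕ} (i : ℕ) (J : Fin n → ℤ) :
    k6aCube i J = Set.pi Set.univ (fun a => Set.Ico ((J a : ℝ) * k6aW i) (((J a : ℝ) + 1) * k6aW i)) := by
  ext u
  simp only [Set.mem_pi, Set.mem_univ, true_imp_iff]
  constructor
  · intro h a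
    exact (k6a1_bin_iff i (u a) (J a)).mp (congrFun h a)
  · intro h
    funext a
    exact (k6a1_bin_iff i (u a) (J a)).mpr (h a)

theorem k6a1_cube_meas {n : ℕ} (i : ℕ) (J : Fin n → ℤ) : MeasurableSet (k6aCube i J) := by
  rw [k6a1_cube_set]
  exact MeasurableSet.univ_pi fun _ => measurableSet_Ico

/-- (`k6aCube i J = Set.pi univ ..`, `Real.volume_pi_Ico` / `volume_pi_pi`) -/
theorem k6a1_cube_vol {n : ℕ} (i : ℕ) (J : Fin n → ℤ) : volume (k6aCube i J) = ENNReal.ofReal (k6aW i ^ n) := by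
  rw [k6a1_cube_set, Real.volume_pi_Ico]
  have e : ∀ a : Fin n, ENNReal.ofReal (((J a : ℝ) + 1) * k6aW i - (J a : ℝ) * k6aW i) = ENNReal.ofReal (k6aW i) := by
    intro a
    congr 1
    ring
  simp_rw [e]
  rw [Finset.prod_const, Finset.card_univ, Fintype.card_fin, ENNReal.ofReal_pow (k6a1_W_pos i).le]

/-- a base cell with different levels in time and space -/
theorem k6a1_zcell_vol (it iy : ℕ) (a : ℤ) (b : Fin j → ℤ) :
    MeasurableSet {z : ℝ × (Fin j → ℝ) | k6aBin it z.1 = a ∧ k6aVBin iy z.2 = b} ∧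
      volume {z : ℝ × (Fin j → ℝ) | k6aBin it z.1 = a ∧ k6aVBin iy z.2 = b} = ENNReal.ofReal (k6aW it * k6aW iy ^ j) := by
  have e : {z : ℝ × (Fin j → ℝ) | k6aBin it z.1 = a ∧ k6aVBin iy z.2 = b} = {x : ℝ | k6aBin it x = a} ×ˢ k6aCube iy b := by
    ext z
    rfl
  rw [e]
  refine ⟨(k6a1_bin_meas it a).prod (k6a1_cube_meas iy b), ?_⟩
  rw [Measure.volume_eq_prod, Measure.prod_prod, k6a1_bin_vol, k6a1_cube_vol, ← ENNReal.ofReal_mul (k6a1_W_pos it).le]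

/-! ## 2. counting -/

theorem k6a1_cnt_mono {Ω S : Type} {A A' : Set Ω} {s : Ω → S} {n n' : ℝ} (h : k6a1Cnt A s n) (hA : A' ⊆ A) (hn : n ≤ n') : k6a1Cnt A' s n' := by
  obtain ⟨F, hF, hm⟩ := h
  exact ⟨F, hF.trans hn, fun e he => hm e (hA he)⟩

theorem k6a1_cnt_comp {Ω S T : Type} {A : Set Ω} {s : Ω → S} {n : ℝ} (h : k6a1Cnt A s n) (g : S → T) : k6a1Cnt A (fun e => g (s e)) n := by
  classical
  obtain ⟨F, hF, hm⟩ := h
  refine ⟨F.image g, ?_, fun e he => Finset.mem_image_of_mem g (hm e he)⟩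
  refine le_trans ?_ hF
  exact_mod_cast Finset.card_image_le

theorem k6a1_cnt_pre {Ω Ω' S : Type} {A : Set Ω} {s : Ω → S} {n : ℝ} (h : k6a1Cnt A s n) (φ : Ω' → Ω) : k6a1Cnt (φ ⁻¹' A) (fun e => s (φ e)) n := by
  obtain ⟨F, hF, hm⟩ := h
  exact ⟨F, hF, fun e he => hm (φ e) he⟩

theorem k6a1_cnt_pair {Ω S T : Type} {A : Set Ω} {s : Ω → S} {t : Ω → T} {n n' : ℝ} (h : k6a1Cnt A s n) (h' : k6a1Cnt A t n') (hn : 0 ≤ n') :
    k6a1Cnt A (fun e => (s e, t e)) (n * n') := by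
  obtain ⟨F, hF, hm⟩ := h
  obtain ⟨F', hF', hm'⟩ := h'
  refine ⟨F ×ˢ F', ?_, fun e he => Finset.mem_product.mpr ⟨hm e he, hm' e he⟩⟩
  rw [Finset.card_product]
  push_cast
  exact mul_le_mul hF hF' (Nat.cast_nonneg _) ((Nat.cast_nonneg _).trans hF)

/-- `≤ n` values of `s`, and `≤ n'` values of `t` on every fibre of `s` (`Finset.biUnion`, `Finset.card_biUnion_le`) -/
theorem k6a1_cnt_fib {Ω S T : Type} {A : Set Ω} {s : Ω → S} {t : Ω → T} {n n' : ℝ} (h : k6a1Cnt A s n) (hn : 0 ≤ n')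
    (h' : ∀ s0, k6a1Cnt (A ∩ s ⁻¹' {s0}) t n') : k6a1Cnt A t (n * n') := by
  classical
  obtain ⟨F, hF, hm⟩ := h
  choose F' hF' hm' using h'
  refine ⟨F.biUnion F', ?_, ?_⟩
  · calc ((F.biUnion F').card : ℝ) ≤ ((∑ a ∈ F, (F' a).card : ℕ) : ℝ) := by exact_mod_cast Finset.card_biUnion_le
      _ = ∑ a ∈ F, ((F' a).card : ℝ) := by push_cast; rfl
      _ ≤ ∑ _a ∈ F, n' := Finset.sum_le_sum fun a _ => hF' a
      _ = (F.card : ℝ) * n' := by rw [Finset.sum_const, nsmul_eq_mul]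
      _ ≤ n * n' := mul_le_mul_of_nonneg_right hF hn
  · intro e he
    exact Finset.mem_biUnion.mpr ⟨s e, hm e he, hm' (s e) e ⟨he, rfl⟩⟩

/-- **paying**: disjoint events `B ∩ {s = a}`, each of mass `≥ c > 0`, inside a set `B ⊇ A` of mass `≤ M` : the label takes at most `M / c` values on `A`.
PLAN: every finite set `F'` of values taken on `A` has `c * card F' ≤ ∑_{a ∈ F'} μ (B ∩ {s = a}) = μ (⋃ ..) ≤ M` (`measure_biUnion_finset`; the events `B ∩ s ⁻¹' {a}` need only `hs` via `measure_biUnion_finset₀` or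
`MeasureTheory.measure_biUnion_finset` for `μ.restrict`-free form: use `∑ μ (B ∩ s⁻¹{a}) ≤ μ B` from `measure_iUnion`-type lemma for `μ.restrict B`, where `(μ.restrict B) (s⁻¹{a}) = μ (s⁻¹{a} ∩ B)` by `Measure.restrict_apply (hs a)`);
so the set of values `s '' A` is finite with `card ≤ M / c` (`Set.infinite`-argument: an infinite set has finite subsets of every cardinality, `Set.Infinite.exists_subset_card_eq`). -/
theorem k6a1_cnt_pay {Ω S : Type} [MeasurableSpace Ω] (μ : Measure Ω) (A B : Set Ω) (s : Ω → S) (hs : ∀ a, MeasurableSet (s ⁻¹' {a})) (c M : ℝ)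
    (hc : 0 < c) (hM0 : 0 ≤ M) (hM : μ B ≤ ENNReal.ofReal M) (hlo : ∀ e ∈ A, ENNReal.ofReal c ≤ μ (B ∩ s ⁻¹' {s e})) :
    k6a1Cnt A s (M / c) := by
  classical
  -- every finite list of values taken on `A` is short
  have key : ∀ F' : Finset S, (∀ a ∈ F', ∃ e ∈ A, s e = a) → (F'.card : ℝ) ≤ M / c := by
    intro F' hF'
    have h1 : ∑ a ∈ F', μ (B ∩ s ⁻¹' {a}) ≤ μ B := by
      have h2 : ∑ a ∈ F', μ (B ∩ s ⁻¹' {a}) = (μ.restrict B) (⋃ a ∈ F', s ⁻¹' {a}) := by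
        rw [measure_biUnion_finset]
        · refine Finset.sum_congr rfl fun a _ => ?_
          rw [Measure.restrict_apply (hs a), Set.inter_comm]
        · intro a _ b _ hab
          apply Set.disjoint_left.mpr
          intro x hxa hxb
          exact hab (by rw [← (show s x = a from hxa), ← (show s x = b from hxb)])
        · intro a _
          exact hs a
      rw [h2]
      calc (μ.restrict B) (⋃ a ∈ F', s ⁻¹' {a}) ≤ (μ.restrict B) Set.univ := measure_mono (Set.subset_univ _)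
        _ = μ B := by rw [Measure.restrict_apply MeasurableSet.univ, Set.univ_inter]
    have h3 : (F'.card : ℝ≥0∞) * ENNReal.ofReal c ≤ ∑ a ∈ F', μ (B ∩ s ⁻¹' {a}) := by
      calc (F'.card : ℝ≥0∞) * ENNReal.ofReal c = ∑ _a ∈ F', ENNReal.ofReal c := by rw [Finset.sum_const, nsmul_eq_mul]
        _ ≤ ∑ a ∈ F', μ (B ∩ s ⁻¹' {a}) := by
            refine Finset.sum_le_sum fun a ha => ?_
            obtain ⟨e, he, rfl⟩ := hF' a ha
            exact hlo e he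
    have h4 : ENNReal.ofReal ((F'.card : ℝ) * c) ≤ ENNReal.ofReal M := by
      rw [ENNReal.ofReal_mul (Nat.cast_nonneg _), ENNReal.ofReal_natCast]
      exact (h3.trans h1).trans hM
    rw [le_div_iff₀ hc]
    exact (ENNReal.ofReal_le_ofReal_iff hM0).mp h4
  have hfin : (s '' A).Finite := by
    by_contra hinf
    obtain ⟨t, hts, htc⟩ := Set.Infinite.exists_subset_card_eq hinf (⌊M / c⌋₊ + 1)
    have := key t (fun a ha => by
      obtain ⟨e, he, hea⟩ := hts ha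
      exact ⟨e, he, hea⟩)
    rw [htc] at this
    have h5 := Nat.lt_floor_add_one (M / c)
    push_cast at this
    linarith
  refine ⟨hfin.toFinset, key _ ?_, ?_⟩
  · intro a ha
    obtain ⟨e, he, hea⟩ := hfin.mem_toFinset.mp ha
    exact ⟨e, he, hea⟩
  · intro e he
    exact hfin.mem_toFinset.mpr ⟨e, he, rfl⟩

/-! ## 3. measurability and bounds in `K6aDat` -/

theorem k6a1_meas_y (D : K6aDat j) {K : ℝ} (hD : D.WF K) : Measurable fun e : D.L × ℝ => D.y e.1 e.2 := by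
  unfold K6aDat.y
  exact (hD.m_y0.comp measurable_fst).add (measurable_snd.smul (hD.m_V.comp measurable_fst))

theorem k6a1_t3_xc (D : K6aDat j) {K : ℝ} (hD : D.WF K) (a : Fin 3) : Measurable fun e : D.L × ℝ => D.xc e.1 a :=
  (measurable_pi_apply a).comp (hD.m_xc.comp measurable_fst)

theorem k6a1_meas_X (D : K6aDat j) {K : ℝ} (hD : D.WF K) : Measurable fun e : D.L × ℝ => D.X e.1 e.2 := by
  unfold K6aDat.X
  exact ((k6a1_t3_xc D hD 0).add ((k6a1_t3_xc D hD 1).mul measurable_snd)).add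
    ((k6a1_t3_xc D hD 2).mul (measurable_snd.pow_const 2))

theorem k6a1_meas_Xd (D : K6aDat j) {K : ℝ} (hD : D.WF K) : Measurable fun e : D.L × ℝ => D.Xd e.1 e.2 := by
  unfold K6aDat.Xd
  exact (k6a1_t3_xc D hD 1).add (((k6a1_t3_xc D hD 2).const_mul 2).mul measurable_snd)

theorem k6a1_meas_base (D : K6aDat j) {K : ℝ} (hD : D.WF K) : Measurable D.base := by
  unfold K6aDat.base
  exact measurable_snd.prodMk (k6a1_meas_y D hD)

theorem k6a1_t3_bin (i : ℕ) : Measurable (k6aBin i) := by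
  unfold k6aBin
  exact Int.measurable_floor.comp (measurable_id.mul_const _)

theorem k6a1_t3_vbin {n : ℕ} (i : ℕ) : Measurable (k6aVBin (n := n) i) := by
  unfold k6aVBin
  exact measurable_pi_lambda _ (fun a => (k6a1_t3_bin i).comp (measurable_pi_apply a))

theorem k6a1_t3_zc (D : K6aDat j) {K : ℝ} (hD : D.WF K) (i : ℕ) : Measurable (D.zc i) := by
  unfold K6aDat.zc
  exact ((k6a1_t3_bin i).comp measurable_snd).prodMk ((k6a1_t3_vbin i).comp (k6a1_meas_y D hD))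

theorem k6a1_meas_zc (D : K6aDat j) {K : ℝ} (hD : D.WF K) (i : ℕ) (c : K6aZc j) : MeasurableSet (D.zc i ⁻¹' {c}) :=
  k6a1_t3_zc D hD i (measurableSet_singleton c)

theorem k6a1_t3_wc (D : K6aDat j) {K : ℝ} (hD : D.WF K) (i : ℕ) : Measurable (D.wc i) := by
  unfold K6aDat.wc
  exact (k6a1_t3_zc D hD i).prodMk ((k6a1_t3_bin i).comp (k6a1_meas_X D hD))

theorem k6a1_meas_wc (D : K6aDat j) {K : ℝ} (hD : D.WF K) (i : ℕ) (c : K6aWc j) : MeasurableSet (D.wc i ⁻¹' {c}) :=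
  k6a1_t3_wc D hD i (measurableSet_singleton c)

theorem k6a1_meas_ms (D : K6aDat j) {K : ℝ} (hD : D.WF K) (i : ℕ) (s : D.Lb × K6aWc j) : MeasurableSet (D.ms i ⁻¹' {s}) := by
  have e : D.ms i ⁻¹' {s} = D.lab ⁻¹' {s.1} ∩ D.wc i ⁻¹' {s.2} := by
    ext x
    simp only [K6aDat.ms, Set.mem_preimage, Set.mem_singleton_iff, Set.mem_inter_iff, Prod.ext_iff]
  rw [e]
  exact (hD.m_lab _).inter (k6a1_meas_wc D hD i _)

/-- master states are countable: every set of them is an event -/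
theorem k6a1_meas_ms_set (D : K6aDat j) {K : ℝ} (hD : D.WF K) (i : ℕ) (T : Set (D.Lb × K6aWc j)) : MeasurableSet (D.ms i ⁻¹' T) := by
  have e : D.ms i ⁻¹' T = ⋃ s ∈ T, D.ms i ⁻¹' {s} := by
    ext x
    simp only [Set.mem_preimage, Set.mem_iUnion, Set.mem_singleton_iff, exists_prop, exists_eq_right']
  rw [e]
  exact MeasurableSet.biUnion (Set.to_countable T) (fun s _ => k6a1_meas_ms D hD i s)

theorem k6a1_meas_vb (D : K6aDat j) {K : ℝ} (hD : D.WF K) (i : ℕ) (J : Fin j → ℤ) : MeasurableSet {l : D.L | D.vb i l = J} := by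
  have h : Measurable (D.vb i) := by
    unfold K6aDat.vb
    exact (k6a1_t3_vbin i).comp hD.m_V
  exact h (measurableSet_singleton J)

theorem k6a1_meas_bc (D : K6aDat j) {K : ℝ} (hD : D.WF K) (i : ℕ) (B : K6aBc j) : MeasurableSet (D.bc i ⁻¹' {B}) := by
  have h : Measurable (D.bc i) := by
    unfold K6aDat.bc
    exact ((k6a1_t3_vbin i).comp hD.m_y0).prodMk (((k6a1_t3_vbin i).comp hD.m_V).prodMk ((k6a1_t3_vbin i).comp hD.m_xc))
  exact h (measurableSet_singleton B)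

theorem k6a1_prior_le_one (D : K6aDat j) {K : ℝ} (hD : D.WF K) (A : Set (D.L × ℝ)) : D.prior A ≤ 1 := by
  have := hD.prob
  refine (measure_mono (Set.subset_univ A)).trans ?_
  unfold K6aDat.prior
  rw [← Set.univ_prod_univ, Measure.prod_prod, measure_univ, one_mul, Measure.restrict_apply MeasurableSet.univ,
    Set.univ_inter, Real.volume_Icc]
  simp

/-- Tonelli for the prior -/
theorem k6a1_prior_eq (D : K6aDat j) {K : ℝ} (hD : D.WF K) (A : Set (D.L × ℝ)) (hA : MeasurableSet A) (hsub : A ⊆ Set.univ ×ˢ Set.Icc (0 : ℝ) 1) :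
    D.prior A = ∫⁻ l, volume (D.fib A l) ∂D.ν := by
  have := hD.prob
  unfold K6aDat.prior
  rw [Measure.prod_apply hA]
  refine lintegral_congr (fun l => ?_)
  rw [Measure.restrict_apply (measurable_prodMk_left hA)]
  congr 1
  ext t
  simp only [K6aDat.fib, Set.mem_inter_iff, Set.mem_preimage, Set.mem_ofPred_eq, and_iff_left_iff_imp]
  intro h
  exact (hsub h).2

theorem k6a1_y_bd (D : K6aDat j) {K : ℝ} (hD : D.WF K) (l : D.L) (t : ℝ) (ht : t ∈ Set.Icc (0 : ℝ) 1) : ‖D.y l t‖ ≤ 2 * K := by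
  obtain ⟨h0, h1, _⟩ := hD.bd l
  unfold K6aDat.y
  have hK : 0 ≤ K := (norm_nonneg _).trans h0
  calc ‖D.y0 l + t • D.V l‖ ≤ ‖D.y0 l‖ + ‖t • D.V l‖ := norm_add_le _ _
    _ = ‖D.y0 l‖ + |t| * ‖D.V l‖ := by rw [norm_smul, Real.norm_eq_abs]
    _ ≤ K + 1 * K := by
        refine add_le_add h0 (mul_le_mul ?_ h1 (norm_nonneg _) zero_le_one)
        rw [abs_of_nonneg ht.1]; exact ht.2
    _ = 2 * K := by ring

theorem k6a1_t3_xc_bd (D : K6aDat j) {K : ℝ} (hD : D.WF K) (l : D.L) (a : Fin 3) : |D.xc l a| ≤ K :=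
  (norm_le_pi_norm (D.xc l) a).trans (hD.bd l).2.2

theorem k6a1_X_bd (D : K6aDat j) {K : ℝ} (hD : D.WF K) (l : D.L) (t : ℝ) (ht : t ∈ Set.Icc (0 : ℝ) 1) : |D.X l t| ≤ 3 * K := by
  have h0 := k6a1_t3_xc_bd D hD l 0
  have h1 := k6a1_t3_xc_bd D hD l 1
  have h2 := k6a1_t3_xc_bd D hD l 2
  have hK : 0 ≤ K := (abs_nonneg _).trans h0
  unfold K6aDat.X
  have a1 : |D.xc l 1 * t| ≤ K := by
    rw [abs_mul, abs_of_nonneg ht.1]
    calc |D.xc l 1| * t ≤ K * 1 := mul_le_mul h1 ht.2 ht.1 hK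
      _ = K := mul_one K
  have a2 : |D.xc l 2 * t ^ 2| ≤ K := by
    rw [abs_mul, abs_of_nonneg (by positivity : (0 : ℝ) ≤ t ^ 2)]
    calc |D.xc l 2| * t ^ 2 ≤ K * 1 := mul_le_mul h2 (pow_le_one₀ ht.1 ht.2) (by positivity) hK
      _ = K := mul_one K
  calc |D.xc l 0 + D.xc l 1 * t + D.xc l 2 * t ^ 2| ≤ |D.xc l 0 + D.xc l 1 * t| + |D.xc l 2 * t ^ 2| := abs_add_le _ _
    _ ≤ |D.xc l 0| + |D.xc l 1 * t| + |D.xc l 2 * t ^ 2| := by gcongr; exact abs_add_le _ _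
    _ ≤ 3 * K := by linarith

theorem k6a1_Xd_bd (D : K6aDat j) {K : ℝ} (hD : D.WF K) (l : D.L) (t : ℝ) (ht : t ∈ Set.Icc (0 : ℝ) 1) : |D.Xd l t| ≤ 3 * K := by
  have h1 := k6a1_t3_xc_bd D hD l 1
  have h2 := k6a1_t3_xc_bd D hD l 2
  have hK : 0 ≤ K := (abs_nonneg _).trans h1
  unfold K6aDat.Xd
  have a2 : |2 * D.xc l 2 * t| ≤ 2 * K := by
    rw [abs_mul, abs_mul, abs_of_nonneg ht.1, abs_of_nonneg (by norm_num : (0 : ℝ) ≤ 2)]
    calc 2 * |D.xc l 2| * t ≤ 2 * K * 1 := mul_le_mul (by linarith) ht.2 ht.1 (by linarith)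
      _ = 2 * K := mul_one _
  calc |D.xc l 1 + 2 * D.xc l 2 * t| ≤ |D.xc l 1| + |2 * D.xc l 2 * t| := abs_add_le _ _
    _ ≤ 3 * K := by linarith

theorem k6a1_y_lip (D : K6aDat j) {K : ℝ} (hD : D.WF K) (l : D.L) (t t' : ℝ) : ‖D.y l t - D.y l t'‖ ≤ K * |t - t'| := by
  unfold K6aDat.y
  have e : D.y0 l + t • D.V l - (D.y0 l + t' • D.V l) = (t - t') • D.V l := by
    rw [sub_smul]; abel
  rw [e, norm_smul, Real.norm_eq_abs, mul_comm]
  exact mul_le_mul_of_nonneg_right (hD.bd l).2.1 (abs_nonneg _)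

theorem k6a1_X_lip (D : K6aDat j) {K : ℝ} (hD : D.WF K) (l : D.L) (t t' : ℝ) (ht : t ∈ Set.Icc (0 : ℝ) 1) (ht' : t' ∈ Set.Icc (0 : ℝ) 1) :
    |D.X l t - D.X l t'| ≤ 3 * K * |t - t'| := by
  have h1 := k6a1_t3_xc_bd D hD l 1
  have h2 := k6a1_t3_xc_bd D hD l 2
  have hK : 0 ≤ K := (abs_nonneg _).trans h1
  unfold K6aDat.X
  have e : D.xc l 0 + D.xc l 1 * t + D.xc l 2 * t ^ 2 - (D.xc l 0 + D.xc l 1 * t' + D.xc l 2 * t' ^ 2)
      = (D.xc l 1 + D.xc l 2 * (t + t')) * (t - t') := by ring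
  rw [e, abs_mul]
  refine mul_le_mul_of_nonneg_right ?_ (abs_nonneg _)
  have a2 : |D.xc l 2 * (t + t')| ≤ 2 * K := by
    rw [abs_mul, abs_of_nonneg (by linarith [ht.1, ht'.1] : (0 : ℝ) ≤ t + t')]
    calc |D.xc l 2| * (t + t') ≤ K * 2 := mul_le_mul h2 (by linarith [ht.2, ht'.2]) (by linarith [ht.1, ht'.1]) hK
      _ = 2 * K := by ring
  calc |D.xc l 1 + D.xc l 2 * (t + t')| ≤ |D.xc l 1| + |D.xc l 2 * (t + t')| := abs_add_le _ _
    _ ≤ 3 * K := by linarith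

/-- coarser labels are functions of finer ones -/
theorem k6a1_wc_coarse (D : K6aDat j) {i i' : ℕ} (h : i ≤ i') {e e' : D.L × ℝ} (hb : D.wc i' e = D.wc i' e') : D.wc i e = D.wc i e' := by
  unfold K6aDat.wc K6aDat.zc at hb ⊢
  simp only [Prod.mk.injEq] at hb ⊢
  exact ⟨⟨k6a1_bin_coarse h hb.1.1, k6a1_vbin_coarse h hb.1.2⟩, k6a1_bin_coarse h hb.2⟩

theorem k6a1_zc_of_wc (D : K6aDat j) {i : ℕ} {e e' : D.L × ℝ} (hb : D.wc i e = D.wc i e') : D.zc i e = D.zc i e' :=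
  congrArg Prod.fst hb

/-- all cells which occur are in a finite list (bounded coefficients) -/
theorem k6a1_wc_fin (D : K6aDat j) {K : ℝ} (hD : D.WF K) (i : ℕ) : ∃ n : ℝ, k6a1Cnt (Set.univ ×ˢ Set.Icc (0 : ℝ) 1 : Set (D.L × ℝ)) (D.wc i) n := by
  classical
  have hK : 0 ≤ K := (norm_nonneg _).trans (hD.bd (Classical.choice (by have := hD.prob; exact nonempty_of_isProbabilityMeasure D.ν))).1
  obtain ⟨F1, _, h1⟩ := k6a1_bin_unit i
  obtain ⟨F2, _, h2⟩ := k6a1_vbin_range (n := j) i 0 (2 * K) (by linarith)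
  obtain ⟨F3, _, h3⟩ := k6a1_bin_range i 0 (3 * K) (by linarith)
  refine ⟨_, (F1 ×ˢ F2) ×ˢ F3, le_rfl, fun e he => ?_⟩
  have ht : e.2 ∈ Set.Icc (0 : ℝ) 1 := he.2
  refine Finset.mem_product.2 ⟨Finset.mem_product.2 ⟨h1 _ ht, h2 _ ?_⟩, h3 _ ?_⟩
  · simpa using k6a1_y_bd D hD e.1 e.2 ht
  · simpa using k6a1_X_bd D hD e.1 e.2 ht

theorem k6a1_bc_fin (D : K6aDat j) {K : ℝ} (hD : D.WF K) (i : ℕ) : ∃ n : ℝ, k6a1Cnt (Set.univ : Set D.L) (D.bc i) n := by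
  classical
  have hK : 0 ≤ K := (norm_nonneg _).trans (hD.bd (Classical.choice (by have := hD.prob; exact nonempty_of_isProbabilityMeasure D.ν))).1
  obtain ⟨F2, _, h2⟩ := k6a1_vbin_range (n := j) i 0 K hK
  obtain ⟨F3, _, h3⟩ := k6a1_vbin_range (n := 3) i 0 K hK
  refine ⟨_, F2 ×ˢ (F2 ×ˢ F3), le_rfl, fun l _ => ?_⟩
  obtain ⟨b0, b1, b2⟩ := hD.bd l
  refine Finset.mem_product.2 ⟨h2 _ ?_, Finset.mem_product.2 ⟨h2 _ ?_, h3 _ ?_⟩⟩
  · simpa using b0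
  · simpa using b1
  · simpa using b2

/-! ## 4. the two prunings -/

/-- the incidences whose portion `{τ : (l, τ) ∈ E, s (l, τ) = s (l, t)}` has duration `≥ c` -/
def k6a1Dur (D : K6aDat j) {S : Type} (s : D.L × ℝ → S) (E : Set (D.L × ℝ)) (c : ℝ) : Set (D.L × ℝ) :=
  {x | x ∈ E ∧ ENNReal.ofReal c ≤ volume {τ | (x.1, τ) ∈ E ∧ s (x.1, τ) = s x}}

/-- the incidences whose state has mass `≥ θ` in `E` -/
def k6a1Hv {Ω S : Type} [MeasurableSpace Ω] (μ : Measure Ω) (s : Ω → S) (E : Set Ω) (θ : S → ℝ≥0∞) : Set Ω :=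
  {x | x ∈ E ∧ θ (s x) ≤ μ (E ∩ s ⁻¹' {s x})}

theorem k6a1_tools_eqns_cite : True := by
  have := @k6a1Dur.eq_1
  have := @k6a1Hv.eq_1
  trivial

/-- **duration pruning** (`a03:time-slice`, deletion bound).   Every line carries `≤ n` values of the label: deleting the portions of duration `< c` costs `≤ n c`.
PLAN: `k6a1Dur = ⋃_a (E ∩ {s = a}) ∩ {x | c ≤ vol (section at x.1 of E ∩ {s = a})}`, countable union, `measurable_measure_prodMk_left`.   Loss: `k6a1_prior_eq`-type Tonelli (`Measure.prod_apply`); for fixed `l` the deleted times are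
the union over the `≤ n` values `a` of the list of portions of measure `< c`. -/
theorem k6a1_prune_dur (D : K6aDat j) {K : ℝ} (hD : D.WF K) {S : Type} [Countable S] (s : D.L × ℝ → S) (hs : ∀ a, MeasurableSet (s ⁻¹' {a}))
    (E : Set (D.L × ℝ)) (hE : MeasurableSet E) (c n : ℝ) (hc : 0 ≤ c) (hn : ∀ l : D.L, k6a1Cnt {x : D.L × ℝ | x ∈ E ∧ x.1 = l} s n) :
    MeasurableSet (k6a1Dur D s E c) ∧ D.prior (E \ k6a1Dur D s E c) ≤ ENNReal.ofReal (n * c) := by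
  classical
  have := hD.prob
  have hEa : ∀ a, MeasurableSet (E ∩ s ⁻¹' {a}) := fun a => hE.inter (hs a)
  have hg : ∀ a, Measurable (fun l : D.L => volume (Prod.mk l ⁻¹' (E ∩ s ⁻¹' {a}))) :=
    fun a => measurable_measure_prodMk_left (hEa a)
  have hset : ∀ x : D.L × ℝ, {τ | (x.1, τ) ∈ E ∧ s (x.1, τ) = s x} = Prod.mk x.1 ⁻¹' (E ∩ s ⁻¹' {s x}) := by
    intro x; ext τ; rfl
  have heq : k6a1Dur D s E c = ⋃ a, (E ∩ s ⁻¹' {a}) ∩
      Prod.fst ⁻¹' {l | ENNReal.ofReal c ≤ volume (Prod.mk l ⁻¹' (E ∩ s ⁻¹' {a}))} := by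
    ext x
    constructor
    · rintro ⟨hx, hv⟩
      rw [hset] at hv
      exact Set.mem_iUnion.2 ⟨s x, ⟨hx, rfl⟩, hv⟩
    · intro hx
      obtain ⟨a, ⟨hx, ha⟩, hv⟩ := Set.mem_iUnion.1 hx
      have ha' : s x = a := ha
      subst ha'
      refine ⟨hx, ?_⟩
      rw [hset]
      exact hv
  have hm : MeasurableSet (k6a1Dur D s E c) := by
    rw [heq]
    exact MeasurableSet.iUnion (fun a => (hEa a).inter (measurable_fst (measurableSet_le measurable_const (hg a))))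
  refine ⟨hm, ?_⟩
  unfold K6aDat.prior
  rw [Measure.prod_apply (hE.diff hm)]
  have hpt : ∀ l : D.L, (volume.restrict (Set.Icc (0 : ℝ) 1)) (Prod.mk l ⁻¹' (E \ k6a1Dur D s E c)) ≤ ENNReal.ofReal (n * c) := by
    intro l
    refine (Measure.restrict_le_self _).trans ?_
    obtain ⟨F, hFc, hF⟩ := hn l
    have hsub : Prod.mk l ⁻¹' (E \ k6a1Dur D s E c) ⊆
        ⋃ a ∈ F.filter (fun a => volume (Prod.mk l ⁻¹' (E ∩ s ⁻¹' {a})) < ENNReal.ofReal c), Prod.mk l ⁻¹' (E ∩ s ⁻¹' {a}) := by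
      intro τ hτ
      obtain ⟨hE', hnot⟩ := hτ
      have h1 : s (l, τ) ∈ F := hF (l, τ) ⟨hE', rfl⟩
      refine Set.mem_biUnion (Finset.mem_coe.2 (Finset.mem_filter.2 ⟨h1, ?_⟩)) ⟨hE', rfl⟩
      by_contra hcon
      refine hnot ⟨hE', ?_⟩
      rw [hset]
      exact not_lt.1 hcon
    calc volume (Prod.mk l ⁻¹' (E \ k6a1Dur D s E c))
        ≤ volume (⋃ a ∈ F.filter (fun a => volume (Prod.mk l ⁻¹' (E ∩ s ⁻¹' {a})) < ENNReal.ofReal c),
            Prod.mk l ⁻¹' (E ∩ s ⁻¹' {a})) := measure_mono hsub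
      _ ≤ ∑ a ∈ F.filter (fun a => volume (Prod.mk l ⁻¹' (E ∩ s ⁻¹' {a})) < ENNReal.ofReal c),
            volume (Prod.mk l ⁻¹' (E ∩ s ⁻¹' {a})) := measure_biUnion_finset_le _ _
      _ ≤ ∑ _a ∈ F.filter (fun a => volume (Prod.mk l ⁻¹' (E ∩ s ⁻¹' {a})) < ENNReal.ofReal c), ENNReal.ofReal c :=
            Finset.sum_le_sum (fun a ha => (Finset.mem_filter.1 ha).2.le)
      _ = ENNReal.ofReal (((F.filter (fun a => volume (Prod.mk l ⁻¹' (E ∩ s ⁻¹' {a})) < ENNReal.ofReal c)).card : ℝ) * c) := by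
            rw [Finset.sum_const, nsmul_eq_mul, ENNReal.ofReal_mul (Nat.cast_nonneg _), ENNReal.ofReal_natCast]
      _ ≤ ENNReal.ofReal (n * c) := by
            refine ENNReal.ofReal_le_ofReal (mul_le_mul_of_nonneg_right (le_trans ?_ hFc) hc)
            exact_mod_cast Finset.card_filter_le _ _
  calc ∫⁻ l, (volume.restrict (Set.Icc (0 : ℝ) 1)) (Prod.mk l ⁻¹' (E \ k6a1Dur D s E c)) ∂D.ν
      ≤ ∫⁻ _l, ENNReal.ofReal (n * c) ∂D.ν := lintegral_mono hpt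
    _ = ENNReal.ofReal (n * c) := by rw [lintegral_const, measure_univ, mul_one]

/-- **pruning of light states.**   PLAN: `k6a1Hv = E ∩ s ⁻¹' {a | θ a ≤ μ (E ∩ {s = a})}` (countable union of fibres); the deleted part is `⋃_{a ∈ F, light} E ∩ {s = a}`, `measure_biUnion_finset_le`. -/
theorem k6a1_prune_light {Ω S : Type} [MeasurableSpace Ω] [Countable S] (μ : Measure Ω) (s : Ω → S) (hs : ∀ a, MeasurableSet (s ⁻¹' {a}))
    (E : Set Ω) (hE : MeasurableSet E) (θ : S → ℝ≥0∞) (F : Finset S) (hF : ∀ x ∈ E, s x ∈ F) :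
    MeasurableSet (k6a1Hv μ s E θ) ∧ μ (E \ k6a1Hv μ s E θ) ≤ ∑ a ∈ F, θ a := by
  classical
  have hpre : ∀ T : Set S, MeasurableSet (s ⁻¹' T) := by
    intro T
    have : s ⁻¹' T = ⋃ a ∈ T, s ⁻¹' {a} := by
      ext x
      simp
    rw [this]
    exact MeasurableSet.biUnion (Set.to_countable T) fun a _ => hs a
  have e : k6a1Hv μ s E θ = E ∩ s ⁻¹' {a | θ a ≤ μ (E ∩ s ⁻¹' {a})} := by
    ext x
    rfl
  refine ⟨by rw [e]; exact hE.inter (hpre _), ?_⟩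
  have hsub : E \ k6a1Hv μ s E θ ⊆ ⋃ a ∈ F.filter (fun a => μ (E ∩ s ⁻¹' {a}) < θ a), E ∩ s ⁻¹' {a} := by
    rintro x ⟨hx, hnx⟩
    have hlt : μ (E ∩ s ⁻¹' {s x}) < θ (s x) := by
      by_contra hcon
      exact hnx ⟨hx, not_lt.mp hcon⟩
    simp only [Set.mem_iUnion]
    exact ⟨s x, Finset.mem_filter.mpr ⟨hF x hx, hlt⟩, hx, rfl⟩
  calc μ (E \ k6a1Hv μ s E θ) ≤ μ (⋃ a ∈ F.filter (fun a => μ (E ∩ s ⁻¹' {a}) < θ a), E ∩ s ⁻¹' {a}) := measure_mono hsub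
    _ ≤ ∑ a ∈ F.filter (fun a => μ (E ∩ s ⁻¹' {a}) < θ a), μ (E ∩ s ⁻¹' {a}) := measure_biUnion_finset_le _ _
    _ ≤ ∑ a ∈ F.filter (fun a => μ (E ∩ s ⁻¹' {a}) < θ a), θ a :=
        Finset.sum_le_sum fun a ha => (Finset.mem_filter.mp ha).2.le
    _ ≤ ∑ a ∈ F, θ a := Finset.sum_le_sum_of_subset (Finset.filter_subset _ _)

end

end Claimed.Agent.R252
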